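import Vale.Agent.P073.H926.Num3B
import Vale.Agent.P073.H880.RP0
import Vale.Agent.P073.H142.Hull

/-!
# P073, block [K3C]: ROUND P, the data ([DAT]), part A: positions of the cells after round T
-/

open Set Metric Topology Filter

namespace Vale.Agent.P073.H926

open _root_.P073 _root_.P073.Net _root_.P073.PA691 _root_.P073.TM
open Vale.Agent.P073.St (V)
open Vale.Agent.P073.H471 Vale.Agent.P073.H267
open Vale.Agent.P073.H73 (Mesh)
open Vale.Agent.P073.H304 (Nb In Zmax)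
open _root_.P073.H345 (PK PK_sub_ss τ_as_PK PB_sub_PK tg)

section geo

variable {Λ : Set V} {v : V} {K : BoxCx Λ v} {S : Rad K} {W : Wid K S} {B : Boxes W} {G : Geo B}
  {x y : V} {q : K.T}

/-- a neighbourhood of the support of the maps at the square `s` -/
def PX (G : Geo B) (s : K.S) : Set V :=
  {y | (∀ j, j ≠ K.nrm s → K.slo s j + 1 / 2 * G.p s ≤ y j ∧ y j ≤ K.shi s j - 1 / 2 * G.p s) ∧
    |y (K.nrm s) - K.slo s (K.nrm s)| ≤ 7 / 4 * B.τ s}

theorem PK_sub_PX (s : K.S) : PK G s ⊆ PX G s := by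
  intro y hy
  have hp := Geo.p_pos (G := G) s
  have hτ := B.τ_pos s
  refine ⟨fun j hj => ?_, by linarith [hy.2]⟩
  have := hy.1 j hj
  constructor <;> linarith

theorem PX_of_near {s : K.S} (hy : y ∈ PK G s) (h : ‖x - y‖ ≤ B.τ s / 4) : x ∈ PX G s := by
  have hp := Geo.p_pos (G := G) s
  have hτ := B.τ_pos s
  have hτp := G.τ_p s
  refine ⟨fun j hj => ?_, ?_⟩
  · have h1 := hy.1 j hj
    have h2 := abs_le.1 ((abs_sub_le_norm x y j).trans h)
    constructor <;> linarith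
  · have h2 := (abs_sub_le_norm x y (K.nrm s)).trans h
    have h3 := abs_sub_le (x (K.nrm s)) (y (K.nrm s)) (K.slo s (K.nrm s))
    linarith [hy.2]

theorem τ_as_PX {s : K.S} (hy : y ∈ PX G s) : B.τ s ≤ W.as s y := by
  refine le_marg (B.τ_le s) fun k hk => ?_
  have h1 := hy.1 k (by simpa using hk)
  have h2 := G.τ_p s
  have h3 := Geo.p_pos (G := G) s
  constructor <;> linarith

theorem PX_sub_ss (s : K.S) : PX G s ⊆ W.ss s := by
  intro y hy
  have h1 := τ_as_PX hy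
  have hτ := B.τ_pos s
  show nJ {K.nrm s} (K.slo s) y < 2 * W.as s y
  have h2 : nJ {K.nrm s} (K.slo s) y ≤ 7 / 4 * B.τ s :=
    (nJ_le_iff (by linarith)).2 fun k hk => by rw [Finset.mem_singleton.1 hk]; exact hy.2
  linarith

theorem tile_PX {s : K.S} (hy : y ∈ PX G s) (hq : y ∈ K.cube q) : q = K.sm s ∨ q = K.sp s :=
  (near_self (PX_sub_ss s hy)).tile hq

theorem near_PX {s : K.S} (hy : y ∈ PX G s) (hs : q = K.sm s ∨ q = K.sp s)
    (hx : ‖y - x‖ ≤ G.κ q) : Near K s x := by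
  refine near_of_le (PX_sub_ss s hy) (hx.trans_lt ?_)
  have h1 := G.κ_τ q s hs
  have h2 := τ_as_PX hy
  have h3 := B.τ_pos s
  linarith

/-- position of a point near a plate in its tile -/
theorem pos_PX {s : K.S} (hy : y ∈ PX G s) (hq : y ∈ K.cube q) :
    (q = K.sm s ∨ q = K.sp s) ∧
    (∀ k, k ≠ K.nrm s → K.lo q k + G.κ q < y k ∧ y k < K.hi q k - G.κ q) ∧
    ((q = K.sm s ∧ K.hi q (K.nrm s) - y (K.nrm s) = |y (K.nrm s) - K.slo s (K.nrm s)| ∧
        K.lo q (K.nrm s) + G.κ q < y (K.nrm s)) ∨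
      (q = K.sp s ∧ y (K.nrm s) - K.lo q (K.nrm s) = |y (K.nrm s) - K.slo s (K.nrm s)| ∧
        y (K.nrm s) < K.hi q (K.nrm s) - G.κ q)) := by
  have hτ := B.τ_pos s
  have h1 := τ_as_PX hy
  have h2 := hy.2
  have h0 : 0 < W.as s y := hτ.trans_le h1
  have hqs := tile_PX hy hq
  have hκτ := G.κ_τ q s hqs
  have hκ := G.κ_pos q
  have h2' := abs_le.1 h2
  have hws := B.τ_le s
  obtain ⟨hl1, hl2⟩ := K.s_lev s
  refine ⟨hqs, fun k hkn => ?_, ?_⟩
  · have ht := marg_taper h0 (k := k) (by simpa using hkn)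
    have e : marg {K.nrm s} (K.slo s) (K.shi s) (W.ws s) y = W.as s y := rfl
    rw [e] at ht
    have hsub := sq_sub_of hqs
    have h3 := (hsub (slo_mem s)).1 k
    have h4 := (hsub (shi_mem s)).2 k
    constructor <;> linarith [ht.1, ht.2]
  · rcases hqs with rfl | rfl
    · have h3 := W.ws_le s
      have h5 := hq.2 (K.nrm s)
      left
      rw [hl1] at h5 ⊢
      refine ⟨rfl, ?_, by linarith⟩
      rw [abs_sub_comm, abs_of_nonneg (by linarith)]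
    · have h3 := W.ws_le' s
      have h5 := hq.1 (K.nrm s)
      right
      rw [hl2] at h5 ⊢
      refine ⟨rfl, ?_, by linarith⟩
      rw [abs_of_nonneg (by linarith)]

theorem mid_iff_PX {s : K.S} (hy : y ∈ PX G s) (hq : y ∈ K.cube q) {r : ℝ}
    (hrκ : r ≤ G.κ q) :
    ((∀ k, K.lo q k + r ≤ y k ∧ y k ≤ K.hi q k - r) ↔
      r ≤ |y (K.nrm s) - K.slo s (K.nrm s)|) ∧
    ((∀ k, K.lo q k + r < y k ∧ y k < K.hi q k - r) ↔
      r < |y (K.nrm s) - K.slo s (K.nrm s)|) := by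
  obtain ⟨-, h3, h4⟩ := pos_PX (G := G) hy hq
  constructor
  · constructor
    · intro h
      obtain ⟨h5, h6⟩ := h (K.nrm s)
      rcases h4 with ⟨-, h4, -⟩ | ⟨-, h4, -⟩ <;> rw [← h4] <;> linarith
    · intro h k
      by_cases hk : k = K.nrm s
      · subst hk
        rcases h4 with ⟨-, h4, h4'⟩ | ⟨-, h4, h4'⟩ <;> rw [← h4] at h <;> constructor <;> linarith
      · obtain ⟨h5, h6⟩ := h3 k hk
        constructor <;> linarith
  · constructor
    · intro h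
      obtain ⟨h5, h6⟩ := h (K.nrm s)
      rcases h4 with ⟨-, h4, -⟩ | ⟨-, h4, -⟩ <;> rw [← h4] <;> linarith
    · intro h k
      by_cases hk : k = K.nrm s
      · subst hk
        rcases h4 with ⟨-, h4, h4'⟩ | ⟨-, h4, h4'⟩ <;> rw [← h4] at h <;> constructor <;> linarith
      · obtain ⟨h5, h6⟩ := h3 k hk
        constructor <;> linarith

end geo

variable {c₀ n δ : ℝ} {j : ℕ} {Ω Λ : Set V} {v w : V} {ρ : V → ℝ} {M : Mesh Ω} {h : ConHomeo Ω Λ}
  {J₀ J : Set (ℕ × (Fin 3 → ℤ))} {P Z : Set M.ι} {K : BoxCx Λ w} {x y : V} {q t : K.T}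
  {h1 : ConHomeo Ω Λ}

/-- every value of `h1` on the cell `i` is close to a value of `h` on the cell -/
def NearC {S : Rad K} {W : Wid K S} {B : Boxes W} (G : Geo B) (M : Mesh Ω) (h h1 : V → V)
    (i : M.ι) : Prop :=
  ∀ x ∈ M.Q i, ∃ x' ∈ M.Q i, ∀ q, h x' ∈ K.cube q → ‖h1 x - h x'‖ ≤ 5 * G.om q

namespace KIn3

variable (D : KIn3 c₀ n j δ v w ρ M h J₀ J P Z) (C : Cells ρ w K)

/-- closeness on the faces gives closeness on the cells near the processed tiles -/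
theorem nearC_of_face
    (hT : ∀ k, ∀ x ∈ M.F k, ∀ q, h.toFun x ∈ K.cube q → ‖h1.toFun x - h.toFun x‖ ≤ (D.G C).om q)
    {i : M.ι} (hi : i ∉ P) (hm : (h.toFun '' M.Q i ∩ Nb w J₀ c₀).Nonempty) :
    NearC (D.G C) M h.toFun h1.toFun i := by
  obtain ⟨_, ⟨x₀, hx₀, rfl⟩, hN⟩ := hm
  obtain ⟨t, ht, x₁, hx₁, hxy⟩ := (D.mem_Nb C).1 hN
  have hosc := D.small C hi ht ⟨_, mem_image_of_mem _ hx₀, (mem_Nb_one C).2 ⟨x₁, hx₁, hxy⟩⟩
  have hTt := C.sT_pos t
  have hδ := D.δpos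
  have hδ1 : δ ≤ 1 / 4096 := by
    have h1 := D.δle
    have h2 := D.η_le_one
    linarith
  have hΛ := D.bΛ.1
  have hc : c₀ + δ ≤ 1 / 8 := by linarith [D.le]
  -- tiles of the values on the cell
  have hcmp : ∀ z ∈ M.Q i, ∀ q, h.toFun z ∈ K.cube q →
      C.sT q ≤ 4 * C.sT t ∧ C.sT t ≤ 4 * C.sT q := by
    intro z hz q hq
    refine D.comp C hc hx₁ hq ?_
    have h2 := hosc z hz x₀ hx₀
    calc ‖h.toFun z - x₁‖ = ‖(h.toFun z - h.toFun x₀) + (h.toFun x₀ - x₁)‖ := by congr 1; abel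
      _ ≤ ‖h.toFun z - h.toFun x₀‖ + ‖h.toFun x₀ - x₁‖ := norm_add_le _ _
      _ ≤ (c₀ + δ) * C.sT t := by linarith
  have key : ∀ a ∈ frontier (M.Q i), ∀ z ∈ M.Q i, ∀ q, h.toFun z ∈ K.cube q →
      ‖h1.toFun a - h.toFun z‖ ≤ 5 * (D.G C).om q := by
    intro a ha z hz q hq
    have haQ : a ∈ M.Q i := (M.poly i).cpt.isClosed.frontier_subset ha
    obtain ⟨k, hak, hk⟩ := M.bd i a ha
    obtain ⟨qa, hqa⟩ := K.cover _ (h.mapsTo (M.sub i haQ))
    have e1 := hT k a hak qa hqa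
    have c1 := hcmp a haQ qa hqa
    have c2 := hcmp z hz q hq
    have hosc' := hosc a haQ z hz
    have e2 : C.sT qa ≤ 4 * C.sT q := by
      refine sT_comp' C D.hρ (x := h.toFun a) (y := h.toFun z) hqa hq ?_
      rw [norm_sub_rev]
      refine hosc'.trans ?_
      have : δ * C.sT t ≤ 1 / 4096 * C.sT t := mul_le_mul_of_nonneg_right hδ1 hTt.le
      linarith [c1.2]
    have e3 : (D.G C).om qa ≤ 4 * (D.G C).om q := by
      show o3 n * C.sT qa ≤ 4 * (o3 n * C.sT q)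
      nlinarith [o3_pos D.pos]
    have e4 : δ * C.sT t ≤ (D.G C).om q := by
      show δ * C.sT t ≤ o3 n * C.sT q
      have h3 := D.δ_le
      have h4 := δ3_eq (n := n)
      have h5 := o3_pos D.pos
      have h6 : δ ≤ o3 n / 4 := by linarith
      have h7 : δ * C.sT t ≤ o3 n / 4 * C.sT t := mul_le_mul_of_nonneg_right h6 hTt.le
      have h8 : o3 n / 4 * C.sT t ≤ o3 n / 4 * (4 * C.sT q) :=
        mul_le_mul_of_nonneg_left c2.2 (by linarith)
      linarith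
    calc ‖h1.toFun a - h.toFun z‖ = ‖(h1.toFun a - h.toFun a) + (h.toFun a - h.toFun z)‖ := by
          congr 1; abel
      _ ≤ ‖h1.toFun a - h.toFun a‖ + ‖h.toFun a - h.toFun z‖ := norm_add_le _ _
      _ ≤ 5 * (D.G C).om q := by linarith
  intro x hx
  refine ⟨x, hx, fun q hq => ?_⟩
  have hom := (D.G C).om_pos q
  rw [pi_norm_le_iff_of_nonneg (by linarith)]
  intro l
  obtain ⟨a, ha, h2⟩ := _root_.P073.H142.exists_frontier_ge hΛ h1 (M.poly i).cpt (M.sub i) l hx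
  obtain ⟨b, hb, h3⟩ := _root_.P073.H142.exists_frontier_le hΛ h1 (M.poly i).cpt (M.sub i) l hx
  have h4 := abs_le.1 ((abs_sub_le_norm _ _ l).trans (key a ha x hx q hq))
  have h5 := abs_le.1 ((abs_sub_le_norm _ _ l).trans (key b hb x hx q hq))
  rw [Real.norm_eq_abs, Pi.sub_apply, abs_le]
  constructor <;> linarith

/-- the value of `h` near a value of `h1` in a plate -/
theorem exists_near {i : M.ι} (hn : NearC (D.G C) M h.toFun h1.toFun i) (hx : x ∈ M.Q i)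
    {s : K.S} (hxs : h1.toFun x ∈ PK (D.G C) s) :
    ∃ x' ∈ M.Q i, h.toFun x' ∈ PX (D.G C) s ∧ ‖h1.toFun x - h.toFun x'‖ ≤ 5 * (D.G C).oS s ∧
      ∀ q, h.toFun x' ∈ K.cube q → ‖h1.toFun x - h.toFun x'‖ ≤ 5 * (D.G C).om q := by
  obtain ⟨x', hx', hq'⟩ := hn x hx
  have hxΛ := h1.mapsTo (M.sub i hx)
  obtain ⟨q, hq⟩ := K.cover _ (h.mapsTo (M.sub i hx'))
  obtain ⟨q₁, hq₁⟩ := K.cover _ hxΛ
  have e1 := hq' q hq
  have hqs := tile_PX (PK_sub_PX s hxs) hq₁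
  have ho := o3_pos D.pos
  have hT := C.sT_pos q
  have hT1 := C.sT_pos q₁
  have hκ := D.κ_lt
  have hoκ := o3_eq (n := n)
  have e2 : C.sT q ≤ 4 * C.sT q₁ := by
    refine sT_comp' C D.hρ (x := h.toFun x') (y := h1.toFun x) hq hq₁ (e1.trans ?_)
    show 5 * (o3 n * C.sT q) ≤ _
    nlinarith
  have e3 : (D.G C).om q ≤ 4 * (D.G C).om q₁ := by
    show o3 n * C.sT q ≤ 4 * (o3 n * C.sT q₁)
    nlinarith
  have e4 := (D.G C).om_oS q₁ s hqs
  have e5 := (D.G C).oS_τ s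
  have hτ := (D.B C).τ_pos s
  have hm : h.toFun x' ∈ PX (D.G C) s := by
    refine PX_of_near hxs ?_
    rw [norm_sub_rev]
    linarith
  have e6 := (D.G C).om_oS q s (tile_PX hm hq)
  exact ⟨x', hx', hm, by linarith, hq'⟩

/-- **the cells which meet a plate after round T** -/
theorem pos_PK {s : K.S} (hs : s ∈ pS C J₀) {i : M.ι} (hi : i ∉ P)
    (hn : NearC (D.G C) M h.toFun h1.toFun i) (hx : x ∈ M.Q i)
    (hxs : h1.toFun x ∈ PK (D.G C) s) (hy : y ∈ M.Q i) :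
    ‖h.toFun y - h1.toFun x‖ ≤ 6 * (D.G C).oS s ∧
      ‖h1.toFun y - h1.toFun x‖ ≤ 11 * (D.G C).oS s := by
  obtain ⟨x', hx', hm, e1, -⟩ := D.exists_near C hn hx hxs
  have hω := D.ω3S_oS C s
  have hω0 := D.ω3S_pos C s
  have e5 := (D.G C).oS_τ s
  have hτ := (D.B C).τ_pos s
  have key : ∀ z ∈ M.Q i, ‖h.toFun z - h1.toFun x‖ ≤ 6 * (D.G C).oS s := by
    intro z hz
    have e2 := D.osc_S C hs hi hx' hz (PX_sub_ss s hm)
    rw [norm_sub_rev] at e1 e2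
    calc ‖h.toFun z - h1.toFun x‖ = ‖(h.toFun z - h.toFun x') + (h.toFun x' - h1.toFun x)‖ := by
          congr 1; abel
      _ ≤ ‖h.toFun z - h.toFun x'‖ + ‖h.toFun x' - h1.toFun x‖ := norm_add_le _ _
      _ ≤ 6 * (D.G C).oS s := by linarith
  refine ⟨key y hy, ?_⟩
  obtain ⟨y', hy', hq'⟩ := hn y hy
  obtain ⟨q, hq⟩ := K.cover _ (h.mapsTo (M.sub i hy'))
  have h2 := key y' hy'
  have hm' : h.toFun y' ∈ PX (D.G C) s := PX_of_near hxs (by linarith)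
  have e6 := (D.G C).om_oS q s (tile_PX hm' hq)
  have e7 := hq' q hq
  calc ‖h1.toFun y - h1.toFun x‖ = ‖(h1.toFun y - h.toFun y') + (h.toFun y' - h1.toFun x)‖ := by
        congr 1; abel
    _ ≤ ‖h1.toFun y - h.toFun y'‖ + ‖h.toFun y' - h1.toFun x‖ := norm_add_le _ _
    _ ≤ 11 * (D.G C).oS s := by linarith

/-- **drawn cells at a plate**: the square is processed, and the cell is near the middle plane -/
theorem drawn_PK {i : M.ι} (hi : i ∈ Zmax M w h.toFun J₀ P (2 / 2 ^ j))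
    (hn : NearC (D.G C) M h.toFun h1.toFun i) (hx : x ∈ M.Q i) {s : K.S}
    (hxs : h1.toFun x ∈ PK (D.G C) s) :
    s ∈ pS C J₀ ∧ |h1.toFun x (K.nrm s) - K.slo s (K.nrm s)| ≤ (D.B C).τ s / 5 := by
  obtain ⟨x', hx', hm, e1, -⟩ := D.exists_near C hn hx hxs
  obtain ⟨t, ht, x₁, hx₁, hxy⟩ := (D.mem_Nb C).1 (hi.2 (mem_image_of_mem _ hx'))
  obtain ⟨q, hq⟩ := K.cover _ (h.mapsTo (M.sub i hx'))
  have hη := D.η_le_κ
  have hη0 : (0:ℝ) < 1 / 2 ^ j := by positivity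
  have hκ := D.κ_lt
  have e : (2:ℝ) / 2 ^ j = 2 * (1 / 2 ^ j) := by ring
  have hcmp := D.comp C (c' := 2 / 2 ^ j) (by rw [e]; linarith) hx₁ hq hxy
  have hqs := tile_PX hm hq
  have hT := C.sT_pos q
  have hTt := C.sT_pos t
  have hd : ‖h.toFun x' - x₁‖ ≤ (D.G C).κ q := by
    refine hxy.trans ?_
    show 2 / 2 ^ j * C.sT t ≤ κ3 n * C.sT q
    rw [e]
    calc 2 * (1 / 2 ^ j) * C.sT t ≤ 2 * (1 / 2 ^ j) * (4 * C.sT q) := by gcongr; exact hcmp.2
      _ ≤ κ3 n * C.sT q := by nlinarith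
  obtain ⟨h2, h3⟩ := nrm_of_frontier (near_PX hm hqs hd) hx₁
  refine ⟨mem_pS ht h2, ?_⟩
  have h4 := (abs_sub_le_norm (h.toFun x') x₁ (K.nrm s)).trans hd
  rw [h3] at h4
  have h5 := (D.G C).κ_τ q s hqs
  have h6 := (D.G C).oS_τ s
  have h7 := (abs_sub_le_norm (h1.toFun x) (h.toFun x') (K.nrm s)).trans e1
  have h8 := abs_sub_le (h1.toFun x (K.nrm s)) (h.toFun x' (K.nrm s)) (K.slo s (K.nrm s))
  have hτ := (D.B C).τ_pos s
  linarith

/-- **drawn cells which meet a plate `PB 1 s` are in `PB (15 / 16) s`** -/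
theorem drawn_PB {i : M.ι} (hi : i ∈ Zmax M w h.toFun J₀ P (2 / 2 ^ j))
    (hn : NearC (D.G C) M h.toFun h1.toFun i) (hx : x ∈ M.Q i) {s : K.S}
    (hxs : h1.toFun x ∈ (D.G C).PB 1 s) (hy : y ∈ M.Q i) :
    h1.toFun y ∈ (D.G C).PB (15 / 16) s ∧
      |h1.toFun y (K.nrm s) - K.slo s (K.nrm s)| ≤ (D.B C).τ s / 4 := by
  have hPK : h1.toFun x ∈ PK (D.G C) s := PB_sub_PK (by norm_num) s hxs
  obtain ⟨hs, hw⟩ := D.drawn_PK C hi hn hx hPK
  have h2 := (D.pos_PK C hs hi.1 hn hx hPK hy).2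
  have h3 := (D.G C).oS_τ s
  have h4 := (D.G C).τ_p s
  have hτ := (D.B C).τ_pos s
  obtain ⟨h5, -⟩ := Geo.mem_PB.1 hxs
  have hwy : |h1.toFun y (K.nrm s) - K.slo s (K.nrm s)| ≤ (D.B C).τ s / 4 := by
    have h7 := (abs_sub_le_norm (h1.toFun y) (h1.toFun x) (K.nrm s)).trans h2
    have h8 := abs_sub_le (h1.toFun y (K.nrm s)) (h1.toFun x (K.nrm s)) (K.slo s (K.nrm s))
    linarith
  refine ⟨Geo.mem_PB.2 ⟨fun k hk => ?_, by linarith⟩, hwy⟩
  have h7 := abs_le.1 ((abs_sub_le_norm (h1.toFun y) (h1.toFun x) k).trans h2)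
  have h8 := h5 k hk
  constructor <;> linarith

end KIn3

end Vale.Agent.P073.H926
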