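import Vale.Agent.P073.H926.DatA

/-!
# P073, block [K3C]: ROUND P, the data ([DAT]), part B: cells and plates
-/

open Set Metric Topology Filter

namespace Vale.Agent.P073.H926

open _root_.P073 _root_.P073.Net _root_.P073.PA691 _root_.P073.TM
open Vale.Agent.P073.St (V)
open Vale.Agent.P073.H471 Vale.Agent.P073.H267
open Vale.Agent.P073.H73 (Mesh)
open Vale.Agent.P073.H304 (Nb In Zmax)
open _root_.P073.H345 (PK PK_sub_ss τ_as_PK PB_sub_PK tg)
open _root_.P073.H880.RP (Dat)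

section top

variable {Ω Λ : Set V} (g : ConHomeo Ω Λ)

/-- a point which is mapped into the interior of the image is in the interior -/
theorem mem_interior_of_image (hΩ : IsOpen Ω) {Q : Set V} (hQ : Q ⊆ Ω) {x : V} (hx : x ∈ Ω)
    (h : g.toFun x ∈ interior (g.toFun '' Q)) : x ∈ interior Q := by
  have h1 : IsOpen (Ω ∩ g.toFun ⁻¹' interior (g.toFun '' Q)) :=
    g.cont.isOpen_inter_preimage hΩ isOpen_interior
  refine interior_maximal ?_ h1 ⟨hx, h⟩
  rintro y ⟨hy, hy'⟩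
  obtain ⟨z, hz, he⟩ := interior_subset hy'
  rwa [← g.injOn (hQ hz) hy he]

/-- the image of the interior is open -/
theorem isOpen_image_interior (hΛ : IsOpen Λ) {Q : Set V} (hQ : Q ⊆ Ω) :
    IsOpen (g.toFun '' interior Q) :=
  _root_.P073.H142.isOpen_image_of_subset hΛ g (interior_subset.trans hQ) isOpen_interior

theorem exists_of_frontier (hΛ : IsOpen Λ) {Q : Set V} (hc : IsCompact Q) (hQ : Q ⊆ Ω) {y : V}
    (hy : y ∈ frontier (g.toFun '' Q)) : ∃ x ∈ frontier Q, g.toFun x = y := by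
  have hcI : IsCompact (g.toFun '' Q) := hc.image_of_continuousOn (g.cont.mono hQ)
  obtain ⟨x, hx, rfl⟩ := hcI.isClosed.frontier_subset hy
  refine ⟨x, ?_, rfl⟩
  rw [hc.isClosed.frontier_eq]
  refine ⟨hx, fun hi => hy.2 ?_⟩
  exact interior_maximal (image_mono interior_subset) (isOpen_image_interior g hΛ hQ)
    (mem_image_of_mem _ hi)

end top

variable {c₀ n δ : ℝ} {j : ℕ} {Ω Λ : Set V} {v w : V} {ρ : V → ℝ} {M : Mesh Ω} {h : ConHomeo Ω Λ}
  {J₀ J : Set (ℕ × (Fin 3 → ℤ))} {P Z : Set M.ι} {K : BoxCx Λ w} {x y : V} {q t : K.T}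
  {h1 : ConHomeo Ω Λ}

namespace KIn3

variable (D : KIn3 c₀ n j δ v w ρ M h J₀ J P Z) (C : Cells ρ w K)

include D in
/-- after round T, cells which are not protected do not meet the open middle cubes -/
theorem not_int_mid1 (hpr : ∀ i ∈ P, h1.toFun '' M.Q i = h.toFun '' M.Q i) {i : M.ι} (hi : i ∉ P)
    (hq : C.fT q ∈ J) {x : V} (hx : x ∈ M.Q i) :
    ¬ ∀ k, K.lo q k + 1 / 2 ^ j / 2 * C.sT q < h1.toFun x k ∧
      h1.toFun x k < K.hi q k - 1 / 2 ^ j / 2 * C.sT q := by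
  intro hcon
  have hη : (1:ℝ) / 2 ^ j ≤ 1 := D.η_le_one.trans (by norm_num)
  obtain ⟨i₀, hi₀, h0⟩ := D.inp.surj _ hq
  have hO : IsOpen {y : V | ∀ k, K.lo q k + 1 / 2 ^ j / 2 * C.sT q < y k ∧
      y k < K.hi q k - 1 / 2 ^ j / 2 * C.sT q} := by
    simp only [ofPred_forall, ofPred_and]
    exact isOpen_iInter_of_finite fun k =>
      (isOpen_lt continuous_const (continuous_apply k)).inter
        (isOpen_lt (continuous_apply k) continuous_const)
  have h2 : h1.toFun x ∈ interior (h1.toFun '' M.Q i₀) := by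
    refine interior_maximal ?_ hO hcon
    intro y hy
    rw [hpr i₀ hi₀, h0]
    exact (mem_mid C hη).2 fun k => ⟨(hy k).1.le, (hy k).2.le⟩
  have h3 := mem_interior_of_image h1 D.bΩ.1 (M.sub i₀) (M.sub i hx) h2
  have hne : i₀ ≠ i := fun e => hi (e ▸ hi₀)
  exact disjoint_left.1 (M.disj i₀ i hne) h3 hx

include D in
theorem interior_mid_sub (hpr : ∀ i ∈ P, h1.toFun '' M.Q i = h.toFun '' M.Q i) {i : M.ι}
    (hi : i ∈ P) : ∃ q : K.T, C.fT q ∈ J ∧
      ∀ y, y ∈ h1.toFun '' M.Q i ↔ ∀ k, K.lo q k + 1 / 2 ^ j / 2 * C.sT q ≤ y k ∧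
        y k ≤ K.hi q k - 1 / 2 ^ j / 2 * C.sT q := by
  have hη : (1:ℝ) / 2 ^ j ≤ 1 := D.η_le_one.trans (by norm_num)
  obtain ⟨q, hq, he⟩ := D.prot_tile C hi
  exact ⟨q, hq, fun y => by rw [hpr i hi, he]; exact mem_mid C hη⟩

theorem mem_cube_of_mid {q : K.T} (hy : ∀ k, K.lo q k + 1 / 2 ^ j / 2 * C.sT q ≤ y k ∧
    y k ≤ K.hi q k - 1 / 2 ^ j / 2 * C.sT q) : y ∈ K.cube q := by
  have hT := C.sT_pos q
  have h0 : (0:ℝ) < 1 / 2 ^ j / 2 * C.sT q := by positivity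
  exact ⟨fun k => by linarith [(hy k).1], fun k => by linarith [(hy k).2]⟩

/-- **passive cells in the full case are off the plates after round T** -/
theorem off_PK1 (hpr : ∀ i ∈ P, h1.toFun '' M.Q i = h.toFun '' M.Q i) (F : Full C J₀ J) {i : M.ι}
    (hi : i ∉ P) (hZ : i ∉ Zmax M w h.toFun J₀ P (2 / 2 ^ j))
    (hn : NearC (D.G C) M h.toFun h1.toFun i) {s : K.S} (hs : s ∈ pS C J₀) {x : V}
    (hx : x ∈ M.Q i) : h1.toFun x ∉ PK (D.G C) s := by
  intro hxs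
  obtain ⟨x', hx', hm, e1, -⟩ := D.exists_near C hn hx hxs
  obtain ⟨q, hq⟩ := K.cover _ (h1.mapsTo (M.sub i hx))
  have hqs := tile_PX (PK_sub_PX s hxs) hq
  have h3 : |h1.toFun x (K.nrm s) - K.slo s (K.nrm s)| ≤ 1 / 2 ^ j / 2 * C.sT q := by
    by_contra hcon
    push Not at hcon
    exact D.not_int_mid1 C hpr hi (F.sq hs hqs) hx
      ((mid_iff_PX (G := D.G C) (PK_sub_PX s hxs) hq (D.η_κ C q)).2.2 hcon)
  have h4 := D.η_κ C q
  have h5 := (D.G C).κ_τ q s hqs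
  have h6 := (D.G C).oS_τ s
  have h7 := (abs_sub_le_norm (h.toFun x') (h1.toFun x) (K.nrm s))
  rw [norm_sub_rev] at h7
  have h8 := abs_sub_le (h.toFun x' (K.nrm s)) (h1.toFun x (K.nrm s)) (K.slo s (K.nrm s))
  have hτ := (D.B C).τ_pos s
  obtain ⟨t, ht, h9⟩ := D.full_height C F hs hi hx' (τ_as_PX hm) (by linarith)
  exact D.far C hi hZ hx' ht h9

/-- the cells of `Zmax` are near after round T, if the faces are -/
theorem nearC_drawn
    (hT : ∀ k, ∀ x ∈ M.F k, ∀ q, h.toFun x ∈ K.cube q → ‖h1.toFun x - h.toFun x‖ ≤ (D.G C).om q)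
    {i : M.ι} (hi : i ∈ Zmax M w h.toFun J₀ P (2 / 2 ^ j)) :
    NearC (D.G C) M h.toFun h1.toFun i := by
  obtain ⟨x, hx⟩ := (M.poly i).int
  have hxQ := interior_subset hx
  refine D.nearC_of_face C hT hi.1 ⟨_, mem_image_of_mem _ hxQ, ?_⟩
  refine H304.Nb.mono ?_ (hi.2 (mem_image_of_mem _ hxQ))
  have h1 := D.η_le_κ
  have h2 := D.κ_le_c₀
  have h3 := D.c₀_pos
  have h4 := κ3_pos D.pos
  have e : (2:ℝ) / 2 ^ j = 2 * (1 / 2 ^ j) := by ring
  rw [e]; linarith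

/-! ### the data -/

/-- **the data of ROUND P** -/
noncomputable def dat : Dat K M where
  S₀ := pS C J₀
  G₀ := pB C J₀
  Pr := P
  Zd := Zmax M w h.toFun J₀ P (2 / 2 ^ j)
  sd s β := C.fT (if β then K.sp s else K.sm s) ∈ J
  ht s β := open Classical in if C.fT (if β then K.sp s else K.sm s) ∈ J then
    1 / 2 ^ j / 2 * C.sT (if β then K.sp s else K.sm s) else (D.B C).τ s / 2

theorem dat_ht_of {s : K.S} {β : Bool} (h : C.fT (if β then K.sp s else K.sm s) ∈ J) :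
    (D.dat C).ht s β = 1 / 2 ^ j / 2 * C.sT (if β then K.sp s else K.sm s) := if_pos h

theorem dat_ht_not {s : K.S} {β : Bool} (h : C.fT (if β then K.sp s else K.sm s) ∉ J) :
    (D.dat C).ht s β = (D.B C).τ s / 2 := if_neg h

theorem dat_ht_pos (s : K.S) (β : Bool) : 0 < (D.dat C).ht s β := by
  by_cases h : C.fT (if β then K.sp s else K.sm s) ∈ J
  · rw [D.dat_ht_of C h]
    have := C.sT_pos (if β then K.sp s else K.sm s)
    positivity
  · rw [D.dat_ht_not C h]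
    have := (D.B C).τ_pos s
    positivity

theorem dat_ht_le (s : K.S) (β : Bool) : (D.dat C).ht s β ≤ (D.B C).τ s / 2 := by
  by_cases h : C.fT (if β then K.sp s else K.sm s) ∈ J
  · rw [D.dat_ht_of C h]
    have h1 := D.η_κ C (if β then K.sp s else K.sm s)
    have h2 := (D.G C).κ_τ (if β then K.sp s else K.sm s) s (by cases β <;> simp)
    have h3 := (D.B C).τ_pos s
    linarith
  · rw [D.dat_ht_not C h]

/-- on a protected side the box of the exchange is thin -/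
theorem dat_ht_prot {s : K.S} {β : Bool} (h : (D.dat C).sd s β) :
    (D.dat C).ht s β ≤ (D.B C).τ s / 8 := by
  rw [D.dat_ht_of C h]
  have h1 := D.η_κ C (if β then K.sp s else K.sm s)
  have h2 := (D.G C).κ_τ (if β then K.sp s else K.sm s) s (by cases β <;> simp)
  linarith

theorem PE_abs {s : K.S} (hy : y ∈ (D.dat C).PE (D.G C) s) :
    |y (K.nrm s) - K.slo s (K.nrm s)| ≤ (D.B C).τ s / 2 := by
  have h1 := D.dat_ht_le C s true
  have h2 := D.dat_ht_le C s false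
  rw [abs_le]
  constructor <;> linarith [hy.2.1, hy.2.2]

theorem PE_sub_PB (s : K.S) : (D.dat C).PE (D.G C) s ⊆ (D.G C).PB 1 s := by
  intro y hy
  refine Geo.mem_PB.2 ⟨fun k hk => ?_, ?_⟩
  · rw [one_mul]; exact hy.1 k hk
  · have := (D.B C).τ_pos s
    linarith [D.PE_abs C hy]

theorem PE_sub_PK (s : K.S) : (D.dat C).PE (D.G C) s ⊆ PK (D.G C) s :=
  (D.PE_sub_PB C s).trans (PB_sub_PK (by norm_num) s)

/-- **the boxes and supports of the processed squares are near the processed tiles** -/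
theorem PK_sub_Nb {s : K.S} (hs : s ∈ (D.dat C).S₀) : PK (D.G C) s ⊆ Nb w J₀ c₀ :=
  (PK_sub_ss s).trans ((D.supp C).1 s hs)

theorem PE_sub_Nb {s : K.S} (hs : s ∈ (D.dat C).S₀) :
    (D.dat C).PE (D.G C) s ⊆ Nb w J₀ c₀ := (D.PE_sub_PK C s).trans (D.PK_sub_Nb C hs)

theorem disjoint_PE {s s' : K.S} (hne : s ≠ s') :
    Disjoint ((D.dat C).PE (D.G C) s) ((D.dat C).PE (D.G C) s') :=
  (Geo.disjoint_PB (by norm_num) hne).mono (D.PE_sub_PB C s) (D.PE_sub_PB C s')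

/-- the corners of the box of the exchange -/
theorem PE_eq (s : K.S) : (D.dat C).PE (D.G C) s = Icc
    (fun k => if k = K.nrm s then K.slo s k - (D.dat C).ht s false else K.slo s k + (D.G C).p s)
    (fun k => if k = K.nrm s then K.slo s k + (D.dat C).ht s true else K.shi s k - (D.G C).p s) := by
  ext y
  constructor
  · rintro ⟨h1, h2, h3⟩
    refine ⟨fun k => ?_, fun k => ?_⟩
    · by_cases hk : k = K.nrm s
      · subst hk; simpa using h2
      · simpa [hk] using (h1 k hk).1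
    · by_cases hk : k = K.nrm s
      · subst hk; simpa using h3
      · simpa [hk] using (h1 k hk).2
  · rintro ⟨h1, h2⟩
    refine ⟨fun k hk => ⟨?_, ?_⟩, ?_, ?_⟩
    · simpa [hk] using h1 k
    · simpa [hk] using h2 k
    · simpa using h1 (K.nrm s)
    · simpa using h2 (K.nrm s)

/-- **protected cells miss the interior of the box of the exchange** -/
theorem prot_PE (hpr : ∀ i ∈ P, h1.toFun '' M.Q i = h.toFun '' M.Q i) {i : M.ι} (hi : i ∈ P)
    (s : K.S) : Disjoint (h1.toFun '' M.Q i) (interior ((D.dat C).PE (D.G C) s)) := by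
  rw [disjoint_left]
  intro y hy hyi
  obtain ⟨q, hqJ, hq⟩ := D.interior_mid_sub C hpr hi
  have h2 := (hq y).1 hy
  have hyE := interior_subset hyi
  have hyP := PK_sub_PX s (D.PE_sub_PK C s hyE)
  have hyc := mem_cube_of_mid C h2
  rw [D.PE_eq C s] at hyi
  have h3 := Geo.interior_Icc_lt hyi (K.nrm s)
  simp only [if_true] at h3
  have h4 := (mid_iff_PX (G := D.G C) hyP hyc (D.η_κ C q)).1.1 h2
  obtain ⟨-, -, h5⟩ := pos_PX (G := D.G C) hyP hyc
  obtain ⟨hl1, hl2⟩ := K.s_lev s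
  rcases h5 with ⟨rfl, h5, -⟩ | ⟨rfl, h5, -⟩
  · have e := D.dat_ht_of C (s := s) (β := false) hqJ
    simp only [Bool.false_eq_true, if_false] at e
    rw [e] at h3
    rw [hl1] at h5
    linarith [h3.1]
  · have e := D.dat_ht_of C (s := s) (β := true) hqJ
    simp only [if_true] at e
    rw [e] at h3
    rw [hl2] at h5
    linarith [h3.2]

/-- the boxes of round T along the sides of a processed square are processed -/
theorem rel_G₀ {s : K.S} (hs : s ∈ (D.dat C).S₀) {l : Fin 3} {b : TBx K}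
    (hb : _root_.P073.H345.Rel s l b) : b ∈ (D.dat C).G₀ := by
  rcases b with e | H
  · exact inl_mem_pB.2 (pG_of_pS hs hb.1)
  · refine inr_mem_pB.2 ?_
    rw [hb.1]; exact hs

/-! ### drawn cells and faces -/

section drawn

variable
    (hT : ∀ k, ∀ x ∈ M.F k, ∀ q, h.toFun x ∈ K.cube q → ‖h1.toFun x - h.toFun x‖ ≤ (D.G C).om q)

include hT

/-- **the drawn cells are near the middle planes of the plates** -/
theorem zd_PK {i : M.ι} (hi : i ∈ (D.dat C).Zd) (hx : x ∈ M.Q i) {s : K.S}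
    (hxs : h1.toFun x ∈ PK (D.G C) s) : s ∈ (D.dat C).S₀ ∧
      |h1.toFun x (K.nrm s) - K.slo s (K.nrm s)| ≤ (D.B C).τ s / 4 := by
  obtain ⟨h2, h3⟩ := D.drawn_PK C hi (D.nearC_drawn C hT hi) hx hxs
  exact ⟨h2, by linarith [(D.B C).τ_pos s]⟩

/-- a drawn cell which meets `PB 1 s` is in `PB (15 / 16) s` -/
theorem zd_PB {i : M.ι} (hi : i ∈ (D.dat C).Zd) (hx : x ∈ M.Q i) {s : K.S}
    (hxs : h1.toFun x ∈ (D.G C).PB 1 s) : s ∈ (D.dat C).S₀ ∧ ∀ y ∈ M.Q i,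
      h1.toFun y ∈ (D.G C).PB (15 / 16) s ∧
      |h1.toFun y (K.nrm s) - K.slo s (K.nrm s)| ≤ (D.B C).τ s / 4 :=
  ⟨(D.zd_PK C hT hi hx (PB_sub_PK (by norm_num) s hxs)).1, fun _ hy =>
    D.drawn_PB C hi (D.nearC_drawn C hT hi) hx hxs hy⟩

/-- **drawn faces which meet `PB 1 s`** -/
theorem df_PB {k : M.κ} (hk : k ∈ (D.dat C).DF) (hx : x ∈ M.F k) {s : K.S}
    (hxs : h1.toFun x ∈ (D.G C).PB 1 s) : s ∈ (D.dat C).S₀ ∧
      ∃ i ∈ (D.dat C).Zd, M.F k ⊆ M.Q i ∧ ∀ y ∈ M.Q i, h1.toFun y ∈ (D.G C).PB (15 / 16) s ∧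
        |h1.toFun y (K.nrm s) - K.slo s (K.nrm s)| ≤ (D.B C).τ s / 4 := by
  obtain ⟨⟨i, hi, hki⟩, -⟩ := hk
  obtain ⟨h2, h3⟩ := D.zd_PB C hT hi (hki hx) hxs
  exact ⟨h2, i, hi, hki, h3⟩

/-- the plates of a drawn cell which meets `PB 1 s`: only `s` -/
theorem zd_unique {i : M.ι} (hi : i ∈ (D.dat C).Zd) (hx : x ∈ M.Q i) {s : K.S}
    (hxs : h1.toFun x ∈ (D.G C).PB 1 s) (hy : y ∈ M.Q i) {s' : K.S}
    (hys : h1.toFun y ∈ (D.G C).PB (1 / 2) s') : s = s' := by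
  by_contra hne
  have h2 := ((D.zd_PB C hT hi hx hxs).2 y hy).1
  refine disjoint_left.1 (Geo.disjoint_PB (G := D.G C) (c := 1 / 2) le_rfl hne) ?_ hys
  obtain ⟨h3, h4⟩ := Geo.mem_PB.1 h2
  refine Geo.mem_PB.2 ⟨fun k hk => ?_, h4⟩
  have := h3 k hk
  have hp := Geo.p_pos (G := D.G C) s
  constructor <;> linarith

/-- **the square of a cell which is redrawn** -/
theorem hk_unique {i : M.ι} (hi : i ∈ (D.dat C).Hk (D.G C) h1) : ∃! s, s ∈ (D.dat C).S₀ ∧
    ∃ k, M.F k ⊆ M.Q i ∧ (D.dat C).PkS (D.G C) h1 s k := by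
  obtain ⟨hZ, -, k, hk, s, hs⟩ := hi
  refine ⟨s, ⟨hs.1, k, hk, hs⟩, ?_⟩
  rintro s' ⟨hs', k', hk', hks'⟩
  obtain ⟨-, x, hx, hxs⟩ := hs.2
  obtain ⟨-, x', hx', hxs'⟩ := hks'.2
  refine (D.zd_unique C hT hZ (hk hx) hxs (hk' hx') ?_).symm
  obtain ⟨h3, h4⟩ := Geo.mem_PB.1 hxs'
  refine Geo.mem_PB.2 ⟨fun k hk => ?_, h4⟩
  have := h3 k hk
  have hp := Geo.p_pos (G := D.G C) s'
  constructor <;> linarith

/-- the whole cell which is redrawn is in the plate -/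
theorem hk_PB {i : M.ι} (hi : i ∈ (D.dat C).Hk (D.G C) h1) {s : K.S} {k : M.κ}
    (hk : M.F k ⊆ M.Q i) (hks : (D.dat C).PkS (D.G C) h1 s k) (hy : y ∈ M.Q i) :
    h1.toFun y ∈ (D.G C).PB (15 / 16) s ∧
      |h1.toFun y (K.nrm s) - K.slo s (K.nrm s)| ≤ (D.B C).τ s / 4 := by
  obtain ⟨hZ, -, -⟩ := hi
  obtain ⟨-, x, hx, hxs⟩ := hks.2
  exact (D.zd_PB C hT hZ (hk hx) hxs).2 y hy

end drawn

end KIn3

end Vale.Agent.P073.H926
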