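import Vale.Agent.P073.H926.CovA
import Vale.Agent.P073.H919.HookP
import Vale.Agent.P073.H429.TEx
import Vale.Agent.P073.H194.FarK

/-!
# P073, block [K3C], (e3) [COVER], part B: the boxes of the hooks and the positions

`PMv`: the motion of a point in ROUND P.  `pos_P`: a cell far from the sides of a square is in the
box of the hook of the plate; `pos_E`: a cell near the middle of an edge is in the box of the hook of
the tube after ROUND P; `pos_V`: a cell near a vertex stays near the vertex.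
-/

open Set Metric Topology Filter

namespace Vale.Agent.P073.H926

open _root_.P073 _root_.P073.Net _root_.P073.PA691 _root_.P073.TM
open Vale.Agent.P073.St (V)
open Vale.Agent.P073.H471 Vale.Agent.P073.H267
open Vale.Agent.P073.H73 (Mesh)
open Vale.Agent.P073.H304 (Nb In Zmax)
open _root_.P073.H345 (PK PK_sub_ss τ_as_PK PB_sub_PK tg)
open _root_.P073.H429 (Lat YB mem_YB eal ebe mem_YB_interior YT Low Upp YT_p_low YT_q_upp YT_p_ge
  YT_q_ge uT_le_T)
open _root_.P073.H919 (HB mem_HB HB_PB HB_interior)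

section geo

variable {Λ : Set V} {v : V} {K : BoxCx Λ v} {S : Rad K} {W : Wid K S} {B : Boxes W}
  {G : Geo B} {x y y' z : V} {q t : K.T}

/-- a vertex of a square is an end of an edge of the square -/
theorem w_edge_sq {i : K.W} {s : K.S} (h : K.w i ∈ K.sq s) :
    ∃ e, K.edge e ⊆ K.sq s ∧ (i = K.a e ∨ i = K.b e) := by
  have h0 : K.w i (K.nrm s) = K.slo s (K.nrm s) :=
    le_antisymm ((h.2 _).trans (K.s_flat s).ge) (h.1 _)
  have h1 : ∃ k, k ≠ K.nrm s ∧ (K.w i k = K.slo s k ∨ K.w i k = K.shi s k) := by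
    by_contra hcon
    push Not at hcon
    obtain ⟨e, he⟩ := K.w_edge i
    refine K.sqo_edge s (K.w i) h0 (fun k hk => ⟨lt_of_le_of_ne (h.1 k) (hcon k hk).1.symm,
      lt_of_le_of_ne (h.2 k) (hcon k hk).2⟩) e ?_
    rcases he with rfl | rfl
    · exact TM.wa_mem K e
    · exact TM.wb_mem K e
  obtain ⟨e, he, hie⟩ := K.sq_bd s (K.w i) h h1
  exact ⟨e, he, K.w_on_edge i e hie⟩

theorem a_wv (G : Geo B) {i : K.W} {s : K.S} (h : K.w i ∈ K.sq s) : 64 * G.a s ≤ W.wv i := by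
  obtain ⟨e, he, hi⟩ := w_edge_sq h
  have h1 := G.a_u s
  have h2 := G.u_T s e he
  have h3 := B.T_le_a e
  have h4 := B.T_le_b e
  rcases hi with rfl | rfl <;> linarith

/-- **the motion of a point in ROUND P**: `y` before the hook, `y'` after the second staircases;
`ε`: the motion off the boxes of the hook, `u`: the motion inside -/
structure PMv (G : Geo B) (S₀ : Set K.S) (c d : ℝ) (u : K.S → ℝ) (ε : ℝ) (y y' : V) : Prop where
  off : (∀ s ∈ S₀, y ∉ HB G c d s) → ∀ k, |y' k - y k| ≤ ε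
  box : ∀ s ∈ S₀, y ∈ HB G c d s → y' ∈ HB G c d s
  lev : ∀ s ∈ S₀, y ∈ HB G c d s → ∀ m, m ≠ K.nrm s → |y' m - y m| ≤ u s ∨
    (y m ≤ K.slo s m + 2 * G.a s ∧ K.slo s m ≤ y' m ∧ y' m ≤ K.slo s m + 2 * G.a s) ∨
    (K.shi s m - 2 * G.a s ≤ y m ∧ K.shi s m - 2 * G.a s ≤ y' m ∧ y' m ≤ K.shi s m)

/-- **(P)** -/
theorem pos_P {s : K.S} (hts : t = K.sm s ∨ t = K.sp s) {c d : ℝ} (hc : c ≤ 2) (hd : 1 / 2 ≤ d)
    (hz : z (K.nrm s) = K.slo s (K.nrm s))
    (hz2 : ∀ k, k ≠ K.nrm s → K.slo s k + (2 * G.p s + G.κ t) < z k ∧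
      z k < K.shi s k - (2 * G.p s + G.κ t)) (hy : ‖y - z‖ ≤ G.κ t / 8) :
    y ∈ interior (HB G c d s) := by
  have hp := Geo.p_pos (G := G) s
  have hκ := G.κ_pos t
  have hτ := B.τ_pos s
  have hκτ := G.κ_τ t s hts
  have hτp := G.τ_p s
  refine HB_interior (c := c) (c' := 2 + G.κ t / 2 / G.p s) (d := d) (d' := 1 / 4) ?_
    (by linarith) s (mem_HB.2 ⟨fun k hk => ?_, ?_⟩)
  · have : 0 < G.κ t / 2 / G.p s := by positivity
    linarith
  · have h1 := abs_le.1 ((abs_sub_le_norm y z k).trans hy)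
    have h2 := hz2 k hk
    have h3 : (2 + G.κ t / 2 / G.p s) * G.p s = 2 * G.p s + G.κ t / 2 := by
      field_simp
    rw [h3]
    constructor <;> linarith
  · have h1 := abs_le.1 ((abs_sub_le_norm y z (K.nrm s)).trans hy)
    rw [hz] at h1
    rw [abs_le]
    constructor <;> linarith

/-- **(V)** -/
theorem pos_V {S₀ : Set K.S} {c d : ℝ} (hc : 7 / 8 ≤ c) (hd : d ≤ 1) {u : K.S → ℝ}
    (hu : ∀ s ∈ S₀, u s ≤ G.p s) {ε : ℝ} (hε : ε ≤ G.κ t / 8) {i : K.W} (hi : K.w i ∈ K.cube t)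
    (hz : ∀ k, |z k - K.w i k| ≤ 3 / 4 * W.wv i) (hy : ‖y - z‖ ≤ G.κ t / 8)
    (hm : PMv G S₀ c d u ε y y') (k : Fin 3) : |y' k - K.w i k| ≤ 7 / 8 * W.wv i := by
  have hκ := G.κ_pos t
  have hκb := G.κ_be t i hi
  have hbw := G.be_wv i
  have hb := G.be_pos i
  have hwv := W.wv_pos i
  have hyz : ∀ k, |y k - K.w i k| ≤ 3 / 4 * W.wv i + G.κ t / 8 := fun k => by
    have h1 := (abs_sub_le_norm y z k).trans hy
    have h2 := abs_sub_le (y k) (z k) (K.w i k)
    linarith [hz k]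
  by_cases hs : ∀ s ∈ S₀, y ∉ HB G c d s
  · have h1 := hm.off hs k
    have h2 := abs_sub_le (y' k) (y k) (K.w i k)
    linarith [hyz k]
  · push Not at hs
    obtain ⟨s, hs, hys⟩ := hs
    have hss : y ∈ W.ss s := PK_sub_ss s (PB_sub_PK (by linarith) s (HB_PB le_rfl hd s hys))
    have hsq : K.w i ∈ K.sq s := by
      refine w_mem_sq hss ?_
      refine (pi_norm_le_iff_of_nonneg (S.r_pos i).le).2 fun l => ?_
      rw [Pi.sub_apply, Real.norm_eq_abs]
      have := W.wv_le i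
      linarith [hyz l]
    have ha := a_wv G hsq
    have ha0 : 0 < G.a s := by linarith [G.be_a s i hsq]
    have hpb := G.p_be s i hsq
    have hτp := G.τ_p s
    have hτ := B.τ_pos s
    by_cases hk : k = K.nrm s
    · subst hk
      have h1 := (mem_HB.1 (hm.box s hs hys)).2
      have h2 : K.w i (K.nrm s) = K.slo s (K.nrm s) :=
        le_antisymm ((hsq.2 _).trans (K.s_flat s).ge) (hsq.1 _)
      rw [h2]
      have h3 : d * B.τ s ≤ 1 * B.τ s := mul_le_mul_of_nonneg_right hd hτ.le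
      linarith
    · have h2 := abs_sub_le (y' k) (y k) (K.w i k)
      have h3 := hyz k
      have h5 := (mem_HB.1 hys).1 k hk
      have hp := Geo.p_pos (G := G) s
      have h6 : 0 ≤ c * G.p s := mul_nonneg (by linarith) hp.le
      rcases hm.lev s hs hys k hk with h4 | ⟨h4, h7, h8⟩ | ⟨h4, h7, h8⟩
      · have := hu s hs
        linarith
      · have : |y' k - y k| ≤ 2 * G.a s := by rw [abs_le]; constructor <;> linarith
        linarith
      · have : |y' k - y k| ≤ 2 * G.a s := by rw [abs_le]; constructor <;> linarith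
        linarith

/-- **(E)** -/
theorem pos_E {S₀ : Set K.S} {c d : ℝ} (hc : 7 / 8 ≤ c) (hd : d ≤ 1) {u : K.S → ℝ}
    (hu : ∀ s ∈ S₀, u s ≤ G.p s) {ε : ℝ} (hε : ε ≤ G.κ t / 8) {e : K.G} (he : K.edge e ⊆ K.cube t)
    (hw : K.w (K.a e) (K.dir e) + 3 / 4 * W.wv (K.a e) ≤ z (K.dir e) ∧
      z (K.dir e) ≤ K.w (K.b e) (K.dir e) - 3 / 4 * W.wv (K.b e))
    (hlat : (∀ k, k ≠ K.dir e → z k = K.w (K.a e) k) ∨
      ∃ s ∈ S₀, K.edge e ⊆ K.sq s ∧ z ∈ K.sqo s ∧
        ∀ k, k ≠ K.dir e → |z k - K.w (K.a e) k| ≤ 2 * G.p s + G.κ t)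
    (hy : ‖y - z‖ ≤ G.κ t / 8) (hm : PMv G S₀ c d u ε y y') :
    y' ∈ interior (YB (YT G S₀) e) := by
  have hκ := G.κ_pos t
  have hκu := G.κ_uT t e he
  have hκa := G.κ_be t _ (he (TM.wa_mem K e))
  have hκb := G.κ_be t _ (he (TM.wb_mem K e))
  have hba := G.be_wv (K.a e)
  have hbb := G.be_wv (K.b e)
  have hb1 := G.be_pos (K.a e)
  have hb2 := G.be_pos (K.b e)
  have hwa := W.wv_pos (K.a e)
  have hwb := W.wv_pos (K.b e)
  have huT := uT_le_T G e
  have hu0 := G.uT_pos e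
  have hyz : ∀ k, |y k - z k| ≤ G.κ t / 8 := fun k => (abs_sub_le_norm y z k).trans hy
  -- lateral coordinates of `z`
  have hzl : ∀ k, k ≠ K.dir e → |z k - K.w (K.a e) k| ≤ 5 / 8 * G.uT e ∧
      ((|z k - K.w (K.a e) k| = 0) ∨ (K.w (K.a e) k < z k ∧ (YT G S₀).q e k = B.T e / 2) ∨
        (z k < K.w (K.a e) k ∧ (YT G S₀).p e k = B.T e / 2)) := by
    intro k hk
    rcases hlat with h | ⟨s, hs, hes, hzs, h⟩
    · rw [h k hk, sub_self, abs_zero]
      exact ⟨by linarith, Or.inl rfl⟩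
    · have hpu := G.p_uT s e hes
      refine ⟨by linarith [h k hk], ?_⟩
      by_cases hkn : k = K.nrm s
      · left
        have h1 : z k = K.slo s k := by rw [hkn]; exact hzs.1
        have h2 : K.w (K.a e) k = K.slo s k := by
          have h3 := hes (TM.wa_mem K e)
          rw [hkn]
          exact le_antisymm ((h3.2 _).trans (K.s_flat s).ge) (h3.1 _)
        rw [h1, h2, sub_self, abs_zero]
      · right
        have h1 := hzs.2 k hkn
        rcases edge_side hes hkn hk with h2 | h2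
        · left
          rw [h2]
          exact ⟨h1.1, YT_q_upp G S₀ ⟨s, hs, hes, by rw [h2]; exact K.s_lt s k hkn⟩⟩
        · right
          rw [h2]
          exact ⟨h1.2, YT_p_low G S₀ ⟨s, hs, hes, by rw [h2]; exact K.s_lt s k hkn⟩⟩
  by_cases hs : ∀ s ∈ S₀, y ∉ HB G c d s
  · have hyy : ∀ k, |y' k - z k| ≤ G.κ t / 4 := fun k => by
      have h1 := hm.off hs k
      have h2 := abs_sub_le (y' k) (y k) (z k)
      linarith [hyz k]
    have h0 := abs_le.1 (hyy (K.dir e))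
    refine mem_YB_interior ?_ ?_ fun k hk => ?_
    · show K.w (K.a e) (K.dir e) + W.wv (K.a e) / 2 < _
      linarith
    · show _ < K.w (K.b e) (K.dir e) - W.wv (K.b e) / 2
      linarith
    · obtain ⟨h1, h2⟩ := hzl k hk
      have h3 := abs_le.1 (hyy k)
      have h4 := abs_le.1 h1
      have h5 := YT_p_ge G S₀ e k
      have h6 := YT_q_ge G S₀ e k
      rcases h2 with h2 | ⟨h2, h7⟩ | ⟨h2, h7⟩
      · rw [abs_eq_zero] at h2
        constructor <;> linarith
      · constructor <;> linarith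
      · constructor <;> linarith
  · push Not at hs
    obtain ⟨s, hs, hys⟩ := hs
    have hPK : y ∈ PK G s := PB_sub_PK (by linarith) s (HB_PB le_rfl hd s hys)
    have hTB : y ∈ G.TB false (.inl e) := by
      rw [Geo.mem_inl]
      have h0 := abs_le.1 (hyz (K.dir e))
      refine ⟨⟨by linarith, by linarith⟩, fun k hk => ?_⟩
      have h1 := (hzl k hk).1
      have h2 := abs_sub_le (y k) (z k) (K.w (K.a e) k)
      have h3 := G.uT_lam e
      simp only [Bool.false_eq_true, if_false]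
      linarith [hyz k]
    have hes : K.edge e ⊆ K.sq s := edge_sq_of_PK hPK hTB
    have hys' := hm.box s hs hys
    obtain ⟨hy1, hy2⟩ := mem_HB.1 hys'
    obtain ⟨hy3, -⟩ := mem_HB.1 hys
    have hp := Geo.p_pos (G := G) s
    have hpu := G.p_uT s e hes
    have hpa := G.p_be s _ (hes (TM.wa_mem K e))
    have hpb := G.p_be s _ (hes (TM.wb_mem K e))
    have haa := a_wv G (hes (TM.wa_mem K e))
    have hab := a_wv G (hes (TM.wb_mem K e))
    have ha0 : 0 < G.a s := by linarith [G.be_a s _ (hes (TM.wa_mem K e))]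
    have haT : 8 * G.a s ≤ B.T e := by
      have h1 := G.a_u s
      have h2 := G.u_T s e hes
      linarith
    have hτp := G.τ_p s
    have hτ := B.τ_pos s
    have hus := hu s hs
    have hdτ : d * B.τ s ≤ 1 * B.τ s := mul_le_mul_of_nonneg_right hd hτ.le
    have hcp : 0 ≤ c * G.p s := mul_nonneg (by linarith) hp.le
    have hea := hes (TM.wa_mem K e)
    have heb := hes (TM.wb_mem K e)
    have hnd : K.dir e ≠ K.nrm s := (nrm_ne_dir hes).symm
    have hy0 := abs_le.1 (hyz (K.dir e))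
    -- the direction of the edge
    have hv : |y' (K.dir e) - y (K.dir e)| ≤ u s := by
      rcases hm.lev s hs hys _ hnd with h | ⟨h, -, -⟩ | ⟨h, -, -⟩
      · exact h
      · exfalso
        have := hea.1 (K.dir e)
        linarith
      · exfalso
        have := heb.2 (K.dir e)
        linarith
    have hv' := abs_le.1 hv
    refine mem_YB_interior ?_ ?_ fun k hk => ?_
    · show K.w (K.a e) (K.dir e) + W.wv (K.a e) / 2 < _
      linarith
    · show _ < K.w (K.b e) (K.dir e) - W.wv (K.b e) / 2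
      linarith
    · have h5 := YT_p_ge G S₀ e k
      have h6 := YT_q_ge G S₀ e k
      by_cases hkn : k = K.nrm s
      · have h3 : K.w (K.a e) k = K.slo s k := by
          rw [hkn]
          exact le_antisymm ((hea.2 _).trans (K.s_flat s).ge) (hea.1 _)
        have h4 := abs_le.1 hy2
        rw [← hkn] at h4
        rw [h3]
        constructor <;> linarith
      · have h1 := abs_le.1 (hzl k hk).1
        have h2 := abs_le.1 (hyz k)
        have h8 := hy1 k hkn
        have h9 := side_ge S hes hkn hk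
        have h10 := B.T_le e
        have h11 := W.we_le e
        rcases edge_side hes hkn hk with h3 | h3
        · have h7 := YT_q_upp G S₀ ⟨s, hs, hes, by rw [h3]; exact K.s_lt s k hkn⟩
          rw [h7]
          rw [h3] at h1 ⊢
          refine ⟨by linarith, ?_⟩
          rcases hm.lev s hs hys k hkn with h | ⟨-, -, h⟩ | ⟨h, -, -⟩
          · have := abs_le.1 h
            linarith
          · linarith
          · linarith
        · have h7 := YT_p_low G S₀ ⟨s, hs, hes, by rw [h3]; exact K.s_lt s k hkn⟩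
          rw [h7]
          rw [h3] at h1 ⊢
          refine ⟨?_, by linarith⟩
          rcases hm.lev s hs hys k hkn with h | ⟨h, -, -⟩ | ⟨-, h, -⟩
          · have := abs_le.1 h
            linarith
          · linarith
          · linarith

end geo

variable {c₀ n δ : ℝ} {j : ℕ} {Ω Λ : Set V} {v w : V} {ρ : V → ℝ} {M : Mesh Ω} {h : ConHomeo Ω Λ}
  {J₀ J : Set (ℕ × (Fin 3 → ℤ))} {P Z : Set M.ι} {K : BoxCx Λ w} {x y : V} {q t : K.T}

namespace KIn3

variable (D : KIn3 c₀ n j δ v w ρ M h J₀ J P Z) (C : Cells ρ w K)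

/-- **(e3), ROUND P**: a drawn cell is in the box of the hook of a plate before the hook, or in the
box of the hook of a tube after ROUND P, or near a vertex after ROUND P -/
theorem cover_P {g g' : V → V} {i : M.ι} (hi : i ∈ Zmax M w h.toFun J₀ P (2 / 2 ^ j))
    (hg : NearG (D.G C) M h.toFun g 100 i) {c d : ℝ} (hc : 7 / 8 ≤ c) (hc2 : c ≤ 2)
    (hd : 1 / 2 ≤ d) (hd1 : d ≤ 1) {u : K.S → ℝ} (hu : ∀ s ∈ pS C J₀, u s ≤ (D.G C).p s)
    (hm : (∀ s ∈ pS C J₀, ¬ g '' M.Q i ⊆ interior (HB (D.G C) c d s)) →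
      ∀ t ∈ pT C J₀, ∀ z ∈ frontier (K.cube t), (∀ x ∈ M.Q i, ‖g x - z‖ ≤ (D.G C).κ t / 8) →
        ∀ x ∈ M.Q i, PMv (D.G C) (pS C J₀) c d u ((D.G C).κ t / 8) (g x) (g' x)) :
    (∃ s ∈ pS C J₀, g '' M.Q i ⊆ interior (HB (D.G C) c d s)) ∨
    (∃ e ∈ pG C J₀, g' '' M.Q i ⊆ interior (YB (YT (D.G C) (pS C J₀)) e)) ∨
    ∃ i' ∈ pW C J₀, ∀ x ∈ M.Q i, ∀ k, |g' x k - K.w i' k| ≤ 7 / 8 * (D.W C).wv i' := by
  by_cases hP : ∃ s ∈ pS C J₀, g '' M.Q i ⊆ interior (HB (D.G C) c d s)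
  · exact Or.inl hP
  push Not at hP
  obtain ⟨t, ht, z, hz, hxz⟩ := D.exists_z C hi hg
  have hm' := hm hP t ht z hz hxz
  rcases cover3 (D.G C) hz with ⟨s, hs, h1, h2⟩ | ⟨e, he, hw, hl⟩ | ⟨i', hi', h1⟩
  · exfalso
    refine hP s (mem_pS ht hs) ?_
    rintro _ ⟨x, hx, rfl⟩
    exact pos_P hs hc2 hd h1 h2 (hxz x hx)
  · refine Or.inr (Or.inl ⟨e, ⟨t, ht, he⟩, ?_⟩)
    rintro _ ⟨x, hx, rfl⟩
    refine pos_E hc hd1 hu le_rfl he hw ?_ (hxz x hx) (hm' x hx)
    rcases hl with hl | ⟨s, hs, hes, hzs, hl⟩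
    · exact Or.inl hl
    · exact Or.inr ⟨s, mem_pS ht hs, hes, hzs, hl⟩
  · exact Or.inr (Or.inr ⟨i', ⟨t, ht, hi'⟩, fun x hx k =>
      pos_V hc hd1 hu le_rfl hi' h1 (hxz x hx) (hm' x hx) k⟩)

end KIn3

end Vale.Agent.P073.H926
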