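import Vale.Agent.P073.H926.Num3A

/-!
# P073, block [K3C]: the numbers and the processed boxes ([K3-NUM])

The twin of `H267/Num.lean` for `H304.K3C`.  For a number `n ≤ c₀`: `A3`, `c3` (zones), `κ3`
(shell), `o3` (margins), `δ3`; the shell parameter `1 / 2 ^ j ≤ δ3 n`, the oscillation
`δ ≤ 1 / 2 ^ j / 4096`.  The processed squares, edges, vertices are those of the tiles of `J₀`.
-/

open Set Metric Topology Filter

namespace Vale.Agent.P073.H926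

open _root_.P073 _root_.P073.Net _root_.P073.PA691 _root_.P073.TM
open Vale.Agent.P073.St (V)
open Vale.Agent.P073.H471 Vale.Agent.P073.H267
open Vale.Agent.P073.H73 (Mesh)
open Vale.Agent.P073.H304 (Nb InW Zmax)

/-! ### numbers -/

/-- size of the zones of the vertices -/
noncomputable def A3 (n : ℝ) : ℝ := n * AN n
/-- size of the other zones -/
noncomputable def c3 (n : ℝ) : ℝ := n * cN n
/-- size of the shell -/
noncomputable def κ3 (n : ℝ) : ℝ := n * κN n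
/-- margins -/
noncomputable def o3 (n : ℝ) : ℝ := κ3 n / 4000
/-- oscillation -/
noncomputable def δ3 (n : ℝ) : ℝ := o3 n / 4096

section
variable {n : ℝ}

theorem A3_pos (h : 0 < n) : 0 < A3 n := mul_pos h (AN_pos h)
theorem c3_pos (h : 0 < n) : 0 < c3 n := mul_pos h (cN_pos h)
theorem κ3_pos (h : 0 < n) : 0 < κ3 n := mul_pos h (κN_pos h)
theorem o3_pos (h : 0 < n) : 0 < o3 n := by have := κ3_pos h; unfold o3; positivity
theorem δ3_pos (h : 0 < n) : 0 < δ3 n := by have := o3_pos h; unfold δ3; positivity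
theorem c3_A3 : c3 n = 2 * (μN n * A3 n) := by unfold c3 A3; rw [cN_AN]; ring
theorem c3_A (h : 0 < n) (h1 : n < 1 / 4) : c3 n ≤ A3 n :=
  mul_le_mul_of_nonneg_left (cN_A h h1) h.le
theorem A3_eq : A3 n = n * μN n / 128 := by unfold A3 AN; ring
theorem A3_n (h : 0 < n) : 8 * A3 n ≤ n ^ 2 := by
  have := AN_η h
  unfold A3
  nlinarith
theorem A3_le (h : 0 < n) (h1 : n < 1 / 4) : A3 n ≤ 1 / 128 := by
  have h2 := AN_le h1
  have h3 := AN_pos h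
  unfold A3
  nlinarith
theorem c3_le (h : 0 < n) (h1 : n < 1 / 4) : c3 n ≤ 1 / 128 := (c3_A h h1).trans (A3_le h h1)
theorem κ3_eq (h : 0 < n) (h1 : n < 1 / 4) : κ3 n ≤ c3 n / 536870912 := by
  have h2 := mul_le_mul_of_nonneg_left (κN_eq h h1) h.le
  unfold κ3 c3
  linarith
theorem o3_eq : 4000 * o3 n ≤ κ3 n := by unfold o3; linarith
theorem δ3_eq : 4096 * δ3 n = o3 n := by unfold δ3; ring
theorem δ3_κ (h : 0 < n) : δ3 n ≤ κ3 n := by
  have h1 := δ3_eq (n := n)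
  have h2 := o3_eq (n := n)
  have h3 := δ3_pos h
  have h4 := o3_pos h
  linarith
theorem κ3_le (h : 0 < n) (h1 : n < 1 / 4) : κ3 n ≤ n / 1024 := by
  have h2 := κ3_eq h h1
  have h3 := c3_A h h1
  have h4 := A3_n h
  have h5 := c3_pos h
  nlinarith

end

/-- **The hypotheses of `K3C`, with these numbers.** -/
structure KIn3 (c₀ n : ℝ) (j : ℕ) (δ : ℝ) {Ω Λ : Set V} (v w : V) (ρ : V → ℝ) (M : Mesh Ω)
    (h : ConHomeo Ω Λ) (J₀ J : Set (ℕ × (Fin 3 → ℤ))) (P Z : Set M.ι) : Prop where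
  pos : 0 < n
  nle : n ≤ c₀
  le : c₀ ≤ 1 / 64
  jle : 1 / 2 ^ j ≤ δ3 n
  δpos : 0 < δ
  δle : 4096 * δ ≤ 1 / 2 ^ j
  bΩ : St.IsBoundedDomain Ω
  bΛ : St.IsBoundedDomain Λ
  hρ : SizeFn Λ ρ
  inp : InW (Λ := Λ) (1 / 2 ^ j) δ c₀ v w ρ M h.toFun J₀ J P Z

variable {c₀ n δ : ℝ} {j : ℕ} {Ω Λ : Set V} {v w : V} {ρ : V → ℝ} {M : Mesh Ω} {h : ConHomeo Ω Λ}
  {J₀ J : Set (ℕ × (Fin 3 → ℤ))} {P Z : Set M.ι} {K : BoxCx Λ w} {x y : V} {q t : K.T}

theorem KIn3.lt (D : KIn3 c₀ n j δ v w ρ M h J₀ J P Z) : n < 1 / 4 := by linarith [D.le, D.nle]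

/-- the widths -/
noncomputable abbrev KIn3.W (D : KIn3 c₀ n j δ v w ρ M h J₀ J P Z) (C : Cells ρ w K) :
    Wid K (C.rad D.hρ) :=
  C.wid D.hρ (A := A3 n) (B := c3 n) (D := 8 * c3 n)
    ((c3_pos D.pos).trans_le (c3_A D.pos D.lt)) (c3_pos D.pos)
    (by linarith [c3_pos D.pos]) (A3_le D.pos D.lt) ((c3_A D.pos D.lt).trans (A3_le D.pos D.lt))
    (by linarith [c3_le D.pos D.lt])

/-- the boxes -/
noncomputable abbrev KIn3.B (D : KIn3 c₀ n j δ v w ρ M h J₀ J P Z) (C : Cells ρ w K) :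
    Boxes (D.W C) :=
  uBoxes C D.hρ (c3_pos D.pos) (c3_A D.pos D.lt) (A3_le D.pos D.lt)

/-- the numbers -/
noncomputable abbrev KIn3.G (D : KIn3 c₀ n j δ v w ρ M h J₀ J P Z) (C : Cells ρ w K) :
    Geo (D.B C) :=
  uGeo C D.hρ (c3_pos D.pos) (c3_A D.pos D.lt) (A3_le D.pos D.lt) (κ3_eq D.pos D.lt)
    (o3_pos D.pos) o3_eq

/-- oscillation of the cells at a box of round T -/
noncomputable def ω3T (δ : ℝ) (C : Cells ρ w K) : TBx K → ℝ
  | .inl e => 4 * δ * C.sG e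
  | .inr i => 4 * δ * C.sW i.i

/-- oscillation of the cells at a square -/
noncomputable def ω3S (δ : ℝ) (C : Cells ρ w K) (s : K.S) : ℝ := 4 * δ * C.sS s

/-- oscillation of the cells at a vertex -/
noncomputable def ω3W (δ : ℝ) (C : Cells ρ w K) (i : K.W) : ℝ := 4 * δ * C.sW i

namespace KIn3

variable (D : KIn3 c₀ n j δ v w ρ M h J₀ J P Z)
include D

/-! ### numbers -/

omit D in
theorem η_pos : (0:ℝ) < 1 / 2 ^ j := by positivity

theorem δ_le : 4096 * δ ≤ δ3 n := D.δle.trans D.jle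

theorem c₀_pos : 0 < c₀ := D.pos.trans_le D.nle

theorem κ_lt : κ3 n < 1 / 1024 := by
  have h1 := κ3_le D.pos D.lt
  have h2 := D.lt
  linarith

theorem κ_le_c₀ : κ3 n ≤ c₀ / 1024 := by
  have h1 := κ3_le D.pos D.lt
  have h2 := D.nle
  linarith

theorem A_le_c₀ : A3 n ≤ c₀ / 512 := by
  have h1 := A3_n D.pos
  have h2 := D.nle
  have h3 := D.le
  have h4 := D.pos
  nlinarith

theorem η_le_κ : 1 / 2 ^ j ≤ κ3 n / 4096 := by
  have h1 := D.jle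
  have h2 := δ3_eq (n := n)
  have h3 := o3_eq (n := n)
  have h4 := κ3_pos D.pos
  have h5 := o3_pos D.pos
  linarith

theorem η_le_one : (1:ℝ) / 2 ^ j ≤ 1 / 4096 := by
  have := D.η_le_κ
  have := D.κ_lt
  linarith

theorem two_η_le : (2:ℝ) / 2 ^ j ≤ c₀ := by
  have h1 := D.η_le_κ
  have h2 := D.κ_le_c₀
  have h3 := κ3_pos D.pos
  have h4 := D.c₀_pos
  have h5 : (2:ℝ) / 2 ^ j = 2 * (1 / 2 ^ j) := by ring
  rw [h5]
  linarith

/-- the faces of the drawn cells are dyadic squares -/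
theorem face_Zmax {i : M.ι} (hi : i ∈ Zmax M w h.toFun J₀ P (2 / 2 ^ j)) {k : M.κ}
    (hk : M.F k ⊆ M.Q i) : ∃ s : AB.Idx × Fin 3, M.F k = AB.squ v s := by
  have h5 : (2:ℝ) / 2 ^ j = 2 * (1 / 2 ^ j) := by ring
  exact D.inp.face_of_Zmax h5.le (h5 ▸ D.two_η_le) hi hk

theorem tile : ∀ t ∈ J₀, IsTile ρ w t.1 t.2 := fun t ht => D.inp.tile t (D.inp.sub ht)

variable (C : Cells ρ w K)
include C

theorem ω3T_pos (b : TBx K) : 0 < ω3T δ C b := by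
  have h1 := D.δpos
  rcases b with e | i
  · have := C.sG_pos e
    show 0 < 4 * δ * C.sG e
    positivity
  · have := C.sW_pos i.i
    show 0 < 4 * δ * C.sW i.i
    positivity

theorem ω3S_pos (s : K.S) : 0 < ω3S δ C s := by
  have h1 := D.δpos
  have := C.sS_pos s
  unfold ω3S; positivity

theorem ω3W_pos (i : K.W) : 0 < ω3W δ C i := by
  have h1 := D.δpos
  have := C.sW_pos i
  unfold ω3W; positivity

theorem ω3T_oT (b : TBx K) : 16777216 * ω3T δ C b ≤ H238.oT (D.G C) b := by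
  have h1 := δ3_eq (n := n)
  have h2 := D.δ_le
  rcases b with e | i
  · have h3 := C.sG_pos e
    show 16777216 * (4 * δ * C.sG e) ≤ 4 * o3 n * C.sG e
    nlinarith
  · have h3 := C.sW_pos i.i
    show 16777216 * (4 * δ * C.sW i.i) ≤ 4 * o3 n * C.sW i.i
    nlinarith

theorem ω3S_oS (s : K.S) : 16777216 * ω3S δ C s ≤ (D.G C).oS s := by
  have h1 := δ3_eq (n := n)
  have h2 := D.δ_le
  have h3 := C.sS_pos s
  show 16777216 * (4 * δ * C.sS s) ≤ 4 * o3 n * C.sS s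
  nlinarith

theorem ω3W_oW (i : K.W) : 16777216 * ω3W δ C i ≤ (D.G C).oW i := by
  have h1 := δ3_eq (n := n)
  have h2 := D.δ_le
  have h3 := C.sW_pos i
  show 16777216 * (4 * δ * C.sW i) ≤ 4 * o3 n * C.sW i
  nlinarith

/-! ### the neighbourhood of the processed tiles -/

theorem mem_Nb {c' : ℝ} : y ∈ Nb w J₀ c' ↔
    ∃ t ∈ pT C J₀, ∃ x ∈ frontier (K.cube t), ‖y - x‖ ≤ c' * C.sT t :=
  H926.mem_Nb C D.tile

/-- sizes of the tiles near a frontier point -/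
theorem comp {c' : ℝ} (hc' : c' ≤ 1 / 8) (hx : x ∈ frontier (K.cube t)) (hy : y ∈ K.cube q)
    (hxy : ‖y - x‖ ≤ c' * C.sT t) : C.sT q ≤ 4 * C.sT t ∧ C.sT t ≤ 4 * C.sT q := by
  have h1 := isClosed_Icc.frontier_subset hx
  have h2 := C.sT_pos t
  exact ⟨sT_comp C D.hρ h1 hy (hxy.trans (by nlinarith)),
    sT_comp' C D.hρ h1 hy (hxy.trans (by nlinarith))⟩

theorem Nb_sub {c' : ℝ} (hc' : c' ≤ 1 / 8) : Nb w J₀ c' ⊆ Λ := by
  intro y hy
  obtain ⟨t, -, x, hx, hxy⟩ := (D.mem_Nb C).1 hy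
  have h1 := isClosed_Icc.frontier_subset hx
  change x ∈ K.cube t at h1
  rw [C.cube_eq] at h1
  have h2 := (C.tile t).1 x h1
  have h3 := D.hρ.lip x y
  have h4 := C.sT_pos t
  have e : C.sT t = 1 / 2 ^ (C.fT t).1 := rfl
  rw [norm_sub_rev] at h3
  rw [← e] at h2
  by_contra hcon
  have h5 := D.hρ.off y hcon
  nlinarith

/-- **the processed zones cover the shells of the processed tiles** -/
theorem cover0 {c' : ℝ} (hc' : c' ≤ κ3 n / 4) (hy : y ∈ Nb w J₀ c') (hq : y ∈ K.cube q) :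
    (∃ s ∈ pS C J₀, (q = K.sm s ∨ q = K.sp s) ∧ closedBall y (10 * (D.G C).om q) ⊆ (D.B C).P s ∧
      closedBall y (10 * (D.G C).om q) ⊆ (D.G C).PB 2 s ∧
      |y (K.nrm s) - K.slo s (K.nrm s)| ≤ (D.G C).κ q) ∨
    (∃ e ∈ pG C J₀, K.edge e ⊆ K.cube q ∧ closedBall y (10 * (D.G C).om q) ⊆ (D.B C).E e ∧
      (closedBall y (10 * (D.G C).om q) ⊆ (D.G C).TB true (.inl e) ∨
        ∃ s ∈ pS C J₀, K.edge e ⊆ K.sq s ∧ (q = K.sm s ∨ q = K.sp s) ∧
          closedBall y (10 * (D.G C).om q) ⊆ (D.G C).PB 2 s ∧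
          |y (K.nrm s) - K.slo s (K.nrm s)| ≤ (D.G C).κ q)) ∨
    ∃ i ∈ pW C J₀, K.w i ∈ K.cube q ∧ closedBall y (10 * (D.G C).om q) ⊆ Zv (D.W C) i := by
  obtain ⟨t, ht, x, hx, hxy⟩ := (D.mem_Nb C).1 hy
  have hκ := D.κ_lt
  have hT := C.sT_pos t
  have h2 := (D.comp C (by linarith) hx hq hxy).2
  have h3 : ‖y - x‖ ≤ (D.G C).κ q := by
    refine hxy.trans ?_
    show c' * C.sT t ≤ κ3 n * C.sT q
    have h4 := κ3_pos D.pos
    have h5 : c' * C.sT t ≤ κ3 n / 4 * C.sT t := mul_le_mul_of_nonneg_right hc' hT.le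
    have h6 : κ3 n / 4 * C.sT t ≤ κ3 n / 4 * (4 * C.sT q) :=
      mul_le_mul_of_nonneg_left h2 (by positivity)
    linarith
  have hom := (D.G C).om_pos q
  have hyb : y ∈ closedBall y (10 * (D.G C).om q) := mem_closedBall_self (by positivity)
  rcases (D.G C).cover hq (shell_of_near hq hx h3) with ⟨s, hs, h4, h5, h6⟩ | ⟨e, he, h4, h5⟩ |
    ⟨i, hi, h4⟩
  · have h7 := near_P (G := D.G C) (h4 hyb) hs h3
    obtain ⟨h8, -⟩ := nrm_of_frontier h7 hx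
    exact Or.inl ⟨s, mem_pS ht h8, hs, h4, h5, h6⟩
  · have h7 := near_E (G := D.G C) (h4 hyb) he h3
    have h8 := h7.tile (isClosed_Icc.frontier_subset hx)
    refine Or.inr (Or.inl ⟨e, ⟨t, ht, h8⟩, he, h4, ?_⟩)
    rcases h5 with h5 | ⟨s, hes, hs, h5, h6⟩
    · exact Or.inl h5
    · have h9 := near_PB (G := D.G C) (c := 2) (by norm_num) (h5 hyb) hs h3
      obtain ⟨h10, -⟩ := nrm_of_frontier h9 hx
      exact Or.inr ⟨s, mem_pS ht h10, hes, hs, h5, h6⟩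
  · have h7 := near_Zv (G := D.G C) (h4 hyb) hi h3
    exact Or.inr (Or.inr ⟨i, ⟨t, ht, (C.rad D.hρ).U_tile i t x h7
      (isClosed_Icc.frontier_subset hx)⟩, hi, h4⟩)

/-- **heights in a plate** -/
theorem height_PB {c c' : ℝ} (hc : 1 / 2 ≤ c) (hc' : c' ≤ κ3 n / 4) {s : K.S}
    (hy : y ∈ (D.G C).PB c s) : y ∈ Nb w J₀ c' ↔
      ∃ t ∈ pT C J₀, (t = K.sm s ∨ t = K.sp s) ∧
        |y (K.nrm s) - K.slo s (K.nrm s)| ≤ c' * C.sT t := by
  obtain ⟨q, hq⟩ := K.cover _ (Geo.PB_sub hc s hy)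
  have hs := Geo.tile_PB hc hy hq
  constructor
  · intro hN
    obtain ⟨t, ht, x, hx, hxy⟩ := (D.mem_Nb C).1 hN
    have hκ := D.κ_lt
    have hT := C.sT_pos t
    have h2 := (D.comp C (by linarith) hx hq hxy).2
    have h3 : ‖y - x‖ ≤ (D.G C).κ q := by
      refine hxy.trans ?_
      show c' * C.sT t ≤ κ3 n * C.sT q
      have h4 := κ3_pos D.pos
      have h5 : c' * C.sT t ≤ κ3 n / 4 * C.sT t := mul_le_mul_of_nonneg_right hc' hT.le
      have h6 : κ3 n / 4 * C.sT t ≤ κ3 n / 4 * (4 * C.sT q) :=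
        mul_le_mul_of_nonneg_left h2 (by positivity)
      linarith
    obtain ⟨h4, h5⟩ := nrm_of_frontier (near_PB hc hy hs h3) hx
    refine ⟨t, ht, h4, ?_⟩
    rw [← h5]
    exact (abs_sub_le_norm y x _).trans hxy
  · rintro ⟨t, ht, hts, h1⟩
    refine (D.mem_Nb C).2 ⟨t, ht, hat K s y,
      sq_frontier hts (sqo_subset_sq s (hat_mem (Zs_subset (Geo.PB_subset hc s hy)))), ?_⟩
    rw [pi_norm_le_iff_of_nonneg (le_trans (abs_nonneg _) h1)]
    intro k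
    rw [Pi.sub_apply, Real.norm_eq_abs]
    by_cases hk : k = K.nrm s
    · subst hk
      rw [hat_nrm]
      exact h1
    · rw [hat_ne hk, sub_self, abs_zero]
      exact le_trans (abs_nonneg _) h1

/-- heights in a tube: the point is close to a side of a processed tile which contains the edge -/
theorem height_E {c' : ℝ} (hc' : c' ≤ κ3 n / 4) {e : K.G} (hy : y ∈ (D.B C).E e)
    (hq : y ∈ K.cube q) (hN : y ∈ Nb w J₀ c') :
    ∃ t ∈ pT C J₀, K.edge e ⊆ K.cube t ∧ ∃ k, k ≠ K.dir e ∧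
      (K.w (K.a e) k = K.lo t k ∨ K.w (K.a e) k = K.hi t k) ∧
      |y k - K.w (K.a e) k| ≤ c' * C.sT t := by
  obtain ⟨t, ht, x, hx, hxy⟩ := (D.mem_Nb C).1 hN
  have hκ := D.κ_lt
  have hT := C.sT_pos t
  have h2 := (D.comp C (by linarith) hx hq hxy).2
  have h3 : ‖y - x‖ ≤ (D.G C).κ q := by
    refine hxy.trans ?_
    show c' * C.sT t ≤ κ3 n * C.sT q
    have h4 := κ3_pos D.pos
    have h5 : c' * C.sT t ≤ κ3 n / 4 * C.sT t := mul_le_mul_of_nonneg_right hc' hT.le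
    have h6 : κ3 n / 4 * C.sT t ≤ κ3 n / 4 * (4 * C.sT q) :=
      mul_le_mul_of_nonneg_left h2 (by positivity)
    linarith
  have hEe := (inTube_of_se (Ze_subset ((D.B C).E_subset e hy))).tile hq
  obtain ⟨h4, k, hk, h5, h6⟩ := off_of_frontier (near_E (G := D.G C) hy hEe h3)
    (fun k hk => near_E_lt (G := D.G C) hy hEe h3 hk) hx
  refine ⟨t, ht, h4, k, hk, h6, ?_⟩
  rw [← h5]
  exact (abs_sub_le_norm y x _).trans hxy

/-! ### supports -/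

theorem supp_S {s : K.S} (hy : y ∈ (D.W C).ss s) (hs : t = K.sm s ∨ t = K.sp s) :
    y ∈ Nb w {C.fT t} (c₀ / 2) := by
  obtain ⟨x, hx, hxy⟩ := dist_ss hy hs
  refine (mem_Nb_one C).2 ⟨x, hx, hxy.trans ?_⟩
  have hsub : K.sq s ⊆ K.cube t := by
    rcases hs with rfl | rfl
    · exact (TM.sq_subset K s).1
    · exact (TM.sq_subset K s).2
  have h1 := (C.sS_sT D.hρ hsub).1
  have h2 := c3_pos D.pos
  have h3 := mul_le_mul_of_nonneg_left h1 h2.le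
  have h4 : 16 * c3 n ≤ c₀ / 2 := by linarith [c3_A D.pos D.lt, D.A_le_c₀, D.c₀_pos]
  have h5 := mul_le_mul_of_nonneg_right h4 (C.sT_pos t).le
  show 2 * (8 * c3 n * C.sS s) ≤ c₀ / 2 * C.sT t
  linarith

theorem supp_E {e : K.G} (hy : y ∈ (D.W C).se e) (he : K.edge e ⊆ K.cube t) :
    y ∈ Nb w {C.fT t} (c₀ / 2) := by
  obtain ⟨x, hx, hxy⟩ := dist_se hy he
  refine (mem_Nb_one C).2 ⟨x, hx, hxy.trans ?_⟩
  have h1 := (C.sG_sT D.hρ he).1
  have h2 := c3_pos D.pos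
  have h3 := mul_le_mul_of_nonneg_left h1 h2.le
  have h4 : 2 * c3 n ≤ c₀ / 2 := by linarith [c3_A D.pos D.lt, D.A_le_c₀, D.c₀_pos]
  have h5 := mul_le_mul_of_nonneg_right h4 (C.sT_pos t).le
  show 2 * (c3 n * C.sG e) ≤ c₀ / 2 * C.sT t
  linarith

theorem supp_V {i : K.W} (hy : y ∈ (D.W C).sv i) (hi : K.w i ∈ K.cube t) :
    y ∈ Nb w {C.fT t} (c₀ / 2) := by
  obtain ⟨x, hx, hxy⟩ := dist_sv hy hi
  refine (mem_Nb_one C).2 ⟨x, hx, hxy.trans ?_⟩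
  have h1 := (C.sW_sT D.hρ hi).1
  have h2 := A3_pos D.pos
  have h3 := mul_le_mul_of_nonneg_left h1 h2.le
  have h4 : 2 * A3 n ≤ c₀ / 2 := by linarith [D.A_le_c₀, D.c₀_pos]
  have h5 := mul_le_mul_of_nonneg_right h4 (C.sT_pos t).le
  show 2 * (A3 n * C.sW i) ≤ c₀ / 2 * C.sT t
  linarith

/-- **the supports of the processed boxes are near the processed tiles** -/
theorem supp : (∀ s ∈ pS C J₀, (D.W C).ss s ⊆ Nb w J₀ c₀) ∧
    (∀ e ∈ pG C J₀, (D.W C).se e ⊆ Nb w J₀ c₀) ∧ (∀ i ∈ pW C J₀, (D.W C).sv i ⊆ Nb w J₀ c₀) ∧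
    (∀ b ∈ pB C J₀, (D.G C).TB false b ⊆ Nb w J₀ c₀) ∧
    ∀ s ∈ pS C J₀, ∀ c, 1 / 2 ≤ c → (D.G C).PB c s ⊆ Nb w J₀ c₀ := by
  have hc : c₀ / 2 ≤ c₀ := by linarith [D.c₀_pos]
  have h1 : ∀ s ∈ pS C J₀, (D.W C).ss s ⊆ Nb w J₀ c₀ := fun s hs y hy => by
    obtain ⟨q, hq, hqs⟩ := exists_of_pS hs
    exact H304.Nb.mono hc (mem_Nb_of C hq (D.supp_S C hy hqs))
  have h2 : ∀ e ∈ pG C J₀, (D.W C).se e ⊆ Nb w J₀ c₀ := fun e he y hy => by
    obtain ⟨q, hq, hqs⟩ := he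
    exact H304.Nb.mono hc (mem_Nb_of C hq (D.supp_E C hy hqs))
  refine ⟨h1, h2, fun i hi y hy => ?_, fun b hb => ?_, fun s hs c hc2 =>
    ((Geo.PB_subset hc2 s).trans fun y hy => Zs_subset hy).trans (h1 s hs)⟩
  · obtain ⟨q, hq, hqs⟩ := hi
    exact H304.Nb.mono hc (mem_Nb_of C hq (D.supp_V C hy hqs))
  · rcases b with e | i
    · exact ((Geo.TB_subset_Ze e).trans fun y hy => Ze_subset hy).trans
        (h2 e (inl_mem_pB.1 hb))
    · exact ((Geo.TB_subset_Zs i).trans fun y hy => Zs_subset hy).trans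
        (h1 _ (inr_mem_pB.1 hb))

/-! ### oscillation of the cells -/

/-- cells near a processed tile -/
theorem small {i : M.ι} (hi : i ∉ P) (ht : t ∈ pT C J₀)
    (hm : (h.toFun '' M.Q i ∩ Nb w {C.fT t} c₀).Nonempty) :
    ∀ x ∈ M.Q i, ∀ y ∈ M.Q i, ‖h.toFun x - h.toFun y‖ ≤ δ * C.sT t := by
  intro x hx y hy
  have := D.inp.small i hi (C.fT t) ht hm x hx y hy
  have e : δ * C.sT t = δ / 2 ^ (C.fT t).1 := by
    show δ * (1 / 2 ^ (C.fT t).1) = _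
    ring
  rwa [e]

theorem small' {i : M.ι} (hi : i ∉ P) (ht : t ∈ pT C J₀) {c' : ℝ} (hc' : c' ≤ c₀) {x : V}
    (hx : x ∈ M.Q i) (hm : h.toFun x ∈ Nb w {C.fT t} c') {y : V} (hy : y ∈ M.Q i) :
    ‖h.toFun x - h.toFun y‖ ≤ δ * C.sT t :=
  D.small C hi ht ⟨_, mem_image_of_mem _ hx, H304.Nb.mono hc' hm⟩ x hx y hy

theorem osc_S {s : K.S} (hs : s ∈ pS C J₀) {i : M.ι} (hi : i ∉ P) {x y : V} (hx : x ∈ M.Q i)
    (hy : y ∈ M.Q i) (hm : h.toFun x ∈ (D.W C).ss s) :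
    ‖h.toFun x - h.toFun y‖ ≤ ω3S δ C s := by
  obtain ⟨q, hq, hqs⟩ := exists_of_pS hs
  refine (D.small' C hi hq (by linarith [D.c₀_pos]) hx (D.supp_S C hm hqs) hy).trans ?_
  have hsub : K.sq s ⊆ K.cube q := by
    rcases hqs with rfl | rfl
    · exact (TM.sq_subset K s).1
    · exact (TM.sq_subset K s).2
  have h1 := (C.sS_sT D.hρ hsub).2
  have h2 := D.δpos
  unfold ω3S
  nlinarith

theorem osc_E {e : K.G} (he : e ∈ pG C J₀) {i : M.ι} (hi : i ∉ P) {x y : V} (hx : x ∈ M.Q i)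
    (hy : y ∈ M.Q i) (hm : h.toFun x ∈ (D.W C).se e) :
    ‖h.toFun x - h.toFun y‖ ≤ ω3T δ C (.inl e) := by
  obtain ⟨q, hq, hqs⟩ := he
  refine (D.small' C hi hq (by linarith [D.c₀_pos]) hx (D.supp_E C hm hqs) hy).trans ?_
  have h1 := (C.sG_sT D.hρ hqs).2
  have h2 := D.δpos
  show _ ≤ 4 * δ * C.sG e
  nlinarith

theorem osc_V {k : K.W} (he : k ∈ pW C J₀) {i : M.ι} (hi : i ∉ P) {x y : V} (hx : x ∈ M.Q i)
    (hy : y ∈ M.Q i) (hm : h.toFun x ∈ (D.W C).sv k) :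
    ‖h.toFun x - h.toFun y‖ ≤ ω3W δ C k := by
  obtain ⟨q, hq, hqs⟩ := he
  refine (D.small' C hi hq (by linarith [D.c₀_pos]) hx (D.supp_V C hm hqs) hy).trans ?_
  have h1 := (C.sW_sT D.hρ hqs).2
  have h2 := D.δpos
  unfold ω3W
  nlinarith

/-- **oscillation of the cells at the boxes of round T** -/
theorem osc_T {b : TBx K} (hb : b ∈ pB C J₀) {i : M.ι} (hi : i ∉ P) {x y : V} (hx : x ∈ M.Q i)
    (hy : y ∈ M.Q i) (hm : h.toFun x ∈ (D.G C).TB false b) :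
    ‖h.toFun x - h.toFun y‖ ≤ ω3T δ C b := by
  rcases b with e | k
  · exact D.osc_E C (inl_mem_pB.1 hb) hi hx hy (Ze_subset (Geo.TB_subset_Ze e hm))
  · have hb' : k.s ∈ pS C J₀ := inr_mem_pB.1 hb
    obtain ⟨q, hq, hqs⟩ := exists_of_pS hb'
    refine (D.small' C hi hq (by linarith [D.c₀_pos]) hx
      (D.supp_S C (Zs_subset (Geo.TB_subset_Zs k hm)) hqs) hy).trans ?_
    have hsub : K.sq k.s ⊆ K.cube q := by
      rcases hqs with rfl | rfl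
      · exact (TM.sq_subset K k.s).1
      · exact (TM.sq_subset K k.s).2
    have h1 := (C.sW_sT D.hρ (hsub (Geo.hang_mem k))).2
    have h2 := D.δpos
    show _ ≤ 4 * δ * C.sW k.i
    nlinarith

/-- **oscillation of the cells at the plates** -/
theorem osc_PB {s : K.S} (hs : s ∈ pS C J₀) {c : ℝ} (hc : 1 / 2 ≤ c) {i : M.ι} (hi : i ∉ P)
    {x y : V} (hx : x ∈ M.Q i) (hy : y ∈ M.Q i) (hm : h.toFun x ∈ (D.G C).PB c s) :
    ‖h.toFun x - h.toFun y‖ ≤ ω3S δ C s :=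
  D.osc_S C hs hi hx hy (Zs_subset (Geo.PB_subset hc s hm))

/-! ### whole cells -/

/-- **a drawn cell is in one processed zone, with large margins**; `X` is a cell or a face -/
theorem cover_cell {c' : ℝ} (hc' : c' ≤ κ3 n / 4) {i : M.ι} (hi : i ∉ P) {X : Set V}
    (hXi : X ⊆ M.Q i) (hX : X.Nonempty) (hN : h.toFun '' X ⊆ Nb w J₀ c') :
    (∃ s ∈ pS C J₀, (∀ x ∈ X, closedBall (h.toFun x) (2 * (D.G C).oS s) ⊆ (D.B C).P s ∧
      closedBall (h.toFun x) (2 * (D.G C).oS s) ⊆ (D.G C).PB 2 s) ∧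
      ∀ x ∈ X, |h.toFun x (K.nrm s) - K.slo s (K.nrm s)| ≤ (D.B C).τ s / 4) ∨
    (∃ e ∈ pG C J₀,
      (∀ x ∈ X, closedBall (h.toFun x) (2 * (D.G C).oG e) ⊆ (D.B C).E e) ∧
      ((∀ x ∈ X, closedBall (h.toFun x) (2 * (D.G C).oG e) ⊆ (D.G C).TB true (.inl e)) ∨
        ∃ s ∈ pS C J₀, K.edge e ⊆ K.sq s ∧ (∀ x ∈ X,
          closedBall (h.toFun x) (2 * (D.G C).oS s) ⊆ (D.G C).PB 2 s) ∧
          ∀ x ∈ X, |h.toFun x (K.nrm s) - K.slo s (K.nrm s)| ≤ (D.B C).τ s / 4)) ∨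
    ∃ i ∈ pW C J₀, ∀ x ∈ X, closedBall (h.toFun x) (2 * (D.G C).oW i) ⊆ Zv (D.W C) i := by
  obtain ⟨x₀, hx₀⟩ := hX
  have hN₀ := hN (mem_image_of_mem _ hx₀)
  have hc1 : c' ≤ 1 / 8 := by linarith [D.κ_lt]
  obtain ⟨q, hq⟩ := K.cover _ (D.Nb_sub C hc1 hN₀)
  change h.toFun x₀ ∈ K.cube q at hq
  obtain ⟨t, ht, x₁, hx₁, hxy⟩ := (D.mem_Nb C).1 hN₀
  have hcmp := (D.comp C hc1 hx₁ hq hxy).1
  have hcmp' := (D.comp C hc1 hx₁ hq hxy).2
  have hcc : c' ≤ c₀ := by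
    have := D.κ_le_c₀
    linarith [D.c₀_pos, κ3_pos D.pos]
  have hosc : ∀ x ∈ X, ‖h.toFun x₀ - h.toFun x‖ ≤ δ * C.sT t := fun x hx =>
    D.small' C hi ht hcc (hXi hx₀) ((mem_Nb_one C).2 ⟨x₁, hx₁, hxy⟩) (hXi hx)
  have hT := C.sT_pos q
  have hTt := C.sT_pos t
  have ho := o3_pos D.pos
  have hom : (D.G C).om q = o3 n * C.sT q := rfl
  have hδ : δ * C.sT t ≤ 1 / 4194304 * (D.G C).om q := by
    have h1 := δ3_eq (n := n)
    have h2 := D.δ_le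
    have h3 := D.δpos
    rw [hom]
    nlinarith
  have hom0 := (D.G C).om_pos q
  -- transfer of margins
  have key : ∀ X' : Set V, closedBall (h.toFun x₀) (10 * (D.G C).om q) ⊆ X' → ∀ r : ℝ,
      r ≤ 4 * (D.G C).om q → ∀ x ∈ X, closedBall (h.toFun x) (2 * r) ⊆ X' := by
    intro X' hX' r hr x hx y hy
    refine hX' ?_
    rw [mem_closedBall] at hy ⊢
    have h2 := dist_triangle y (h.toFun x) (h.toFun x₀)
    have h3 := hosc x hx
    rw [← dist_eq_norm, dist_comm] at h3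
    linarith
  have keyn : ∀ s : K.S, (q = K.sm s ∨ q = K.sp s) →
      |h.toFun x₀ (K.nrm s) - K.slo s (K.nrm s)| ≤ (D.G C).κ q →
      ∀ x ∈ X, |h.toFun x (K.nrm s) - K.slo s (K.nrm s)| ≤ (D.B C).τ s / 4 := by
    intro s hs hn x hx
    have h2 := (D.G C).κ_τ q s hs
    have h3 := (D.G C).om_κ q
    have h4 := abs_sub_le_norm (h.toFun x₀) (h.toFun x) (K.nrm s)
    rw [abs_sub_comm] at h4
    have h5 := hosc x hx
    have h6 := abs_sub_le (h.toFun x (K.nrm s)) (h.toFun x₀ (K.nrm s)) (K.slo s (K.nrm s))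
    linarith
  have hsT : ∀ s : K.S, (q = K.sm s ∨ q = K.sp s) → (D.G C).oS s ≤ 4 * (D.G C).om q := by
    intro s hs
    have hsub : K.sq s ⊆ K.cube q := by
      rcases hs with rfl | rfl
      · exact (TM.sq_subset K s).1
      · exact (TM.sq_subset K s).2
    have := mul_le_mul_of_nonneg_left (C.sS_sT D.hρ hsub).1 ho.le
    show 4 * o3 n * C.sS s ≤ _
    rw [hom]; linarith
  rcases D.cover0 C hc' hN₀ hq with ⟨s, hs', hs, h2, h3, h4⟩ | ⟨e, he', he, h2, h3⟩ |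
    ⟨k, hk', hk, h2⟩
  · exact Or.inl ⟨s, hs', fun x hx => ⟨key _ h2 _ (hsT s hs) x hx, key _ h3 _ (hsT s hs) x hx⟩,
      keyn s hs h4⟩
  · have heT : (D.G C).oG e ≤ 4 * (D.G C).om q := by
      have := mul_le_mul_of_nonneg_left (C.sG_sT D.hρ he).1 ho.le
      show 4 * o3 n * C.sG e ≤ _
      rw [hom]; linarith
    refine Or.inr (Or.inl ⟨e, he', key _ h2 _ heT, ?_⟩)
    rcases h3 with h3 | ⟨s, hs', hes, hs, h3, h4⟩
    · exact Or.inl (key _ h3 _ heT)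
    · exact Or.inr ⟨s, hs', hes, key _ h3 _ (hsT s hs), keyn s hs h4⟩
  · refine Or.inr (Or.inr ⟨k, hk', key _ h2 _ ?_⟩)
    have := mul_le_mul_of_nonneg_left (C.sW_sT D.hρ hk).1 ho.le
    show 4 * o3 n * C.sW k ≤ _
    rw [hom]; linarith

/-- a cell which is not protected and meets the neighbourhood is a drawn cell for a slightly
larger neighbourhood -/
theorem mem_Zmax {c' : ℝ} (hc' : c' ≤ c₀) {i : M.ι} (hi : i ∉ P) {x : V} (hx : x ∈ M.Q i)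
    (hm : h.toFun x ∈ Nb w J₀ (c' - δ)) : i ∈ Zmax M w h.toFun J₀ P c' := by
  refine ⟨hi, ?_⟩
  rintro _ ⟨y, hy, rfl⟩
  obtain ⟨t, ht, z, hz, hxz⟩ := (D.mem_Nb C).1 hm
  have h1 := D.small' C hi ht (by linarith [D.δpos]) hx ((mem_Nb_one C).2 ⟨z, hz, hxz⟩) hy
  refine (D.mem_Nb C).2 ⟨t, ht, z, hz, ?_⟩
  have h2 := norm_sub_le_norm_sub_add_norm_sub (h.toFun y) (h.toFun x) z
  rw [norm_sub_rev (h.toFun y) (h.toFun x)] at h2
  have h3 : (c' - δ) * C.sT t = c' * C.sT t - δ * C.sT t := by ring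
  linarith

/-! ### protected cells -/

omit D in
/-- the middle cube -/
theorem mem_mid {η : ℝ} (hη : η ≤ 1) : y ∈ H304.mid w η (C.fT q) ↔
    ∀ k, K.lo q k + η / 2 * C.sT q ≤ y k ∧ y k ≤ K.hi q k - η / 2 * C.sT q := by
  have e : C.sT q = 1 / 2 ^ (C.fT q).1 := rfl
  have hm : (0:ℝ) < 2 ^ (C.fT q).1 := by positivity
  unfold H304.mid
  rw [mem_closedBall, dist_pi_le_iff (by
    have : 0 ≤ 1 - η := by linarith
    positivity)]
  refine forall_congr' fun k => ?_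
  obtain ⟨h3, h4⟩ := lo_of C q k
  have e1 : H73.ctr w (C.fT q).1 (C.fT q).2 k = w k + (C.fT q).2 k / 2 ^ (C.fT q).1 +
      1 / 2 / 2 ^ (C.fT q).1 := by rw [H73.ctr]; ring
  have e2 : w k + ((C.fT q).2 k + 1) / 2 ^ (C.fT q).1 = w k + (C.fT q).2 k / 2 ^ (C.fT q).1 +
      1 / 2 / 2 ^ (C.fT q).1 + 1 / 2 / 2 ^ (C.fT q).1 := by ring
  have e3 : (1 - η) / 2 / 2 ^ (C.fT q).1 = 1 / 2 / 2 ^ (C.fT q).1 -
      η / 2 * (1 / 2 ^ (C.fT q).1) := by ring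
  rw [Real.dist_eq, h3, h4, e, e1, e2, e3, abs_le]
  constructor
  · rintro ⟨h1, h2⟩
    constructor <;> linarith
  · rintro ⟨h1, h2⟩
    constructor <;> linarith

omit C K in
/-- the image of a protected cell is in a middle cube -/
theorem prot_sub {i : M.ι} {t : ℕ × (Fin 3 → ℤ)} {a s : V} {r : ℝ} (hr : 0 < r)
    (hs : ∀ k, s k = 1 ∨ s k = -1) (hQ : M.Q i = closedBall a r)
    (hf : ∀ x ∈ M.Q i, ∀ k, h.toFun x k = H73.ctr w t.1 t.2 k +
      (1 - 1 / 2 ^ j) / 2 / 2 ^ t.1 / r * s k * (x k - a k)) {x : V} (hx : x ∈ M.Q i) (k : Fin 3) :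
    |h.toFun x k - H73.ctr w t.1 t.2 k| = (1 - 1 / 2 ^ j) / 2 / 2 ^ t.1 / r * |x k - a k| ∧
      |h.toFun x k - H73.ctr w t.1 t.2 k| ≤ (1 - 1 / 2 ^ j) / 2 / 2 ^ t.1 := by
  have h0 := D.η_le_one
  have hR : 0 < (1 - 1 / 2 ^ j) / 2 / (2:ℝ) ^ t.1 := by
    have : (0:ℝ) < 1 - 1 / 2 ^ j := by linarith
    positivity
  have hs1 : |s k| = 1 := by rcases hs k with e | e <;> rw [e] <;> simp
  have h1 : |h.toFun x k - H73.ctr w t.1 t.2 k| =
      (1 - 1 / 2 ^ j) / 2 / 2 ^ t.1 / r * |x k - a k| := by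
    rw [hf x hx k, add_sub_cancel_left, abs_mul, abs_mul, hs1, mul_one,
      abs_of_pos (div_pos hR hr)]
  refine ⟨h1, ?_⟩
  rw [h1]
  have h2 : |x k - a k| ≤ r := by
    rw [hQ, mem_closedBall, dist_pi_le_iff hr.le] at hx
    exact hx k
  calc (1 - 1 / 2 ^ j) / 2 / 2 ^ t.1 / r * |x k - a k|
      ≤ (1 - 1 / 2 ^ j) / 2 / 2 ^ t.1 / r * r := mul_le_mul_of_nonneg_left h2 (div_pos hR hr).le
    _ = _ := div_mul_cancel₀ _ hr.ne'

/-- **the image of a protected cell is the middle cube of a tile** -/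
theorem prot_tile {i : M.ι} (hi : i ∈ P) :
    ∃ q : K.T, C.fT q ∈ J ∧ h.toFun '' M.Q i = H304.mid w (1 / 2 ^ j) (C.fT q) := by
  obtain ⟨t, ht, a, r, s, hr, hs, hQ, hf⟩ := D.inp.prot i hi
  obtain ⟨q, hq⟩ := C.onT t.1 t.2 (D.inp.tile t ht)
  have hq' : C.fT q = t := hq
  refine ⟨q, hq' ▸ ht, ?_⟩
  rw [hq']
  obtain ⟨i₀, hi₀, h0⟩ := D.inp.surj t ht
  have h1 : h.toFun '' M.Q i ⊆ h.toFun '' M.Q i₀ := by
    rintro _ ⟨x, hx, rfl⟩
    rw [h0]
    have := D.η_le_one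
    show _ ∈ closedBall _ _
    rw [mem_closedBall, dist_pi_le_iff (by
      have : (0:ℝ) ≤ 1 - 1 / 2 ^ j := by linarith
      positivity)]
    intro k
    rw [Real.dist_eq]
    exact (D.prot_sub hr hs hQ hf hx k).2
  have h2 : M.Q i ⊆ M.Q i₀ := by
    intro x hx
    obtain ⟨x', hx', he⟩ := h1 (mem_image_of_mem _ hx)
    rwa [← h.injOn (M.sub _ hx') (M.sub _ hx) he]
  by_cases hii : i = i₀
  · rw [hii]; exact h0
  · exfalso
    obtain ⟨x, hx⟩ := (M.poly i).int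
    exact disjoint_left.1 (M.disj i i₀ hii) hx (h2 (interior_subset hx))

/-- a cell which is not protected does not meet the interiors of the middle cubes -/
theorem not_int_mid {i : M.ι} (hi : i ∉ P) (hq : C.fT q ∈ J) {x : V} (hx : x ∈ M.Q i) :
    ¬ ∀ k, K.lo q k + 1 / 2 ^ j / 2 * C.sT q < h.toFun x k ∧
      h.toFun x k < K.hi q k - 1 / 2 ^ j / 2 * C.sT q := by
  intro hcon
  have hη : (1:ℝ) / 2 ^ j ≤ 1 := D.η_le_one.trans (by norm_num)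
  obtain ⟨i₀, hi₀, h0⟩ := D.inp.surj _ hq
  obtain ⟨t, ht, a, r, s, hr, hs, hQ, hf⟩ := D.inp.prot i₀ hi₀
  have h1 : h.toFun x ∈ h.toFun '' M.Q i₀ := by
    rw [h0]
    exact (mem_mid C hη).2 fun k => ⟨(hcon k).1.le, (hcon k).2.le⟩
  obtain ⟨x', hx', he⟩ := h1
  have hxx : x' = x := h.injOn (M.sub _ hx') (M.sub _ hx) he
  subst hxx
  have hne : i₀ ≠ i := fun e => hi (e ▸ hi₀)
  refine disjoint_left.1 (M.disj i₀ i hne) ?_ hx
  rw [hQ]
  refine interior_maximal ball_subset_closedBall isOpen_ball ?_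
  rw [mem_ball, dist_pi_lt_iff hr]
  by_contra hcon'
  push Not at hcon'
  obtain ⟨k, hk⟩ := hcon'
  rw [Real.dist_eq] at hk
  have hR : 0 < (1 - 1 / 2 ^ j) / 2 / (2:ℝ) ^ t.1 := by
    have h2 := D.η_le_one
    have : (0:ℝ) < 1 - 1 / 2 ^ j := by linarith
    positivity
  have h2 : (1 - 1 / 2 ^ j) / 2 / 2 ^ t.1 ≤ |h.toFun x' k - H73.ctr w t.1 t.2 k| := by
    rw [(D.prot_sub hr hs hQ hf hx' k).1]
    calc (1 - 1 / 2 ^ j) / 2 / (2:ℝ) ^ t.1 = (1 - 1 / 2 ^ j) / 2 / 2 ^ t.1 / r * r :=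
          (div_mul_cancel₀ _ hr.ne').symm
      _ ≤ _ := mul_le_mul_of_nonneg_left hk (div_pos hR hr).le
  have key : ∀ b : ℝ, K.lo q k + 1 / 2 ^ j / 2 * C.sT q ≤ b → b ≤ K.hi q k -
      1 / 2 ^ j / 2 * C.sT q → |b - H73.ctr w t.1 t.2 k| ≤ (1 - 1 / 2 ^ j) / 2 / 2 ^ t.1 := by
    intro b hb1 hb2
    have h3 : Function.update (h.toFun x') k b ∈ h.toFun '' M.Q i₀ := by
      rw [h0]
      refine (mem_mid C hη).2 fun l => ?_
      by_cases hl : l = k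
      · subst hl
        simp only [Function.update_self]
        exact ⟨hb1, hb2⟩
      · rw [Function.update_of_ne hl]
        exact ⟨(hcon l).1.le, (hcon l).2.le⟩
    obtain ⟨z, hz, hez⟩ := h3
    have h4 := (D.prot_sub hr hs hQ hf hz k).2
    rw [hez, Function.update_self] at h4
    exact h4
  have h5 := key _ le_rfl ((hcon k).1.trans (hcon k).2).le
  have h6 := key _ ((hcon k).1.trans (hcon k).2).le le_rfl
  have h7 := abs_le.1 h5
  have h8 := abs_le.1 h6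
  rcases le_abs'.1 h2 with h9 | h9
  · linarith [(hcon k).1]
  · linarith [(hcon k).2]

/-- different protected cells are disjoint -/
theorem disjoint_prot {i i' : M.ι} (hi : i ∈ P) (hi' : i' ∈ P) (hne : i ≠ i') :
    Disjoint (M.Q i) (M.Q i') := by
  have hη : (1:ℝ) / 2 ^ j ≤ 1 := D.η_le_one.trans (by norm_num)
  obtain ⟨q, hq, h1⟩ := D.prot_tile C hi
  obtain ⟨q', hq', h1'⟩ := D.prot_tile C hi'
  rw [disjoint_left]
  intro x hx hx'
  have h2 := (mem_mid C hη).1 (h1 ▸ mem_image_of_mem h.toFun hx)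
  have h2' := (mem_mid C hη).1 (h1' ▸ mem_image_of_mem h.toFun hx')
  have hT := C.sT_pos q
  have hT' := C.sT_pos q'
  have hp : (0:ℝ) < 1 / 2 ^ j := η_pos
  have e : q = q' := by
    by_contra hqq
    refine K.dis q q' hqq (h.toFun x) (fun k => ?_) ⟨fun k => ?_, fun k => ?_⟩
    · have h3 := h2 k
      have : 0 < 1 / 2 ^ j / 2 * C.sT q := by positivity
      constructor <;> linarith
    · have h3 := (h2' k).1
      have : 0 < 1 / 2 ^ j / 2 * C.sT q' := by positivity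
      linarith
    · have h3 := (h2' k).2
      have : 0 < 1 / 2 ^ j / 2 * C.sT q' := by positivity
      linarith
  subst e
  have h3 : M.Q i ⊆ M.Q i' := by
    intro z hz
    obtain ⟨z', hz', he⟩ : h.toFun z ∈ h.toFun '' M.Q i' := by
      rw [h1', ← h1]; exact mem_image_of_mem _ hz
    rwa [← h.injOn (M.sub _ hz') (M.sub _ hz) he]
  obtain ⟨z, hz⟩ := (M.poly i).int
  exact disjoint_left.1 (M.disj i i' hne) hz (h3 (interior_subset hz))

/-- every face is in a cell which is not protected -/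
theorem exists_cell (k : M.κ) : ∃ i, i ∉ P ∧ M.F k ⊆ M.Q i := by
  obtain ⟨i, i', hne, h1⟩ := M.two k
  obtain ⟨x, hx⟩ : (M.F k).Nonempty := by
    obtain ⟨φ, -⟩ := (M.fat k).chart
    exact ⟨_, φ.mapsTo (show ((0:ℝ), (0:ℝ)) ∈ H73.usq from
      ⟨⟨le_rfl, zero_le_one⟩, ⟨le_rfl, zero_le_one⟩⟩)⟩
  by_cases hi : i ∈ P
  · by_cases hi' : i' ∈ P
    · exact absurd (h1 hx).2 (disjoint_left.1 (D.disjoint_prot C hi hi' hne) (h1 hx).1)
    · exact ⟨i', hi', fun z hz => (h1 hz).2⟩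
  · exact ⟨i, hi, fun z hz => (h1 hz).1⟩

end KIn3

end Vale.Agent.P073.H926
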