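import Vale.Agent.P073.H926.CovD
import Vale.Agent.P073.H237.CovP
import Vale.Agent.P073.H155.THin3

/-!
# P073, block [K3C], (e3) [COVER], part E: the theorem

`KIn3.cover3`: every drawn cell is in the box of the hook of a plate before the hook, or in the box of
the hook of a tube after ROUND P, or near a vertex after ROUND P.
-/

open Set Metric Topology Filter

namespace Vale.Agent.P073.H926

open _root_.P073 _root_.P073.Net _root_.P073.PA691 _root_.P073.TM _root_.P073.H236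
  _root_.P073.H142 _root_.P073.H196
open Vale.Agent.P073.St (V)
open Vale.Agent.P073.H471 Vale.Agent.P073.H267
open Vale.Agent.P073.H73 (Mesh)
open Vale.Agent.P073.H193 (Edges)
open Vale.Agent.P073.H304 (Nb In Zmax)
open Vale.Agent.P073.H238.K3 (Zd Wc Act Gv TOut3)
open _root_.P073.H345 (PK PK_sub_ss τ_as_PK PB_sub_PK tg tg_ne PLev PK_unique)
open _root_.P073.H919 (HB mem_HB HB_PB HB_mono HB_interior HkG HkGF)
open _root_.P073.H429 (Lat YB YT)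
open _root_.P073.H155 (PreT MapT)
open _root_.P073.H237.Cov (pst pmv_cell)
open _root_.P073.H880.RP (Dat)

variable {c₀ n δ : ℝ} {j : ℕ} {Ω Λ : Set V} {v w : V} {ρ : V → ℝ} {M : Mesh Ω} {h : ConHomeo Ω Λ}
  {J₀ J : Set (ℕ × (Fin 3 → ℤ))} {P Z : Set M.ι} {K : BoxCx Λ w} {x y z : V} {q t : K.T}
  {h1 h2 h3 h4 h5 f5 : ConHomeo Ω Λ}

theorem exists_edge_sq {K : BoxCx Λ w} (s : K.S) : ∃ e, K.edge e ⊆ K.sq s := by
  have h0 : ∀ a : Fin 3, ∃ k, k ≠ a := by decide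
  obtain ⟨k, hk⟩ := h0 (K.nrm s)
  obtain ⟨e, he, -⟩ := K.sq_bd s (K.slo s) (slo_mem s) ⟨k, hk, Or.inl rfl⟩
  exact ⟨e, he⟩

namespace KIn3

variable (D : KIn3 c₀ n j δ v w ρ M h J₀ J P Z) (C : Cells ρ w K)

/-- a point of a plate which is close to a frontier point of a tile -/
theorem nrm_z {s : K.S} (hy : y ∈ PK (D.G C) s) (hz : z ∈ frontier (K.cube t))
    (hyz : ‖y - z‖ ≤ (D.G C).κ t / 8) : (t = K.sm s ∨ t = K.sp s) ∧
      |y (K.nrm s) - K.slo s (K.nrm s)| ≤ (D.G C).κ t / 8 := by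
  obtain ⟨q, hq⟩ := K.cover _ (PK_sub_Λ (D.G C) s hy)
  change y ∈ K.cube q at hq
  have hτ := (D.B C).τ_pos s
  have hX : y ∈ PX (D.G C) s := PX_of_near hy (by rw [sub_self, norm_zero]; linarith)
  have hqs := tile_PX hX hq
  have hκ3 := κ3_pos D.pos
  have hκ := D.κ_lt
  have hT := C.sT_pos t
  have e1 : ‖y - z‖ ≤ κ3 n / 8 * C.sT t := by
    refine hyz.trans (le_of_eq ?_)
    show κ3 n * C.sT t / 8 = _
    ring
  have hcmp := (D.comp C (c' := κ3 n / 8) (by linarith) hz hq e1).2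
  have e2 : ‖y - z‖ ≤ (D.G C).κ q := by
    refine e1.trans ?_
    show _ ≤ κ3 n * C.sT q
    have := C.sT_pos q
    nlinarith
  obtain ⟨h2, h3⟩ := nrm_of_frontier (near_PX hX hqs e2) hz
  refine ⟨h2, ?_⟩
  rw [← h3]
  exact (abs_sub_le_norm y z (K.nrm s)).trans hyz

variable {E : Edges M} {c d : ℝ} {L : PLev (D.G C)} {F Fσ : Bool → BFam 3 (D.dat C).S₀ Λ}
  {ς : Bool → (D.dat C).S₀ → ℝ} {T Tσ : Bool → ConHomeo Λ Λ} {κ₀ κ₁ : V → V}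
  {Zb : (D.dat C).S₀ → Set M.ι} {u : V} {hΩ : IsOpen Ω} {r q : (D.dat C).S₀ → ℝ}
  {ι : Type} {Fm : ι → Set V}
  {H : HkG M L (Subtype.val : (D.dat C).S₀ → K.S) F T κ₀ κ₁ c d Zb h2 h3 h4 u}
  {O : HkGF H hΩ r q h5}

/-- **(e3), ROUND P**, the cells which are close to `h` before the hook -/
theorem cover_near (A : PreT O h1 f5 Fσ ς Tσ E Fm) (hc : c ≤ 29 / 32) (hd : 1 / 2 ≤ d)
    (hst : ∀ s : (D.dat C).S₀, ∀ β, pst L s.1 β ≤ (D.G C).p s.1 / 4)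
    (hσ : ∀ s : (D.dat C).S₀, ∀ β q, (q = K.sm s.1 ∨ q = K.sp s.1) → (Fσ β).e s ≤ (D.G C).om q)
    {i : M.ι} (hi : i ∈ Zmax M w h.toFun J₀ P (2 / 2 ^ j))
    (hg : NearG (D.G C) M h.toFun h4.toFun 100 i) :
    (∃ s ∈ pS C J₀, h4.toFun '' M.Q i ⊆ interior (HB (D.G C) c d s)) ∨
    (∃ e ∈ pG C J₀, f5.toFun '' M.Q i ⊆ interior (YB (YT (D.G C) (pS C J₀)) e)) ∨
    ∃ i' ∈ pW C J₀, ∀ x ∈ M.Q i, ∀ k, |f5.toFun x k - K.w i' k| ≤ 7 / 8 * (D.W C).wv i' := by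
  refine D.cover_P C hi hg H.hc H.hc2 hd H.hd (u := (D.G C).p) (fun s _ => le_rfl)
    fun hP t ht z hz hxz x hx => ?_
  have hcp : ∀ s : (D.dat C).S₀, c * (D.G C).p s.1 ≤ 29 / 32 * (D.G C).p s.1 := fun s =>
    mul_le_mul_of_nonneg_right hc (Geo.p_pos (G := D.G C) s.1).le
  have hS : ∀ s : (D.dat C).S₀, ∀ x ∈ M.Q i, h4.toFun x ∈ PK (D.G C) s.1 →
      (t = K.sm s.1 ∨ t = K.sp s.1) ∧
        |h4.toFun x (K.nrm s.1) - K.slo s.1 (K.nrm s.1)| ≤ (D.G C).κ t / 8 := fun s x hx hs =>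
    D.nrm_z C hs hz (hxz x hx)
  have hHP : ∀ s : (D.dat C).S₀, ∀ x, h4.toFun x ∈ HB (D.G C) c d s.1 →
      h4.toFun x ∈ PK (D.G C) s.1 := fun s x hs =>
    PB_sub_PK (by linarith [H.hc]) s.1 (HB_PB le_rfl H.hd s.1 hs)
  have hδ : ∀ s : (D.dat C).S₀, ∀ q, (q = K.sm s.1 ∨ q = K.sp s.1) →
      max ((Fσ false).e s) ((Fσ true).e s) ≤ (D.G C).om q := fun s q hq =>
    max_le (hσ s false q hq) (hσ s true q hq)
  have hδS : ∀ s : (D.dat C).S₀, max ((Fσ false).e s) ((Fσ true).e s) ≤ (D.G C).oS s.1 :=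
    fun s => (hδ s _ (Or.inl rfl)).trans ((D.G C).om_oS _ _ (Or.inl rfl))
  have hnum0 : ∀ s : (D.dat C).S₀, 16 * (D.G C).p s.1 ≤ (D.G C).a s.1 := fun s => by
    obtain ⟨e, he⟩ := exists_edge_sq (K := K) s.1
    have h1 := (D.G C).p_be s.1 _ (he (TM.wa_mem K e))
    have h2 := (D.G C).be_a s.1 _ (he (TM.wa_mem K e))
    linarith
  have hκt := (D.G C).κ_pos t
  refine pmv_cell O A.P A.hf5 A.r0 A.r1
    (fun s X => H.near_lo hΩ A.R A.Z A.hht s X (A.hcell s) (A.hosc s)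
      (by linarith [hcp s, Geo.p_pos (G := D.G C) s.1]) le_rfl)
    (fun s X => H.near_hi hΩ A.R A.Z A.hht s X (A.hcell s) (A.hosc s)
      (by linarith [hcp s, Geo.p_pos (G := D.G C) s.1]) le_rfl)
    (fun s hs => hP s.1 s.2 (H.int s i hs)) (fun s => hP s.1 s.2)
    (o := fun _ => (D.G C).κ t / 4) (w := fun s => (D.G C).p s.1 / 4)
    (δ := fun s => max ((Fσ false).e s) ((Fσ true).e s)) (uu := (D.G C).p)
    (ε := (D.G C).κ t / 8) (fun _ _ x hx y hy k => ?_) (fun s x hx hs => ?_) hst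
    (fun s β => ?_) (fun s => ?_) (fun s x hx hs => ?_) (by linarith)
    (fun s ⟨x, hx, hs⟩ => ?_) hx
  · have h1 := (abs_sub_le_norm (h4.toFun x) z k).trans (hxz x hx)
    have h2 := (abs_sub_le_norm (h4.toFun y) z k).trans (hxz y hy)
    have h3 := abs_sub_le (h4.toFun x k) (z k) (h4.toFun y k)
    rw [abs_sub_comm (z k)] at h3
    linarith
  · obtain ⟨hts, h1⟩ := hS s x hx (hHP s x hs)
    have h2 := (D.G C).κ_τ t s.1 hts
    have h3 := (D.B C).τ_pos s.1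
    have h4 : 1 / 2 * (D.B C).τ s.1 ≤ d * (D.B C).τ s.1 := mul_le_mul_of_nonneg_right hd h3.le
    linarith
  · cases β
    · exact le_max_left _ _
    · exact le_max_right _ _
  · have h1 := hδS s
    have h2 := (D.G C).oS_τ s.1
    have h3 := (D.G C).τ_p s.1
    have h4 := hnum0 s
    have h5 := (D.B C).τ_pos s.1
    have h6 := Geo.p_pos (G := D.G C) s.1
    linarith
  · obtain ⟨hts, -⟩ := hS s x hx (hHP s x hs)
    have h0 := (D.G C).κ_τ t s.1 hts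
    have h1 := hδS s
    have h2 := (D.G C).oS_τ s.1
    have h3 := (D.G C).τ_p s.1
    have h4 := hnum0 s
    have h5 := (D.B C).τ_pos s.1
    have h6 := Geo.p_pos (G := D.G C) s.1
    have h7 := hcp s
    refine ⟨by linarith, by linarith, by linarith⟩
  · obtain ⟨hts, -⟩ := hS s x hx hs
    have h1 := hδ s t hts
    have h2 := (D.G C).om_κ t
    have h3 := (D.G C).om_pos t
    linarith

/-- **the cells to be redrawn are in the boxes of the hook** -/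
theorem hk_int {h3t : ConHomeo Ω Λ} {μ₂ : Bool → (D.dat C).S₀ → ℝ}
    {T2 T3 : Bool → ConHomeo Λ Λ} (hT : ∀ k, ∀ x ∈ M.F k, ∀ q, h.toFun x ∈ K.cube q →
      ‖h1.toFun x - h.toFun x‖ ≤ (D.G C).om q)
    (A : PreT O h1 f5 Fσ ς Tσ E Fm) (Mt : MapT H h3t μ₂ T2) (P3 : PS3 L (D.dat C).S₀ F T3)
    (hc : c < 15 / 16) (hd : 1 / 2 < d) {s : (D.dat C).S₀}
    {i : M.ι} (hi : i ∈ (D.dat C).HkS (D.G C) h1 s.1)
    (himg : h3t.toFun '' M.Q i = _root_.P073.H579.Pre (κ₁ ∘ κ₀) Λ h2 (M.Q i)) :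
    h4.toFun '' M.Q i ⊆ interior (HB (D.G C) c d s.1) := by
  obtain ⟨hZ, hP, k, hk, hks⟩ := hi
  have hHk : i ∈ (D.dat C).Hk (D.G C) h1 := ⟨hZ, hP, k, hk, s.1, hks⟩
  have h1' : ∀ y ∈ M.Q i, h1.toFun y ∈ HB (D.G C) (15 / 16) (1 / 2) s.1 := fun y hy => by
    obtain ⟨e1, e2⟩ := D.hk_PB C hT hHk hk hks hy
    have hτ := (D.B C).τ_pos s.1
    exact (_root_.P073.H919.mem_HB_iff (by norm_num)).2 ⟨e1, by linarith⟩
  have h2' := _root_.P073.H880.RP.h2_pos H.hΛ A.R (fun s hs β => A.hht.le s hs β)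
    (s := s.1) ⟨hZ, hP, k, hk, hks⟩ h1'
  have h8 := _root_.P073.H880.RP.h4_pos (h4 := (h3t.trans (T3 false)).trans (T3 true))
    (_root_.P073.H919.PSt.of_PS3 P3) H.q₀ H.q₁ (fun _ _ => rfl) (M.sub i) himg
    (c := 15 / 16) (d := 1 / 2) (by norm_num) (by norm_num) (by norm_num) h2'
  have h9 : h4.toFun '' M.Q i ⊆ HB (D.G C) (15 / 16) (1 / 2) s.1 := by
    rintro - ⟨y, hy, rfl⟩
    have hyΩ := M.sub i hy
    have h10 : PS.map T3 (h3t.toFun y) ∈ HB (D.G C) (15 / 16) (1 / 2) s.1 :=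
      h8 (mem_image_of_mem _ hy)
    have h11 : h3t.toFun y ∈ HB (D.G C) (15 / 16) (1 / 2) s.1 :=
      (((_root_.P073.H919.PSt.of_PS3 P3).prodOn s (by norm_num) (by norm_num)
        (by norm_num)).mem _ (h3t.mapsTo hyΩ)).1 h10
    rw [Mt.map2 y hyΩ, ← Mt.P2.map_eq_map P3 (HB_PB (by norm_num) (by norm_num) s.1 h11)]
    exact h10
  exact h9.trans (HB_interior hc hd s.1)

open _root_.P073.H196 in
/-- **(e3), ROUND P**: every drawn cell is in the box of the hook of a plate before the hook, or in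
the box of the hook of a tube after ROUND P, or near a vertex after ROUND P -/
theorem cover3P {L₀ : PLev (D.G C)} {ct : K.S → Bool → ℝ} {c0 : ∀ s β, 0 < ct s β}
    {c1 : ∀ s β, ct s β ≤ L₀.c s β} {hΛ : IsOpen Λ} {Θ : Bool → ConHomeo Λ Λ}
    {h3t : ConHomeo Ω Λ} {μ₂ : Bool → (D.dat C).S₀ → ℝ} {T2 T3 : Bool → ConHomeo Λ Λ}
    (hT : ∀ x ∈ Ω, ∀ q, h.toFun x ∈ K.cube q → ‖h1.toFun x - h.toFun x‖ ≤ (D.G C).om q)
    (A : PreT O h1 f5 Fσ ς Tσ E Fm) (Mt : MapT H h3t μ₂ T2) (P3 : PS3 L (D.dat C).S₀ F T3)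
    (hc : c ≤ 29 / 32) (hd : 1 / 2 < d)
    (hΘ : ∀ β, (thP L₀ ct c0 c1 hΛ (D.dat C).S₀ β).IsH (Θ β))
    (hcL : ∀ s ∈ (D.dat C).S₀, ∀ β q, (q = K.sm s ∨ q = K.sp s) → L₀.c s β ≤ (D.G C).om q)
    (hD : ∀ s : (D.dat C).S₀, ∀ β q, (q = K.sm s.1 ∨ q = K.sp s.1) → (F β).D s ≤ (D.G C).om q)
    (hst : ∀ s : (D.dat C).S₀, ∀ β, pst L s.1 β ≤ (D.G C).p s.1 / 4)
    (hσ : ∀ s : (D.dat C).S₀, ∀ β q, (q = K.sm s.1 ∨ q = K.sp s.1) → (Fσ β).e s ≤ (D.G C).om q)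
    (himg : ∀ i ∈ (D.dat C).Zd, h3t.toFun '' M.Q i = _root_.P073.H579.Pre (κ₁ ∘ κ₀) Λ h2 (M.Q i))
    (hgiv : ∀ i ∈ (D.dat C).Gc (D.G C) h1, ∀ x ∈ M.Q i,
      h3t.toFun x = (Θ true).toFun ((Θ false).toFun (h1.toFun x)))
    {i : M.ι} (hi : i ∈ Zmax M w h.toFun J₀ P (2 / 2 ^ j)) :
    (∃ s ∈ pS C J₀, h4.toFun '' M.Q i ⊆ interior (HB (D.G C) c d s)) ∨
    (∃ e ∈ pG C J₀, f5.toFun '' M.Q i ⊆ interior (YB (YT (D.G C) (pS C J₀)) e)) ∨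
    ∃ i' ∈ pW C J₀, ∀ x ∈ M.Q i, ∀ k, |f5.toFun x k - K.w i' k| ≤ 7 / 8 * (D.W C).wv i' := by
  by_cases hk : i ∈ (D.dat C).Hk (D.G C) h1
  · obtain ⟨s, hs⟩ := Dat.mem_Hk.1 hk
    obtain ⟨k, -, hks⟩ := hs.2.2
    exact Or.inl ⟨s, hks.1, D.hk_int C (s := ⟨s, hks.1⟩)
      (fun k x hx => hT x (Vale.Agent.P073.H193.mesh_sub M k hx)) A Mt P3
      (by linarith) hd hs (himg i hi)⟩
  · have hG : i ∈ (D.dat C).Gc (D.G C) h1 := Or.inr ⟨hi, hi.1, fun k hki hkp =>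
      hk ⟨hi, hi.1, k, hki, hkp⟩⟩
    exact D.cover_near C A hc hd.le hst hσ hi
      (D.nearG_given C Mt.P2 hΘ hcL hD Mt.map2
        (D.nearC_of_near3 C hT i) (hgiv i hG))

end KIn3

end Vale.Agent.P073.H926
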