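import Vale.Agent.P073.H926.CovB
import Vale.Agent.P073.H196.ThetaQ
import Vale.Agent.P073.H237.CovC
import Vale.Agent.P073.H190.TwoP

/-!
# P073, block [K3C], (e3) [COVER], part D: the given drawn cells are close to `h`, and the cover

`thT_disp`: displacement of `T ∘ Θ`.  `KIn3.nearG_given`: `NearG` for the map before the hook, for
the drawn cells with a given map.
-/

open Set Metric Topology Filter

namespace Vale.Agent.P073.H926

open _root_.P073 _root_.P073.Net _root_.P073.PA691 _root_.P073.TM _root_.P073.H236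
  _root_.P073.H142 _root_.P073.H196
open Vale.Agent.P073.St (V)
open Vale.Agent.P073.H471 Vale.Agent.P073.H267
open Vale.Agent.P073.H73 (Mesh)
open Vale.Agent.P073.H304 (Nb In Zmax)
open _root_.P073.H345 (PK PK_sub_ss τ_as_PK PB_sub_PK tg PLev PK_unique)
open _root_.P073.H880.RP (thinL)

section theta

variable {Λ : Set V} {v : V} {K : BoxCx Λ v} {S : Rad K} {W : Wid K S} {B : Boxes W}
  {G : Geo B} {L : PLev G} {c : K.S → Bool → ℝ} {h0 : ∀ s β, 0 < c s β}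
  {h1 : ∀ s β, c s β ≤ L.c s β} {hΛ : IsOpen Λ} {S₀ : Set K.S} {y : V} {β : Bool}

theorem theta_disp {Θ : ConHomeo Λ Λ} (hΘ : (thP L c h0 h1 hΛ S₀ β).IsH Θ) {d : ℝ} (hd0 : 0 ≤ d)
    (hd : ∀ s ∈ S₀, y ∈ PK G s → L.c s β ≤ d) : ‖Θ.toFun y - y‖ ≤ d := by
  by_cases hy : ∃ b, y ∈ ((thP L c h0 h1 hΛ S₀ β).X b).K
  · obtain ⟨b, hb⟩ := hy
    exact (hΘ.norm_sub_le hb).trans (hd b.1 b.2 (thP_K_sub b hb))
  · push Not at hy
    rw [hΘ.off y hy, sub_self, norm_zero]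
    exact hd0

theorem theta_PK {Θ : ConHomeo Λ Λ} (hΘ : (thP L c h0 h1 hΛ S₀ β).IsH Θ) {s : K.S}
    (hy : Θ.toFun y ∈ PK G s) : y ∈ PK G s := by
  by_cases h : ∃ s' ∈ S₀, y ∈ PK G s'
  · obtain ⟨s', hs', hy'⟩ := h
    have h2 := PK_unique (theta_mem_PK hΘ ⟨s', hs'⟩ hy') hy
    exact h2 ▸ hy'
  · push Not at h
    rwa [theta_off hΘ h] at hy

/-- **displacement of `T ∘ Θ`** -/
theorem thT_disp {L' : PLev G} {F : Bool → BFam 3 S₀ Λ} {T Θ : Bool → ConHomeo Λ Λ}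
    (P : PS3 L' S₀ F T) (hΘ : ∀ β, (thP L c h0 h1 hΛ S₀ β).IsH (Θ β)) {d : ℝ} (hd0 : 0 ≤ d)
    (hd : ∀ s : S₀, y ∈ PK G s.1 → ∀ β, L.c s.1 β ≤ d ∧ (F β).D s ≤ d) :
    ‖PS.map T ((Θ true).toFun ((Θ false).toFun y)) - y‖ ≤ 3 * d := by
  set y1 := (Θ false).toFun y with hy1
  set y2 := (Θ true).toFun y1 with hy2
  have e1 : ‖y1 - y‖ ≤ d := theta_disp (hΘ false) hd0 fun s hs hys => (hd ⟨s, hs⟩ hys false).1
  have e2 : ‖y2 - y1‖ ≤ d := theta_disp (hΘ true) hd0 fun s hs hys =>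
    (hd ⟨s, hs⟩ (theta_PK (hΘ false) hys) true).1
  have e3 : ‖PS.map T y2 - y2‖ ≤ d := P.disp2 hd0 fun β s hys =>
    (hd s (theta_PK (hΘ false) (theta_PK (hΘ true) hys)) β).2
  calc ‖PS.map T y2 - y‖ = ‖(PS.map T y2 - y2) + ((y2 - y1) + (y1 - y))‖ := by congr 1; abel
    _ ≤ ‖PS.map T y2 - y2‖ + (‖y2 - y1‖ + ‖y1 - y‖) :=
      (norm_add_le _ _).trans (by gcongr; exact norm_add_le _ _)
    _ ≤ 3 * d := by linarith

/-- off the plates nothing moves -/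
theorem thT_off {L' : PLev G} {F : Bool → BFam 3 S₀ Λ} {T Θ : Bool → ConHomeo Λ Λ}
    (P : PS3 L' S₀ F T) (hΘ : ∀ β, (thP L c h0 h1 hΛ S₀ β).IsH (Θ β))
    (hy : ∀ s ∈ S₀, y ∉ PK G s) :
    PS.map T ((Θ true).toFun ((Θ false).toFun y)) = y := by
  rw [theta_off (hΘ false) hy, theta_off (hΘ true) hy]
  exact P.map_off fun s => hy s.1 s.2

/-- **displacement of `T ∘ Θ`**, two-stage staircases -/
theorem thT_disp2 {L' : PLev G} {F : Bool → BFam 3 S₀ Λ} {μ : Bool → S₀ → ℝ}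
    {T Θ : Bool → ConHomeo Λ Λ} (P : P073.H190.PT2 L' S₀ F μ T)
    (hΘ : ∀ β, (thP L c h0 h1 hΛ S₀ β).IsH (Θ β)) {d : ℝ} (hd0 : 0 ≤ d)
    (hd : ∀ s : S₀, y ∈ PK G s.1 → ∀ β, L.c s.1 β ≤ d ∧ (F β).D s ≤ d) :
    ‖PS.map T ((Θ true).toFun ((Θ false).toFun y)) - y‖ ≤ 3 * d := by
  set y1 := (Θ false).toFun y with hy1
  set y2 := (Θ true).toFun y1 with hy2
  have e1 : ‖y1 - y‖ ≤ d := theta_disp (hΘ false) hd0 fun s hs hys => (hd ⟨s, hs⟩ hys false).1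
  have e2 : ‖y2 - y1‖ ≤ d := theta_disp (hΘ true) hd0 fun s hs hys =>
    (hd ⟨s, hs⟩ (theta_PK (hΘ false) hys) true).1
  have e3 : ‖PS.map T y2 - y2‖ ≤ d := P.disp2 hd0 fun β s hys =>
    (hd s (theta_PK (hΘ false) (theta_PK (hΘ true) hys)) β).2
  calc ‖PS.map T y2 - y‖ = ‖(PS.map T y2 - y2) + ((y2 - y1) + (y1 - y))‖ := by congr 1; abel
    _ ≤ ‖PS.map T y2 - y2‖ + (‖y2 - y1‖ + ‖y1 - y‖) :=
      (norm_add_le _ _).trans (by gcongr; exact norm_add_le _ _)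
    _ ≤ 3 * d := by linarith

/-- off the plates nothing moves, two-stage staircases -/
theorem thT_off2 {L' : PLev G} {F : Bool → BFam 3 S₀ Λ} {μ : Bool → S₀ → ℝ}
    {T Θ : Bool → ConHomeo Λ Λ} (P : P073.H190.PT2 L' S₀ F μ T)
    (hΘ : ∀ β, (thP L c h0 h1 hΛ S₀ β).IsH (Θ β)) (hy : ∀ s ∈ S₀, y ∉ PK G s) :
    PS.map T ((Θ true).toFun ((Θ false).toFun y)) = y := by
  rw [theta_off (hΘ false) hy, theta_off (hΘ true) hy]
  exact P.map_off fun s => hy s.1 s.2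

end theta

variable {c₀ n δ : ℝ} {j : ℕ} {Ω Λ : Set V} {v w : V} {ρ : V → ℝ} {M : Mesh Ω} {h : ConHomeo Ω Λ}
  {J₀ J : Set (ℕ × (Fin 3 → ℤ))} {P Z : Set M.ι} {K : BoxCx Λ w} {x y : V} {q t : K.T}
  {h1 : ConHomeo Ω Λ}

namespace KIn3

variable (D : KIn3 c₀ n j δ v w ρ M h J₀ J P Z) (C : Cells ρ w K)

/-- **from a displacement in the plates to `NearG`** -/
theorem nearG_of_disp {g : V → V} {i : M.ι} (hn : NearC (D.G C) M h.toFun h1.toFun i) {N : ℝ}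
    (hN : 0 ≤ N)
    (hoff : ∀ x ∈ M.Q i, (∀ s, h1.toFun x ∉ PK (D.G C) s) → g x = h1.toFun x)
    (hin : ∀ x ∈ M.Q i, ∀ s, h1.toFun x ∈ PK (D.G C) s → ∀ q, (q = K.sm s ∨ q = K.sp s) →
      ‖g x - h1.toFun x‖ ≤ N * (D.G C).om q) : NearG (D.G C) M h.toFun g (N + 5) i := by
  intro x hx
  by_cases hs : ∃ s, h1.toFun x ∈ PK (D.G C) s
  · obtain ⟨s, hs⟩ := hs
    obtain ⟨x', hx', hm, -, h2⟩ := D.exists_near C hn hx hs
    refine ⟨x', hx', fun q hq => ?_⟩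
    have e1 := h2 q hq
    have e2 := hin x hx s hs q (tile_PX hm hq)
    calc ‖g x - h.toFun x'‖ = ‖(g x - h1.toFun x) + (h1.toFun x - h.toFun x')‖ := by
          congr 1; abel
      _ ≤ ‖g x - h1.toFun x‖ + ‖h1.toFun x - h.toFun x'‖ := norm_add_le _ _
      _ ≤ (N + 5) * (D.G C).om q := by linarith
  · push Not at hs
    obtain ⟨x', hx', h2⟩ := hn x hx
    refine ⟨x', hx', fun q hq => ?_⟩
    rw [hoff x hx hs]
    have e1 := h2 q hq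
    have e2 : 0 ≤ N * (D.G C).om q := mul_nonneg hN ((D.G C).om_pos q).le
    linarith

/-- **the given drawn cells are close to `h`** before the hook of ROUND P: `h4 = T ∘ Θ ∘ h1` on
them; numbers: the thick flats and the displacement of the staircases are at most `om` -/
theorem nearG_given {L L' : PLev (D.G C)} {c : K.S → Bool → ℝ} {c0 : ∀ s β, 0 < c s β}
    {c1 : ∀ s β, c s β ≤ L.c s β} {hΛ : IsOpen Λ} {F : Bool → BFam 3 (D.dat C).S₀ Λ}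
    {μ : Bool → (D.dat C).S₀ → ℝ}
    {T Θ : Bool → ConHomeo Λ Λ} (HP : P073.H190.PT2 L' (D.dat C).S₀ F μ T)
    (hΘ : ∀ β, (thP L c c0 c1 hΛ (D.dat C).S₀ β).IsH (Θ β))
    (hc : ∀ s ∈ (D.dat C).S₀, ∀ β q, (q = K.sm s ∨ q = K.sp s) → L.c s β ≤ (D.G C).om q)
    (hD : ∀ s : (D.dat C).S₀, ∀ β q, (q = K.sm s.1 ∨ q = K.sp s.1) → (F β).D s ≤ (D.G C).om q)
    {h3 h4 : ConHomeo Ω Λ} (h34 : ∀ x ∈ Ω, h4.toFun x = PS.map T (h3.toFun x)) {i : M.ι}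
    (hn : NearC (D.G C) M h.toFun h1.toFun i)
    (h3' : ∀ x ∈ M.Q i, h3.toFun x = (Θ true).toFun ((Θ false).toFun (h1.toFun x))) :
    NearG (D.G C) M h.toFun h4.toFun 100 i := by
  refine (D.nearG_of_disp C hn (N := 3) (by norm_num) (fun x hx hs => ?_)
    fun x hx s hs q hq => ?_).mono (by norm_num)
  · rw [h34 x (M.sub i hx), h3' x hx]
    exact thT_off2 HP hΘ fun s _ => hs s
  · rw [h34 x (M.sub i hx), h3' x hx]
    refine thT_disp2 HP hΘ ((D.G C).om_pos q).le fun s' hs' β => ?_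
    have e := PK_unique hs' hs
    have hq' : q = K.sm s'.1 ∨ q = K.sp s'.1 := by rw [e]; exact hq
    exact ⟨hc s'.1 s'.2 β q hq', hD s' β q hq'⟩

/-! ### the cover -/

section cover

open _root_.P073.H429 _root_.P073.H936.K3 _root_.P073.H880 _root_.P073.H919
open _root_.P073.H237.Cov (covC_cell)

variable {γ : Type*} {φ : γ → K.G} {sl : γ → Finset (ℝ × ℝ)} {μ : γ → ℝ}
  {Y : Lat (D.B C)}
  {T : ∀ b, Thn (eal (D.W C) (φ b)) (ebe (D.W C) (φ b)) (sl b) (μ b)} {Zb : γ → Set M.ι}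
  {f5 : ConHomeo Ω Λ} {u : V} {H : HkT M Y φ T Zb f5 u} {hΩ : IsOpen Ω} {h6 : ConHomeo Ω Λ}
  {r : K.G → Fin 3 → ℝ} {hr : ∀ e k, 0 < r e k} {Y' : Lat (D.B C)}
  {hp : ∀ e k, Y'.p e k + r e k ≤ (D.B C).T e} {hq : ∀ e k, Y'.q e k + r e k ≤ (D.B C).T e}
  {hφ : Function.Injective φ} {ς : γ → ℝ} {s0 : ∀ b, 0 < ς b} {s1 : ∀ b, ς b ≤ 1}
  {S' : ConHomeo Λ Λ}

/-- **(e3), ROUND T'**: from the position after ROUND P (`cover_P`) to the position for the last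
map: a drawn cell is in the box of the hook of a plate, or in the box of the hook of a tube, or its
last image is in the interior of the zone of a vertex -/
theorem cover_T (O : HTube hΩ H.hookIn h6) (hμ : ∀ b, 0 ≤ μ b)
    (hS : (tfam Y' r hr hp hq hφ T s0 s1).IsH S')
    (hφG' : ∀ b, φ b ∈ pG C J₀)
    (hZt : ∀ b, ∀ i ∈ Zb b, f5.toFun '' M.Q i ⊆ interior (YB Y (φ b)))
    (hd : ∀ b i', (i' = K.a (φ b) ∨ i' = K.b (φ b)) →
      μ b * (ebe (D.W C) (φ b) - eal (D.W C) (φ b)) + 2 * (T b).om < (D.W C).wv i' / 16)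
    (hd' : ∀ b i', (i' = K.a (φ b) ∨ i' = K.b (φ b)) →
      μ b * (ebe (D.W C) (φ b) - eal (D.W C) (φ b)) ≤ (D.W C).wv i' / 32) {i : M.ι}
    {A : Prop} (hcov : A ∨
      (∃ e ∈ pG C J₀, f5.toFun '' M.Q i ⊆ interior (YB Y e)) ∨
      ∃ i' ∈ pW C J₀, ∀ x ∈ M.Q i, ∀ k, |f5.toFun x k - K.w i' k| ≤ 7 / 8 * (D.W C).wv i') :
    A ∨ (∃ e ∈ pG C J₀, f5.toFun '' M.Q i ⊆ interior (YB Y e)) ∨
      ∃ i' ∈ pW C J₀, (fun x => S'.toFun (h6.toFun x)) '' M.Q i ⊆ interior (Zv (D.W C) i') := by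
  rcases hcov with h | h | ⟨i', hi', h⟩
  · exact Or.inl h
  · exact Or.inr (Or.inl h)
  · by_cases hE : ∃ e ∈ pG C J₀, f5.toFun '' M.Q i ⊆ interior (YB Y e)
    · exact Or.inr (Or.inl hE)
    · right; right
      have hZn : ∀ b, ¬ f5.toFun '' M.Q i ⊆ interior (YB Y (φ b)) := fun b hb =>
        hE ⟨φ b, hφG' b, hb⟩
      have hwv := (D.W C).wv_pos i'
      exact ⟨i', hi', covC_cell O hμ hS (fun b hb => hZn b (hZt b i hb)) hZn (m := 7 / 8 * (D.W C).wv i')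
        (m' := 15 / 16 * (D.W C).wv i') (m'' := 31 / 32 * (D.W C).wv i') h (by linarith)
        (by linarith) (by linarith) (by linarith) (fun b hb => by linarith [hd b i' hb])
        (fun b hb => by linarith [hd' b i' hb])⟩

end cover

end KIn3

end Vale.Agent.P073.H926
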