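import Vale.Agent.P073.H926.DatC
import Vale.Agent.P073.H805.Inv3
import Vale.Agent.P073.H341.PIn3B

/-!
# P073, block [K3C]: ROUND P, the data ([DAT]), part D: the hypotheses `DPre` (H805) and the
geometric fields of `RIn3` (H341)
-/

open Set Metric Topology Filter

namespace Vale.Agent.P073.H926

open _root_.P073 _root_.P073.Net _root_.P073.PA691 _root_.P073.TM
open Vale.Agent.P073.St (V)
open Vale.Agent.P073.H471 Vale.Agent.P073.H267
open Vale.Agent.P073.H73 (Mesh)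
open Vale.Agent.P073.H304 (Nb In Zmax)
open _root_.P073.H345 (PK PK_sub_ss τ_as_PK PB_sub_PK tg)
open _root_.P073.H880.RP (Dat)
open Vale.Agent.P073.H341 (HtOk Abv)

variable {c₀ n δ : ℝ} {j : ℕ} {Ω Λ : Set V} {v w : V} {ρ : V → ℝ} {M : Mesh Ω} {h : ConHomeo Ω Λ}
  {J₀ J : Set (ℕ × (Fin 3 → ℤ))} {P Z : Set M.ι} {K : BoxCx Λ w} {x y : V} {q t : K.T}
  {h1 : ConHomeo Ω Λ}

namespace KIn3

variable (D : KIn3 c₀ n j δ v w ρ M h J₀ J P Z) (C : Cells ρ w K)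

/-- **H805's positions** -/
theorem dpre
    (hT : ∀ k, ∀ x ∈ M.F k, ∀ q, h.toFun x ∈ K.cube q → ‖h1.toFun x - h.toFun x‖ ≤ (D.G C).om q)
    (hpr : ∀ i ∈ P, h1.toFun '' M.Q i = h.toFun '' M.Q i) :
    H805.DPre (D.G C) (D.dat C) h1 where
  rel := by
    intro s hs l b hb
    rcases b with e | H
    · exact inl_mem_pB.2 (pG_of_pS hs hb.1)
    · refine inr_mem_pB.2 ?_
      rw [hb.1]; exact hs
  nrm := fun i hi _ x hx s _ hxs => (D.zd_PK C hT hi hx hxs).2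
  miss := fun i hi hiP x hx s _ hxs =>
    disjoint_left.1 (D.gc_PB C hT hpr hi hiP s) (mem_image_of_mem _ hx) hxs

theorem htOk : HtOk (D.G C) (D.dat C) where
  pos := fun s _ β => D.dat_ht_pos C s β
  le := fun s _ β => D.dat_ht_le C s β
  lt := fun s _ β hβ => by
    have h2 := D.dat_ht_prot C hβ
    have h3 := (D.B C).τ_pos s
    linarith

theorem rin_prot (hpr : ∀ i ∈ P, h1.toFun '' M.Q i = h.toFun '' M.Q i) :
    ∀ i ∈ (D.dat C).Pr, ∀ x ∈ M.Q i, ∀ s ∈ (D.dat C).S₀,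
      h1.toFun x ∉ interior ((D.dat C).PE (D.G C) s) := fun i hi x hx s _ hxs =>
  disjoint_left.1 (D.prot_PE C hpr hi s) (mem_image_of_mem _ hx) hxs

/-- a point of a plate above the height of the protected cell is in the protected cell -/
theorem rin_cov (hpr : ∀ i ∈ P, h1.toFun '' M.Q i = h.toFun '' M.Q i) :
    ∀ s, ∀ β, (D.dat C).sd s β → ∀ x ∈ Ω, h1.toFun x ∈ PX (D.G C) s →
      Abv K s β ((D.dat C).ht s β) (h1.toFun x) → ∃ i ∈ (D.dat C).Pr, x ∈ M.Q i := by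
  intro s β hβ x hx hxs hA
  have hη : (1:ℝ) / 2 ^ j ≤ 1 := D.η_le_one.trans (by norm_num)
  obtain ⟨q, hq⟩ := K.cover _ (h1.mapsTo hx)
  obtain ⟨-, -, h5⟩ := pos_PX (G := D.G C) hxs hq
  obtain ⟨hl1, hl2⟩ := K.s_lev s
  have hht := D.dat_ht_pos C s β
  have e := D.dat_ht_of C hβ
  have habs := abs_nonneg (h1.toFun x (K.nrm s) - K.slo s (K.nrm s))
  -- the tile is the protected one, and the height is large
  have key : q = (if β then K.sp s else K.sm s) ∧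
      (D.dat C).ht s β ≤ |h1.toFun x (K.nrm s) - K.slo s (K.nrm s)| := by
    cases β with
    | true =>
      have hA' : K.slo s (K.nrm s) + (D.dat C).ht s true ≤ h1.toFun x (K.nrm s) := by
        simpa [Abv] using hA
      rcases h5 with ⟨rfl, h5, -⟩ | ⟨rfl, h5, -⟩
      · rw [hl1] at h5; linarith
      · refine ⟨by simp, ?_⟩
        rw [hl2] at h5; linarith
    | false =>
      have hA' : h1.toFun x (K.nrm s) ≤ K.slo s (K.nrm s) - (D.dat C).ht s false := by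
        simpa [Abv] using hA
      rcases h5 with ⟨rfl, h5, -⟩ | ⟨rfl, h5, -⟩
      · refine ⟨by simp, ?_⟩
        rw [hl1] at h5; linarith
      · rw [hl2] at h5; linarith
  obtain ⟨hqe, hge⟩ := key
  rw [e, ← hqe] at hge
  have h2 := (mid_iff_PX (G := D.G C) hxs hq (D.η_κ C q)).1.2 hge
  have hqJ : C.fT q ∈ J := by rw [hqe]; exact hβ
  obtain ⟨i₀, hi₀, h0⟩ := D.inp.surj _ hqJ
  have h3 : h1.toFun x ∈ h1.toFun '' M.Q i₀ := by
    rw [hpr i₀ hi₀, h0]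
    exact (mem_mid C hη).2 h2
  obtain ⟨x', hx', he⟩ := h3
  have : x' = x := h1.injOn (M.sub i₀ hx') hx he
  subst this
  exact ⟨i₀, hi₀, hx'⟩

section

variable
    (hT : ∀ k, ∀ x ∈ M.F k, ∀ q, h.toFun x ∈ K.cube q → ‖h1.toFun x - h.toFun x‖ ≤ (D.G C).om q)

include hT

theorem rin_near : ∀ s k, (D.dat C).PkS (D.G C) h1 s k → ∀ x ∈ M.F k,
    h1.toFun x ∈ (D.G C).PB (15 / 16) s := by
  rintro s k ⟨-, hDF, x, hx, hxs⟩ y hy
  obtain ⟨-, i, -, hki, h2⟩ := D.df_PB C hT hDF hx hxs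
  exact (h2 y (hki hy)).1

theorem rin_osc : ∀ s k, (D.dat C).PkS (D.G C) h1 s k → ∀ x ∈ M.F k, ∀ y ∈ M.F k,
    ‖h1.toFun x - h1.toFun y‖ ≤ (D.G C).p s / 16 := by
  rintro s k ⟨hs, ⟨⟨i, hi, hki⟩, -⟩, z, hz, hzs⟩ x hx y hy
  have hPK : h1.toFun z ∈ PK (D.G C) s := PB_sub_PK (by norm_num) s hzs
  have hn := D.nearC_drawn C hT hi
  have a := (D.pos_PK C hs hi.1 hn (hki hz) hPK (hki hx)).2
  have b := (D.pos_PK C hs hi.1 hn (hki hz) hPK (hki hy)).2
  have h3 := (D.G C).oS_τ s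
  have h4 := (D.G C).τ_p s
  have h5 := (D.B C).τ_pos s
  rw [norm_sub_rev] at b
  calc ‖h1.toFun x - h1.toFun y‖ = ‖(h1.toFun x - h1.toFun z) + (h1.toFun z - h1.toFun y)‖ := by
        congr 1; abel
    _ ≤ ‖h1.toFun x - h1.toFun z‖ + ‖h1.toFun z - h1.toFun y‖ := norm_add_le _ _
    _ ≤ (D.G C).p s / 16 := by linarith

/-- the peeled faces are strictly below the height `τ / 4` -/
theorem rin_low_abs : ∀ s k, (D.dat C).PkS (D.G C) h1 s k → ∀ x ∈ M.F k,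
    |h1.toFun x (K.nrm s) - K.slo s (K.nrm s)| ≤ (D.B C).τ s / 5 := by
  rintro s k hk x hx
  have hx' := D.rin_near C hT s k hk x hx
  obtain ⟨-, ⟨⟨i, hi, hki⟩, -⟩, -⟩ := hk
  exact (D.drawn_PK C hi (D.nearC_drawn C hT hi) (hki hx) (PB_sub_PK (by norm_num) s hx')).2

theorem rin_low : ∀ s k, (D.dat C).PkS (D.G C) h1 s k → ∀ β, ¬ (D.dat C).sd s β → ∀ x ∈ M.F k,
    ¬ Abv K s β ((D.dat C).ht s β / 2) (h1.toFun x) := by
  intro s k hk β hβ x hx hA
  have h2 := abs_le.1 (D.rin_low_abs C hT s k hk x hx)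
  have h3 := (D.B C).τ_pos s
  rw [D.dat_ht_not C hβ] at hA
  unfold Abv at hA
  cases β with
  | true =>
    simp only [if_true] at hA
    linarith [h2.2]
  | false =>
    simp only [Bool.false_eq_true, if_false] at hA
    linarith [h2.1]

theorem rin_lowP (hpr : ∀ i ∈ P, h1.toFun '' M.Q i = h.toFun '' M.Q i) :
    ∀ s k, (D.dat C).PkS (D.G C) h1 s k → ∀ β, (D.dat C).sd s β →
      ∀ x ∈ intrinsicInterior ℝ (M.F k), ¬ Abv K s β ((D.dat C).ht s β) (h1.toFun x) :=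
  H341.lowP_of_cov (fun s _ β hβ x hx hxs hA => D.rin_cov C hpr s β hβ x hx
    (PK_sub_PX s (PB_sub_PK (by norm_num) s hxs)) hA) (D.rin_near C hT)

end

end KIn3

end Vale.Agent.P073.H926
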