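import Vale.Agent.P073.H926.DatD
import Vale.Agent.P073.H238.RT0
import Vale.Agent.P073.H579.TStageW

/-!
# P073, block [K3C]: the data of ROUND T ([RT-DAT])

The hypotheses of `exists_roundTS`, `stage3S`, `stage3G` (H579) and of `near3` (H155) about `h`, the
cells and the boxes `pB C J₀`: `rt_osc`, `rt_wall`, `rt_om`, `rt_cmp`, `rt_cmpC`; the classes of the
faces.  The hypotheses of [DAT] for the output `TOut3` of ROUND T.
-/

open Set Metric Topology Filter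

namespace Vale.Agent.P073.H926

open _root_.P073 _root_.P073.Net _root_.P073.PA691 _root_.P073.TM
open Vale.Agent.P073.St (V)
open Vale.Agent.P073.H471 Vale.Agent.P073.H267
open Vale.Agent.P073.H73 (Mesh)
open Vale.Agent.P073.H193 (Edges)
open Vale.Agent.P073.H304 (Nb In Zmax)
open Vale.Agent.P073.H238 (oT)
open Vale.Agent.P073.H238.K3 (Zd Wc Act Gv TOut3)
open Vale.Agent.P073.H579 (PWall)
open _root_.P073.H142 (FStar)
open _root_.P073.H236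

variable {c₀ n δ : ℝ} {j : ℕ} {Ω Λ : Set V} {v w : V} {ρ : V → ℝ} {M : Mesh Ω} {h : ConHomeo Ω Λ}
  {J₀ J : Set (ℕ × (Fin 3 → ℤ))} {P Z : Set M.ι} {K : BoxCx Λ w} {x y : V} {q t : K.T}

namespace KIn3

variable (D : KIn3 c₀ n j δ v w ρ M h J₀ J P Z) (C : Cells ρ w K)

/-! ### numbers -/

/-- the margins of the tiles at a box of round T are large -/
theorem rt_om0 {b : TBx K} (hy : y ∈ (D.G C).TB false b) (hq : y ∈ K.cube q) :
    4194304 * ω3T δ C b ≤ (D.G C).om q ∧ (D.G C).om q ≤ oT (D.G C) b ∧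
      oT (D.G C) b ≤ 4 * (D.G C).om q := by
  have h1 := δ3_eq (n := n)
  have h2 := D.δ_le
  have ho := o3_pos D.pos
  rcases b with e | i
  · have he := Geo.tile_TB_inl hy hq
    obtain ⟨h3, h4⟩ := C.sG_sT D.hρ he
    have h5 := C.sG_pos e
    refine ⟨?_, ?_, ?_⟩
    · show 4194304 * (4 * δ * C.sG e) ≤ o3 n * C.sT q
      have h6 : 16777216 * δ ≤ o3 n := by linarith
      calc 4194304 * (4 * δ * C.sG e) = 16777216 * δ * C.sG e := by ring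
        _ ≤ o3 n * C.sG e := mul_le_mul_of_nonneg_right h6 h5.le
        _ ≤ o3 n * C.sT q := mul_le_mul_of_nonneg_left h3 ho.le
    · show o3 n * C.sT q ≤ 4 * o3 n * C.sG e
      nlinarith
    · show 4 * o3 n * C.sG e ≤ 4 * (o3 n * C.sT q)
      nlinarith
  · have hi := Geo.tile_TB_inr hy hq
    have hi' : K.w i.i ∈ K.cube q := sq_sub_of hi (Geo.hang_mem i)
    obtain ⟨h3, h4⟩ := C.sW_sT D.hρ hi'
    have h5 := C.sW_pos i.i
    refine ⟨?_, ?_, ?_⟩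
    · show 4194304 * (4 * δ * C.sW i.i) ≤ o3 n * C.sT q
      have h6 : 16777216 * δ ≤ o3 n := by linarith
      calc 4194304 * (4 * δ * C.sW i.i) = 16777216 * δ * C.sW i.i := by ring
        _ ≤ o3 n * C.sW i.i := mul_le_mul_of_nonneg_right h6 h5.le
        _ ≤ o3 n * C.sT q := mul_le_mul_of_nonneg_left h3 ho.le
    · show o3 n * C.sT q ≤ 4 * o3 n * C.sW i.i
      nlinarith
    · show 4 * o3 n * C.sW i.i ≤ 4 * (o3 n * C.sT q)
      nlinarith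

/-- `hom` of `stage3S` -/
theorem rt_om : ∀ b ∈ pB C J₀, ∀ y q, y ∈ (D.G C).TB false b → y ∈ K.cube q →
    1024 * ω3T δ C b ≤ (D.G C).om q := fun b _ y q hy hq => by
  have h1 := (D.rt_om0 C hy hq).1
  have h2 := D.ω3T_pos C b
  linarith

/-- `hom` of `stage3G`, of `near3` -/
theorem rt_omr {r : pB C J₀ → ℝ} (hr : ∀ b, r b ≤ 262144 * ω3T δ C b.1) :
    ∀ b : pB C J₀, ∀ y ∈ (D.G C).TB false b.1, ∀ q, y ∈ K.cube q →
      16 * r b ≤ (D.G C).om q := fun b y hy q hq => by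
  have h1 := (D.rt_om0 C hy hq).1
  have h2 := hr b
  linarith

/-! ### oscillation and margins on the cells -/

/-- **the cells which are not protected, near the processed tiles** -/
theorem rt_cell {i : M.ι} (hi : i ∉ P) (hm : (h.toFun '' M.Q i ∩ Nb w J₀ c₀).Nonempty) :
    ∀ x ∈ M.Q i, ∀ x' ∈ M.Q i, ∀ q q', h.toFun x ∈ K.cube q → h.toFun x' ∈ K.cube q' →
      65536 * ‖h.toFun x - h.toFun x'‖ ≤ (D.G C).om q ∧ (D.G C).om q' ≤ 4 * (D.G C).om q := by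
  obtain ⟨_, ⟨x₀, hx₀, rfl⟩, hN⟩ := hm
  obtain ⟨t, ht, x₁, hx₁, hxy⟩ := (D.mem_Nb C).1 hN
  have hosc := D.small C hi ht ⟨_, mem_image_of_mem _ hx₀, (mem_Nb_one C).2 ⟨x₁, hx₁, hxy⟩⟩
  have hTt := C.sT_pos t
  have hδ := D.δpos
  have hδ1 : δ ≤ 1 / 4096 := by
    have h1 := D.δle
    have h2 := D.η_le_one
    linarith
  have hc : c₀ + δ ≤ 1 / 8 := by linarith [D.le]
  have h3 := D.δ_le
  have h4 := δ3_eq (n := n)
  have h5 := o3_pos D.pos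
  have hcmp : ∀ z ∈ M.Q i, ∀ q, h.toFun z ∈ K.cube q →
      C.sT q ≤ 4 * C.sT t ∧ C.sT t ≤ 4 * C.sT q := by
    intro z hz q hq
    refine D.comp C hc hx₁ hq ?_
    have h2 := hosc z hz x₀ hx₀
    calc ‖h.toFun z - x₁‖ = ‖(h.toFun z - h.toFun x₀) + (h.toFun x₀ - x₁)‖ := by congr 1; abel
      _ ≤ ‖h.toFun z - h.toFun x₀‖ + ‖h.toFun x₀ - x₁‖ := norm_add_le _ _
      _ ≤ (c₀ + δ) * C.sT t := by linarith
  intro x hx x' hx' q q' hq hq'
  have c1 := hcmp x hx q hq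
  have e1 := hosc x hx x' hx'
  have e0 : δ * C.sT t ≤ 1 / 4096 * C.sT t := mul_le_mul_of_nonneg_right hδ1 hTt.le
  constructor
  · show _ ≤ o3 n * C.sT q
    have h6 : 16777216 * δ ≤ o3 n := by linarith
    have h7 : 16777216 * δ * C.sT q ≤ o3 n * C.sT q :=
      mul_le_mul_of_nonneg_right h6 (C.sT_pos q).le
    have h8 : δ * C.sT t ≤ δ * (4 * C.sT q) := mul_le_mul_of_nonneg_left c1.2 hδ.le
    have h9 : 0 ≤ δ * C.sT q := mul_nonneg hδ.le (C.sT_pos q).le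
    linarith
  · have e2 : C.sT q' ≤ 4 * C.sT q := by
      refine sT_comp' C D.hρ (x := h.toFun x') (y := h.toFun x) hq' hq ?_
      have c2 := hcmp x' hx' q' hq'
      linarith [c2.2]
    show o3 n * C.sT q' ≤ 4 * (o3 n * C.sT q)
    nlinarith

/-- `hcmp`, form of the cells (`near3` of H155) -/
theorem rt_cmpC : ∀ i ∉ P, (∃ x ∈ M.Q i, ∃ b ∈ pB C J₀, h.toFun x ∈ (D.G C).TB false b) →
    ∀ x ∈ M.Q i, ∀ x' ∈ M.Q i, ∀ q q', h.toFun x ∈ K.cube q → h.toFun x' ∈ K.cube q' →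
      4 * ‖h.toFun x - h.toFun x'‖ ≤ (D.G C).om q ∧ (D.G C).om q' ≤ 4 * (D.G C).om q := by
  rintro i hi ⟨x₀, hx₀, b, hb, hxb⟩ x hx x' hx' q q' hq hq'
  obtain ⟨h1, h2⟩ := D.rt_cell C hi ⟨_, mem_image_of_mem _ hx₀, (D.supp C).2.2.2.1 b hb hxb⟩
    x hx x' hx' q q' hq hq'
  exact ⟨by linarith [norm_nonneg (h.toFun x - h.toFun x')], h2⟩

/-- `hcmp` of `stage3S` -/
theorem rt_cmp : ∀ k, (∃ x ∈ M.F k, ∃ b ∈ pB C J₀, h.toFun x ∈ (D.G C).TB false b) →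
    ∀ x ∈ M.F k, ∀ x' ∈ M.F k, ∀ q q', h.toFun x ∈ K.cube q → h.toFun x' ∈ K.cube q' →
      4096 * ‖h.toFun x - h.toFun x'‖ ≤ (D.G C).om q ∧ (D.G C).om q' ≤ 4 * (D.G C).om q := by
  rintro k ⟨x₀, hx₀, b, hb, hxb⟩ x hx x' hx' q q' hq hq'
  obtain ⟨i, hi, hk⟩ := D.exists_cell C k
  obtain ⟨h1, h2⟩ := D.rt_cell C hi ⟨_, mem_image_of_mem _ (hk hx₀), (D.supp C).2.2.2.1 b hb hxb⟩
    x (hk hx) x' (hk hx') q q' hq hq'
  exact ⟨by linarith [norm_nonneg (h.toFun x - h.toFun x')], h2⟩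

/-- `hcmp` of `stage3G` -/
theorem rt_cmpG : ∀ k, (∃ x ∈ M.F k, ∃ b ∈ pB C J₀, h.toFun x ∈ (D.G C).TB false b) →
    ∀ x ∈ M.F k, ∀ x' ∈ M.F k, ∀ q q', h.toFun x ∈ K.cube q → h.toFun x' ∈ K.cube q' →
      4 * ‖h.toFun x - h.toFun x'‖ ≤ (D.G C).om q ∧ (D.G C).om q' ≤ 4 * (D.G C).om q :=
  fun k hk x hx x' hx' q q' hq hq' => by
    obtain ⟨h1, h2⟩ := D.rt_cmp C k hk x hx x' hx' q q' hq hq'
    exact ⟨by linarith [norm_nonneg (h.toFun x - h.toFun x')], h2⟩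

/-- `hosc`, cells which are not protected -/
theorem rt_oscC : ∀ i ∉ P, ∀ b ∈ pB C J₀, ∀ x ∈ M.Q i, ∀ y ∈ M.Q i,
    h.toFun x ∈ (D.G C).TB false b → dist (h.toFun x) (h.toFun y) ≤ ω3T δ C b :=
  fun i hi b hb x hx y hy hxb => by
    rw [dist_eq_norm]
    exact D.osc_T C hb hi hx hy hxb

/-- `hosc` of `exists_roundTS` -/
theorem rt_osc : ∀ b ∈ pB C J₀, ∀ k, ∀ x ∈ M.F k, ∀ y ∈ M.F k,
    h.toFun x ∈ (D.G C).TB false b → dist (h.toFun x) (h.toFun y) ≤ ω3T δ C b := by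
  intro b hb k x hx y hy hxb
  obtain ⟨i, hi, hk⟩ := D.exists_cell C k
  exact D.rt_oscC C i hi b hb x (hk hx) y (hk hy) hxb

/-! ### the neighbourhood of the processed tiles -/

theorem rt_TB2 {b : TBx K} (hb : b ∈ pB C J₀) (hy : y ∈ (D.G C).TB false b) :
    ∃ t ∈ pT C J₀, y ∈ Nb w {C.fT t} (c₀ / 2) := by
  rcases b with e | k
  · obtain ⟨q, hq, hqs⟩ := inl_mem_pB.1 hb
    exact ⟨q, hq, D.supp_E C (Ze_subset (Geo.TB_subset_Ze e hy)) hqs⟩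
  · obtain ⟨q, hq, hqs⟩ := exists_of_pS (inr_mem_pB.1 hb)
    exact ⟨q, hq, D.supp_S C (Zs_subset (Geo.TB_subset_Zs k hy)) hqs⟩

/-- `hTN` of `rt3D` (H155) -/
theorem rt_TBN : ∀ b ∈ pB C J₀, (D.G C).TB false b ⊆ Nb w J₀ c₀ := (D.supp C).2.2.2.1

/-- `hN` of `rt3D` (H155): **a cell which meets a box is near the processed tiles** -/
theorem rt_N : ∀ i ∉ P, (∃ x ∈ M.Q i, ∃ b ∈ pB C J₀, h.toFun x ∈ (D.G C).TB false b) →
    ∀ y ∈ M.Q i, h.toFun y ∈ Nb w J₀ c₀ := by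
  rintro i hi ⟨x, hx, b, hb, hxb⟩ y hy
  obtain ⟨t, ht, hN⟩ := D.rt_TB2 C hb hxb
  obtain ⟨x₁, hx₁, hxy⟩ := (mem_Nb_one C).1 hN
  have h1 := D.small' C hi ht (by linarith [D.c₀_pos]) hx hN hy
  refine (D.mem_Nb C).2 ⟨t, ht, x₁, hx₁, ?_⟩
  have hT := C.sT_pos t
  have h2 : δ ≤ c₀ / 2 := by
    have h3 := D.δle
    have h4 := D.η_le_κ
    have h5 := D.κ_le_c₀
    have h6 := D.c₀_pos
    have h7 := D.δpos
    linarith
  have h3 : δ * C.sT t ≤ c₀ / 2 * C.sT t := mul_le_mul_of_nonneg_right h2 hT.le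
  rw [norm_sub_rev] at h1
  calc ‖h.toFun y - x₁‖ = ‖(h.toFun y - h.toFun x) + (h.toFun x - x₁)‖ := by congr 1; abel
    _ ≤ ‖h.toFun y - h.toFun x‖ + ‖h.toFun x - x₁‖ := norm_add_le _ _
    _ ≤ c₀ * C.sT t := by linarith

/-! ### the hypotheses of `rt3D` (H155), with the given cells `P ∪ Wc` -/

theorem rt_cmpA : ∀ i ∉ P ∪ Wc D C,
    (∃ x ∈ M.Q i, ∃ b ∈ pB C J₀, h.toFun x ∈ (D.G C).TB false b) →
    ∀ x ∈ M.Q i, ∀ x' ∈ M.Q i, ∀ q q', h.toFun x ∈ K.cube q → h.toFun x' ∈ K.cube q' →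
      4 * ‖h.toFun x - h.toFun x'‖ ≤ (D.G C).om q ∧ (D.G C).om q' ≤ 4 * (D.G C).om q :=
  fun i hi => D.rt_cmpC C i fun h => hi (Or.inl h)

theorem rt_NA : ∀ i ∉ P ∪ Wc D C,
    (∃ x ∈ M.Q i, ∃ b ∈ pB C J₀, h.toFun x ∈ (D.G C).TB false b) →
    ∀ y ∈ M.Q i, h.toFun y ∈ Nb w J₀ c₀ :=
  fun i hi => D.rt_N C i fun h => hi (Or.inl h)

/-! ### protected cells -/

include D in
/-- the image of a protected cell is a cube -/
theorem rt_prot {i : M.ι} (hi : i ∈ P) : ∃ q : K.T, C.fT q ∈ J ∧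
    h.toFun '' M.Q i = Icc (fun k => K.lo q k + 1 / 2 ^ j / 2 * C.sT q)
      (fun k => K.hi q k - 1 / 2 ^ j / 2 * C.sT q) := by
  have hη : (1:ℝ) / 2 ^ j ≤ 1 := D.η_le_one.trans (by norm_num)
  obtain ⟨q, hq, he⟩ := D.prot_tile C hi
  refine ⟨q, hq, he.trans ?_⟩
  ext y
  rw [mem_mid C hη]
  exact ⟨fun hy => ⟨fun k => (hy k).1, fun k => (hy k).2⟩, fun hy k => ⟨hy.1 k, hy.2 k⟩⟩

/-- **the protected cells near the boxes are large** -/
theorem rt_wall : PWall (D.G C) M h P (pB C J₀) := by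
  rintro i hi b - ⟨y, hy, hyb⟩
  obtain ⟨q, -, he⟩ := D.rt_prot C hi
  refine ⟨_, _, fun k => ?_, he⟩
  rw [he] at hy
  have hT := C.sT_pos q
  have hη := D.η_le_one
  have hη0 : (0:ℝ) < 1 / 2 ^ j := η_pos
  have h0 : 0 ≤ 1 / 2 ^ j / 2 * C.sT q := by positivity
  have hq : y ∈ K.cube q := ⟨fun k => by linarith [hy.1 k], fun k => by linarith [hy.2 k]⟩
  obtain ⟨-, -, h3⟩ := D.rt_om0 C hyb hq
  have h4 : (D.G C).om q = o3 n * C.sT q := rfl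
  have h5 : o3 n ≤ 1 / 4096 := by
    have h6 := o3_eq (n := n)
    have h7 := D.κ_lt
    have h8 := o3_pos D.pos
    linarith
  have h6 := C.hi_sub_lo q k
  have h7 : o3 n * C.sT q ≤ 1 / 4096 * C.sT q := mul_le_mul_of_nonneg_right h5 hT.le
  have h8 : 1 / 2 ^ j / 2 * C.sT q ≤ 1 / 4096 / 2 * C.sT q :=
    mul_le_mul_of_nonneg_right (by linarith) hT.le
  rw [h4] at h3
  linarith

/-! ### the classes of the faces -/

theorem rt_act : ∀ k ∈ Act D C, ∀ i ∈ P, ¬ M.F k ⊆ M.Q i := fun _ hk i hi => hk i (Or.inl hi)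

theorem rt_actW : ∀ k ∈ Act D C, ∀ i ∈ Wc D C, ¬ M.F k ⊆ M.Q i :=
  fun _ hk i hi => hk i (Or.inr hi)

/-- full case: the cells of a face in `Act` are drawn -/
theorem rt_act_full (F : Full C J₀ J) {k : M.κ} (hk : k ∈ Act D C) {i : M.ι}
    (hki : M.F k ⊆ M.Q i) : i ∈ Zd D := by
  by_contra hi
  by_cases hP : i ∈ P
  · exact hk i (Or.inl hP) hki
  · exact hk i (Or.inr ⟨F, hP, hi⟩) hki

/-- a face of a cell which misses the boxes misses the boxes -/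
theorem rt_miss {i : M.ι} (hi : ∀ x ∈ M.Q i, ∀ b ∈ pB C J₀, h.toFun x ∉ (D.G C).TB false b)
    {k : M.κ} (hk : M.F k ⊆ M.Q i) :
    ∀ x ∈ M.F k, ∀ b ∈ pB C J₀, h.toFun x ∉ (D.G C).TB false b := fun x hx => hi x (hk hx)

/-! ### the hypotheses of [DAT] for the output of ROUND T -/

section out

variable {E : Edges M} {T : ∀ k, FStar E k} {C₀ μ : ℝ} {ε : E.ε → ℝ} {εd : pB C J₀ → ℝ}
  {La : E.ε → ℝ} {Lf : M.κ → E.ε → ℝ} {Lam1 : M.κ → ℝ} {sl : pB C J₀ → Finset (ℝ × ℝ)}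
  {h1 : ConHomeo Ω Λ}

/-- closeness at all points gives closeness of the cells -/
theorem nearC_of_near3
    (hT : ∀ x ∈ Ω, ∀ q, h.toFun x ∈ K.cube q → ‖h1.toFun x - h.toFun x‖ ≤ (D.G C).om q)
    (i : M.ι) : NearC (D.G C) M h.toFun h1.toFun i := fun x hx =>
  ⟨x, hx, fun q hq => by
    have h2 := hT x (M.sub i hx) q hq
    have h3 := (D.G C).om_pos q
    linarith⟩

variable (O : TOut3 D C E T C₀ μ ε εd La Lf Lam1 sl h1)
include O

theorem _root_.Vale.Agent.P073.H238.K3.TOut3.nearC (i : M.ι) :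
    NearC (D.G C) M h.toFun h1.toFun i := D.nearC_of_near3 C O.near3 i

theorem _root_.Vale.Agent.P073.H238.K3.TOut3.dpre : H805.DPre (D.G C) (D.dat C) h1 :=
  D.dpre C O.near O.rectc

/-- passive cells in the full case are off the plates after ROUND T -/
theorem _root_.Vale.Agent.P073.H238.K3.TOut3.wc_PK {i : M.ι} (hi : i ∈ Wc D C) {s : K.S}
    (hs : s ∈ pS C J₀) {x : V} (hx : x ∈ M.Q i) : h1.toFun x ∉ _root_.P073.H345.PK (D.G C) s :=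
  D.off_PK1 C O.rectc hi.1 hi.2.1 hi.2.2 (O.nearC D C i) hs hx

end out

end KIn3

end Vale.Agent.P073.H926
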