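import Vale.Agent.P073.H304.K3C

/-!
# P073, H926: `Out` for a larger set of drawn cells, the maximal set of drawn cells
-/

open Set Metric Topology
open scoped ENNReal

namespace Vale.Agent.P073.H304

open Vale.Agent.P073
open Vale.Agent.P073.St (V)
open Vale.Agent.P073.H73 (Mesh sqr ctr onSeg)
open _root_.P073 (ConHomeo)
open _root_.P073.Net (len dyc dyo IsTile SizeFn)

variable {Ω Λ : Set V} {p D D' η δ c₀ m : ℝ} {v w : V} {ρ : V → ℝ} {M : Mesh Ω} {h : V → V}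
  {J₀ J : Set (ℕ × (Fin 3 → ℤ))} {P Z Z' : Set M.ι} {Y : Set M.κ} {ε ε' : M.κ → ℝ}
  {g : ConHomeo Ω Λ}

theorem Nb.mono {c c' : ℝ} (hc : c ≤ c') : Nb w J₀ c ⊆ Nb w J₀ c' := by
  rintro y ⟨t, ht, x, hx, hxy⟩
  exact ⟨t, ht, x, hx, hxy.trans (div_le_div_of_nonneg_right hc (by positivity))⟩

theorem Nb.anti {J₁ : Set (ℕ × (Fin 3 → ℤ))} (hJ : J₀ ⊆ J₁) {c : ℝ} : Nb w J₀ c ⊆ Nb w J₁ c := by
  rintro y ⟨t, ht, x, hx, hxy⟩
  exact ⟨t, hJ ht, x, hx, hxy⟩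

/-- **fewer drawn cells** -/
theorem OutB.mono_Z (H : OutB p D D' η c₀ m w ρ M h J₀ J P Z' Y ε g) (hZ : Z ⊆ Z') :
    OutB p D D' η c₀ m w ρ M h J₀ J P Z Y ε g where
  off := H.off
  close := H.close
  prot := H.prot
  lip := H.lip
  edge := H.edge
  elip := H.elip
  flip := fun k ⟨i, hi, hik⟩ => H.flip k ⟨i, hZ hi, hik⟩
  face := fun k ⟨i, hi, hik⟩ => H.face k ⟨i, hZ hi, hik⟩
  drawn := fun i hi => H.drawn i (hZ hi)

/-- **smaller errors** are better -/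
theorem OutB.mono_eps (H : OutB p D D' η c₀ m w ρ M h J₀ J P Z Y ε g) (hp : 0 ≤ p)
    (hε : ∀ k, ε k ≤ ε' k) :
    OutB p D D' η c₀ m w ρ M h J₀ J P Z Y ε' g where
  off := H.off
  close := H.close
  prot := H.prot
  lip := H.lip
  edge := fun k e he hek => (H.edge k e he hek).trans
    (add_le_add le_rfl (ENNReal.ofReal_le_ofReal (hε k)))
  elip := fun k e he hek hN C hC ℓ hℓ x hx y hy => by
    by_cases h0 : 0 ≤ C
    · refine (H.elip k e he hek hN C hC ℓ hℓ x hx y hy).trans ?_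
      have := hε k
      gcongr
    · -- a negative constant is impossible unless the bound is trivial
      have h1 := H.elip k e he hek hN C hC ℓ hℓ x hx y hy
      have hl : 0 ≤ ‖e.2 - e.1‖ := norm_nonneg _
      push Not at h0
      by_cases hxy : x = y
      · subst hxy; simp
      · exfalso
        have h3 : 0 < ‖x - y‖ := norm_pos_iff.2 (sub_ne_zero.2 hxy)
        -- larger `ℓ` gives a contradiction
        obtain ⟨L, hL1, hL2⟩ : ∃ L : ℝ, ℓ ≤ L ∧ 0 < L + ε k :=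
          ⟨max ℓ (1 - ε k), le_max_left _ _, by linarith [le_max_right ℓ (1 - ε k)]⟩
        have h4 := H.elip k e he hek hN C hC L (hℓ.trans (ENNReal.ofReal_le_ofReal hL1)) x hx y hy
        have hne : 0 < ‖e.2 - e.1‖ := norm_pos_iff.2 (sub_ne_zero.2 he.ne.symm)
        have h5 : C * ((L + ε k) / ‖e.2 - e.1‖) * ‖x - y‖ < 0 :=
          mul_neg_of_neg_of_pos (mul_neg_of_neg_of_pos h0 (div_pos hL2 hne)) h3
        linarith [norm_nonneg (g.toFun x - g.toFun y)]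
  flip := fun k hk C hC E ℓ K hE hℓ => H.flip k hk C hC E ℓ K hE fun e he =>
    ⟨(hℓ e he).1, le_trans (add_le_add le_rfl (ENNReal.ofReal_le_ofReal (hε k))) (hℓ e he).2⟩
  face := fun k hk C hC => by
    obtain ⟨G, hG, h1⟩ := H.face k hk C hC
    refine ⟨G, hG, fun E ℓ a l σ hσ hF hE hℓ => (h1 E ℓ a l σ hσ hF hE hℓ).trans ?_⟩
    have := hε k
    gcongr
  drawn := fun i hi C hC => by
    obtain ⟨G, hG, h1⟩ := H.drawn i hi C hC
    refine ⟨G, hG, fun v m z hQ E σ ℓ hE hσ hℓ => (h1 v m z hQ E σ ℓ hE hσ hℓ).trans ?_⟩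
    refine mul_le_mul_right (ENNReal.tsum_le_tsum fun k => ?_) _
    have h2 := hε k.1
    have h3 := (hσ k).1
    gcongr

/-- the input without drawn cells -/
theorem In.empty {h : V → V} (H : In (Λ := Λ) η δ c₀ v w ρ M h J₀ J P Z) :
    In (Λ := Λ) η δ c₀ v w ρ M h J₀ J P ∅ :=
  { H with drawn := fun i hi => absurd hi (notMem_empty i) }

/-- the maximal set of drawn cells, at distance `η'` -/
def Zmax (M : Mesh Ω) (w : V) (h : V → V) (J₀ : Set (ℕ × (Fin 3 → ℤ))) (P : Set M.ι) (η' : ℝ) :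
    Set M.ι := {i | i ∉ P ∧ h '' M.Q i ⊆ Nb w J₀ η'}

theorem In.sub_Zmax (H : In (Λ := Λ) η δ c₀ v w ρ M h J₀ J P Z) {η' : ℝ} (hη : η ≤ η') :
    Z ⊆ Zmax M w h J₀ P η' := fun i hi =>
  ⟨(H.drawn i hi).1, (H.drawn i hi).2.trans (Nb.mono hη)⟩

theorem Mesh.nonempty (M : Mesh Ω) (i : M.ι) : (M.Q i).Nonempty :=
  (M.poly i).int.mono interior_subset

/-- drawn cells are dyadic cubes -/
theorem In.cube_of_Zmax (H : In (Λ := Λ) η δ c₀ v w ρ M h J₀ J P Z) {η' : ℝ} (hη : η' ≤ c₀)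
    {i : M.ι} (hi : i ∈ Zmax M w h J₀ P η') : ∃ m z, M.Q i = dyc v m z := by
  obtain ⟨x, hx⟩ := Mesh.nonempty M i
  exact H.cube i hi.1 ⟨h x, ⟨x, hx, rfl⟩, Nb.mono hη (hi.2 ⟨x, hx, rfl⟩)⟩

/-- the faces of drawn cells are dyadic squares -/
theorem In.face_of_Zmax (H : In (Λ := Λ) η δ c₀ v w ρ M h J₀ J P Z) {η' : ℝ} (hη : η' ≤ c₀)
    {i : M.ι} (hi : i ∈ Zmax M w h J₀ P η') {k : M.κ} (hk : M.F k ⊆ M.Q i) :
    ∃ s : AB.Idx × Fin 3, M.F k = AB.squ v s := by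
  obtain ⟨x, hx⟩ : (M.F k).Nonempty := by
    obtain ⟨φ, -⟩ := (M.fat k).chart
    exact ⟨_, φ.mapsTo (show ((0:ℝ), (0:ℝ)) ∈ H73.usq from
      ⟨⟨le_rfl, zero_le_one⟩, ⟨le_rfl, zero_le_one⟩⟩)⟩
  exact H.face k ⟨h x, ⟨x, hx, rfl⟩, Nb.mono hη (hi.2 ⟨x, hk hx, rfl⟩)⟩

/-- the image of a drawn cell is small -/
theorem In.small_of_Zmax (H : In (Λ := Λ) η δ c₀ v w ρ M h J₀ J P Z) {η' : ℝ} (hη : η' ≤ c₀)
    {i : M.ι} (hi : i ∈ Zmax M w h J₀ P η') {x : V} (hx : x ∈ M.Q i) :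
    ∃ t ∈ J₀, h x ∈ Nb w {t} η' ∧
      ∀ x ∈ M.Q i, ∀ y ∈ M.Q i, ‖h x - h y‖ ≤ δ / 2 ^ t.1 := by
  obtain ⟨t, ht, u, hu, hxu⟩ := hi.2 ⟨x, hx, rfl⟩
  have h1 : h x ∈ Nb w {t} η' := ⟨t, rfl, u, hu, hxu⟩
  exact ⟨t, ht, h1, H.small i hi.1 t ht ⟨h x, ⟨x, hx, rfl⟩, Nb.mono hη h1⟩⟩

end Vale.Agent.P073.H304
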