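import Vale.Agent.P073.H926.Aff

/-!
# P073, H926: **[AFF]**, part 2: the cells of the arrangement
-/

set_option linter.unusedSectionVars false

open Set Metric Topology Filter

namespace P073.H926

open P073 P073.H579 P073.Net

variable {E : Type*} [NormedAddCommGroup E] [NormedSpace ℝ E]

/-- the cell of the arrangement `L` in `C` with the sign pattern `τ` -/
def cellA (C : Set H579.P) (L τ : Finset (H579.P →ᵃ[ℝ] ℝ)) : Set H579.P :=
  {z | z ∈ C ∧ ∀ l ∈ L, (l ∈ τ → 0 ≤ l z) ∧ (l ∉ τ → l z ≤ 0)}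

variable {C : Set H579.P} {L τ : Finset (H579.P →ᵃ[ℝ] ℝ)}

theorem cellA_subset : cellA C L τ ⊆ C := fun _ h => h.1

theorem sgnOn_cellA : SgnOn L (cellA C L τ) := by
  intro l hl
  by_cases h : l ∈ τ
  · exact Or.inl fun z hz => (hz.2 l hl).1 h
  · exact Or.inr fun z hz => (hz.2 l hl).2 h

/-- a set with constant weak signs lies in a cell -/
theorem SgnOn.exists_cellA {S : Set H579.P} (h : SgnOn L S) (hS : S ⊆ C) :
    ∃ τ ∈ L.powerset, S ⊆ cellA C L τ := by
  classical
  refine ⟨L.filter fun l => ∀ z ∈ S, 0 ≤ l z, Finset.mem_powerset.2 (Finset.filter_subset _ _),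
    fun z hz => ⟨hS hz, fun l hl => ⟨fun h1 => (Finset.mem_filter.1 h1).2 z hz, fun h1 => ?_⟩⟩⟩
  rcases h l hl with h2 | h2
  · exact absurd (Finset.mem_filter.2 ⟨hl, h2⟩) h1
  · exact h2 z hz

theorem affine_continuous (l : H579.P →ᵃ[ℝ] ℝ) : Continuous l :=
  AffineMap.continuous_of_finiteDimensional l

theorem convex_halfA (l : H579.P →ᵃ[ℝ] ℝ) : Convex ℝ {z | 0 ≤ l z} ∧ Convex ℝ {z | l z ≤ 0} :=
  ⟨(convex_Ici (0:ℝ)).affine_preimage l, (convex_Iic (0:ℝ)).affine_preimage l⟩

/-- the half plane of `l` prescribed by `τ` -/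
def halfA (τ : Finset (H579.P →ᵃ[ℝ] ℝ)) (l : H579.P →ᵃ[ℝ] ℝ) : Set H579.P :=
  {z | (l ∈ τ → 0 ≤ l z) ∧ (l ∉ τ → l z ≤ 0)}

theorem halfA_eq (τ : Finset (H579.P →ᵃ[ℝ] ℝ)) (l : H579.P →ᵃ[ℝ] ℝ) :
    halfA τ l = {z | 0 ≤ l z} ∨ halfA τ l = {z | l z ≤ 0} := by
  by_cases h : l ∈ τ
  · left; ext z; simp [halfA, h]
  · right; ext z; simp [halfA, h]

theorem cellA_eq : cellA C L τ = C ∩ ⋂ l : L, halfA τ l := by
  ext z
  simp only [cellA, halfA, mem_ofPred_eq, mem_inter_iff, mem_iInter, Subtype.forall]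

theorem convex_cellA (hC : Convex ℝ C) : Convex ℝ (cellA C L τ) := by
  rw [cellA_eq]
  refine hC.inter (convex_iInter fun l => ?_)
  rcases halfA_eq τ l with h | h <;> rw [h]
  · exact (convex_halfA _).1
  · exact (convex_halfA _).2

theorem isClosed_halfA (l : H579.P →ᵃ[ℝ] ℝ) : IsClosed (halfA τ l) := by
  rcases halfA_eq τ l with h | h <;> rw [h]
  · exact isClosed_le continuous_const (affine_continuous l)
  · exact isClosed_le (affine_continuous l) continuous_const

theorem isCompact_cellA (hC : IsCompact C) : IsCompact (cellA C L τ) := by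
  rw [cellA_eq]
  exact hC.inter_right (isClosed_iInter fun l => isClosed_halfA _)

theorem locCone_halfA (l : H579.P →ᵃ[ℝ] ℝ) : LocCone (halfA τ l) := by
  have h0 : ConicalOn (fun y => l y) univ :=
    conicalOn_of_affine l (Convex.conicalSet convex_univ)
  rcases halfA_eq τ l with h | h <;> rw [h]
  · exact locCone_setOf_ge (affine_continuous l) h0 0
  · exact locCone_setOf_le (affine_continuous l) h0 0

theorem locCone_cellA (hC : LocCone C) : LocCone (cellA C L τ) := by
  rw [cellA_eq]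
  exact hC.inter (LocCone.iInter_finite fun l => locCone_halfA _)

/-- the lines of the grid -/
noncomputable def gridL (N : ℕ) (ε : ℝ) : Finset (H579.P →ᵃ[ℝ] ℝ) :=
  open Classical in (Finset.Icc (-(N:ℤ)) N).image (fun k : ℤ => fun0 0 co1 (k * ε)) ∪
    (Finset.Icc (-(N:ℤ)) N).image fun k : ℤ => fun0 0 co2 (k * ε)

theorem gridL_ne {N : ℕ} {ε : ℝ} : ∀ a ∈ gridL N ε, a.linear ≠ 0 := by
  classical
  have e : ∀ (m : H579.P →ₗ[ℝ] ℝ) (c : ℝ), (fun0 0 m c).linear = m := fun _ _ => rfl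
  intro a ha h0
  have h1 : a.linear (1, 0) = 0 := by rw [h0]; rfl
  have h2 : a.linear (0, 1) = 0 := by rw [h0]; rfl
  rcases Finset.mem_union.1 ha with ha | ha <;> obtain ⟨k, -, rfl⟩ := Finset.mem_image.1 ha <;>
    simp [e] at h1 h2

/-- a set in the big square with constant signs on the grid is small -/
theorem SgnOn.grid {N : ℕ} {ε : ℝ} (hε : 0 < ε) {S : Set H579.P} (h : SgnOn (gridL N ε) S)
    (hS : ∀ z ∈ S, |z.1| < N * ε ∧ |z.2| < N * ε) : ∀ x ∈ S, ∀ y ∈ S, ‖x - y‖ ≤ ε := by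
  classical
  -- one coordinate
  have key : ∀ (g : H579.P → ℝ), (∀ z ∈ S, |g z| < N * ε) →
      (∀ k : ℤ, k ∈ Finset.Icc (-(N:ℤ)) N → (∀ z ∈ S, 0 ≤ g z - k * ε) ∨
        ∀ z ∈ S, g z - k * ε ≤ 0) → ∀ x ∈ S, ∀ y ∈ S, g y - g x ≤ ε := by
    intro g hg hk x hx y hy
    by_contra hlt
    push Not at hlt
    have b1 := abs_lt.1 (hg x hx)
    have b2 := abs_lt.1 (hg y hy)
    set k : ℤ := ⌊g x / ε⌋ + 1 with hkd
    have e1 : g x < k * ε := by
      have := Int.lt_floor_add_one (g x / ε)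
      rw [div_lt_iff₀ hε] at this
      rw [hkd]; push_cast; exact this
    have e2 : (k:ℝ) * ε ≤ g x + ε := by
      have := Int.floor_le (g x / ε)
      rw [le_div_iff₀ hε] at this
      rw [hkd]; push_cast; linarith
    have k1 : -(N:ℤ) ≤ k := by
      by_contra hn
      push Not at hn
      have h5 : (k:ℝ) ≤ -(N:ℝ) := by exact_mod_cast hn.le
      have h6 : (k:ℝ) * ε ≤ -(N:ℝ) * ε := by gcongr
      linarith
    have k2 : k ≤ (N:ℤ) := by
      by_contra hn
      push Not at hn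
      have h5 : (N:ℝ) ≤ k := by exact_mod_cast hn.le
      have h6 : (N:ℝ) * ε ≤ k * ε := by gcongr
      linarith
    rcases hk k (Finset.mem_Icc.2 ⟨k1, k2⟩) with h3 | h3
    · linarith [h3 x hx]
    · linarith [h3 y hy]
  have g1 := key (fun z => z.1) (fun z hz => (hS z hz).1) fun k hk => by
    have := h (fun0 0 co1 (k * ε)) (Finset.mem_union_left _ (Finset.mem_image_of_mem _ hk))
    simpa only [fun0_apply, sub_zero, co1_apply] using this
  have g2 := key (fun z => z.2) (fun z hz => (hS z hz).2) fun k hk => by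
    have := h (fun0 0 co2 (k * ε)) (Finset.mem_union_right _ (Finset.mem_image_of_mem _ hk))
    simpa only [fun0_apply, sub_zero, co2_apply] using this
  intro x hx y hy
  rw [Prod.norm_def, max_le_iff, Real.norm_eq_abs, Real.norm_eq_abs, abs_le, abs_le]
  simp only [Prod.fst_sub, Prod.snd_sub]
  refine ⟨⟨?_, ?_⟩, ?_, ?_⟩
  · linarith [g1 x hx y hy]
  · exact g1 y hy x hx
  · linarith [g2 x hx y hy]
  · exact g2 y hy x hx

/-- **[AFF]** finitely many lines such that on every subset of `C` on which their functionals have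
constant weak signs, `h` is affine, the functionals `a ∘ h` have constant weak signs, and which is
small. `L₀`: prescribed lines. -/
theorem exists_lines {h : H579.P → E} (hcpt : IsCompact C) (hC : Convex ℝ C) (hcone : LocCone C)
    (hk : ConicalOn h C) (m : Finset (E →ᵃ[ℝ] ℝ)) (L₀ : Finset (H579.P →ᵃ[ℝ] ℝ)) {ε : ℝ}
    (hε : 0 < ε) :
    ∃ L : Finset (H579.P →ᵃ[ℝ] ℝ), L₀ ⊆ L ∧ (∀ l ∈ L, l ∉ L₀ → l.linear ≠ 0) ∧
      ∀ S ⊆ C, SgnOn L S → (∃ A : H579.P →ᵃ[ℝ] E, EqOn h A S) ∧
        (∀ a ∈ m, (∀ z ∈ S, 0 ≤ a (h z)) ∨ ∀ z ∈ S, a (h z) ≤ 0) ∧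
        ∀ x ∈ S, ∀ y ∈ S, ‖x - y‖ ≤ ε := by
  classical
  obtain ⟨L₁, h1, h2⟩ := exists_lines_aff hC hcpt hcone hk
  choose A hA using fun τ : Finset (H579.P →ᵃ[ℝ] ℝ) =>
    h2 (cellA C L₁ τ) cellA_subset sgnOn_cellA
  obtain ⟨R, hR⟩ := hcpt.isBounded.exists_norm_le
  obtain ⟨N, hN⟩ := exists_nat_gt (R / ε)
  have hN' : R < N * ε := by rwa [div_lt_iff₀ hε] at hN
  set L₂ : Finset (H579.P →ᵃ[ℝ] ℝ) :=
    ((L₁.powerset ×ˢ m).image fun q => q.2.comp (A q.1)).filter fun l => l.linear ≠ 0 with hL₂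
  refine ⟨L₀ ∪ (L₁ ∪ (L₂ ∪ gridL N ε)), Finset.subset_union_left, ?_, ?_⟩
  · intro l hl hl0
    simp only [Finset.mem_union] at hl
    rcases hl with hl | hl | hl | hl
    · exact absurd hl hl0
    · exact h1 l hl
    · exact (Finset.mem_filter.1 hl).2
    · exact gridL_ne l hl
  · intro S hSC hsgn
    have g1 : SgnOn L₁ S := hsgn.mono (fun l hl => by simp [hl]) Subset.rfl
    have g3 : SgnOn (gridL N ε) S := hsgn.mono (fun l hl => by simp [hl]) Subset.rfl
    obtain ⟨τ, hτ, hSτ⟩ := g1.exists_cellA hSC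
    refine ⟨⟨A τ, (hA τ).mono hSτ⟩, fun a ha => ?_, g3.grid hε fun z hz => ?_⟩
    · have e : ∀ z ∈ S, a (h z) = (a.comp (A τ)) z := fun z hz => by
        rw [hA τ (hSτ hz)]; rfl
      by_cases h0 : (a.comp (A τ)).linear = 0
      · -- the functional is constant
        rcases S.eq_empty_or_nonempty with rfl | ⟨z₀, hz₀⟩
        · exact Or.inl fun z hz => absurd hz (notMem_empty _)
        have hconst : ∀ z ∈ S, a (h z) = a (h z₀) := by
          intro z hz
          rw [e z hz, e z₀ hz₀]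
          have h5 := (a.comp (A τ)).linearMap_vsub z z₀
          rw [h0] at h5
          have h6 : (a.comp (A τ)) z - (a.comp (A τ)) z₀ = 0 := by
            rw [← vsub_eq_sub, ← h5]; rfl
          linarith
        rcases le_total 0 (a (h z₀)) with h5 | h5
        · exact Or.inl fun z hz => by rw [hconst z hz]; exact h5
        · exact Or.inr fun z hz => by rw [hconst z hz]; exact h5
      · have hmem : a.comp (A τ) ∈ L₀ ∪ (L₁ ∪ (L₂ ∪ gridL N ε)) := by
          have : a.comp (A τ) ∈ L₂ := Finset.mem_filter.2 ⟨Finset.mem_image.2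
            ⟨(τ, a), Finset.mem_product.2 ⟨hτ, ha⟩, rfl⟩, h0⟩
          simp [this]
        exact (hsgn _ hmem).imp (fun h5 z hz => by rw [e z hz]; exact h5 z hz)
          fun h5 z hz => by rw [e z hz]; exact h5 z hz
    · have h5 := hR z (hSC hz)
      rw [Prod.norm_def, max_le_iff, Real.norm_eq_abs, Real.norm_eq_abs] at h5
      exact ⟨h5.1.trans_lt hN', h5.2.trans_lt hN'⟩

/-! ### The full cells -/

/-- the interior of a non constant line is empty: a point of the closure of an open set can be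
moved off finitely many lines -/
theorem exists_off_lines {O : Set H579.P} (hO : IsOpen O) (hne : O.Nonempty)
    {L : Finset (H579.P →ᵃ[ℝ] ℝ)} (hL : ∀ l ∈ L, l.linear ≠ 0) : ∃ y ∈ O, ∀ l ∈ L, l y ≠ 0 := by
  classical
  induction L using Finset.induction_on generalizing O with
  | empty => exact hne.imp fun y hy => ⟨hy, fun l hl => absurd hl (Finset.notMem_empty _)⟩
  | insert a L ha ih =>
    have h1 : (O ∩ {z | a z ≠ 0}).Nonempty := by
      obtain ⟨y, hy⟩ := hne
      by_cases h0 : a y ≠ 0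
      · exact ⟨y, hy, h0⟩
      push Not at h0
      -- move along a direction with nonzero derivative
      obtain ⟨v, hv⟩ : ∃ v, a.linear v ≠ 0 := by
        by_contra h
        push Not at h
        exact hL a (Finset.mem_insert_self _ _) (LinearMap.ext h)
      have hc : Continuous fun t : ℝ => y + t • v := by fun_prop
      have hnh : ∀ᶠ t in 𝓝 (0:ℝ), y + t • v ∈ O := by
        refine hc.continuousAt.eventually (hO.mem_nhds ?_)
        simpa using hy
      obtain ⟨δ, hδ, hb⟩ := Metric.eventually_nhds_iff.1 hnh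
      refine ⟨y + (δ / 2) • v, hb ?_, ?_⟩
      · rw [Real.dist_eq, sub_zero, abs_of_pos (by positivity)]; linarith
      · show a (y + (δ / 2) • v) ≠ 0
        have h5 : a (y + (δ / 2) • v) = a y + (δ / 2) * a.linear v := by
          have := a.map_vadd y ((δ / 2) • v)
          rw [vadd_eq_add, vadd_eq_add, map_smul, smul_eq_mul] at this
          rw [add_comm y, this]; ring
        rw [h5, h0, zero_add]
        exact mul_ne_zero (by positivity) hv
    have h2 : IsOpen (O ∩ {z | a z ≠ 0}) :=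
      hO.inter (isOpen_ne_fun (affine_continuous a) continuous_const)
    obtain ⟨y, hy, h3⟩ := ih h2 h1 fun l hl => hL l (Finset.mem_insert_of_mem hl)
    refine ⟨y, hy.1, fun l hl => ?_⟩
    rcases Finset.mem_insert.1 hl with rfl | hl
    · exact hy.2
    · exact h3 l hl

/-- the cell of a point of the interior which is on no line has nonempty interior -/
theorem mem_interior_cellA {L : Finset (H579.P →ᵃ[ℝ] ℝ)} {y : H579.P} (hy : y ∈ interior C)
    (h0 : ∀ l ∈ L, l y ≠ 0) : ∃ τ ∈ L.powerset, y ∈ interior (cellA C L τ) := by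
  classical
  set τ := L.filter fun l => 0 < l y with hτ
  refine ⟨τ, Finset.mem_powerset.2 (Finset.filter_subset _ _), ?_⟩
  have h1 : IsOpen (interior C ∩ ⋂ l : L, {z | (0 < l.1 y → 0 < l.1 z) ∧ (l.1 y < 0 → l.1 z < 0)}) := by
    refine isOpen_interior.inter (isOpen_iInter_of_finite fun l => ?_)
    rcases lt_or_gt_of_ne (h0 l.1 l.2) with h5 | h5
    · have : {z | (0 < l.1 y → 0 < l.1 z) ∧ (l.1 y < 0 → l.1 z < 0)} = {z | l.1 z < 0} := by
        ext z; simp [h5, h5.not_gt]
      rw [this]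
      exact isOpen_lt (affine_continuous _) continuous_const
    · have : {z | (0 < l.1 y → 0 < l.1 z) ∧ (l.1 y < 0 → l.1 z < 0)} = {z | 0 < l.1 z} := by
        ext z; simp [h5, h5.not_gt]
      rw [this]
      exact isOpen_lt continuous_const (affine_continuous _)
  refine interior_maximal ?_ h1 ⟨hy, mem_iInter.2 fun l => ⟨id, id⟩⟩
  rintro z ⟨hz, hz'⟩
  refine ⟨interior_subset hz, fun l hl => ?_⟩
  have h5 := mem_iInter.1 hz' ⟨l, hl⟩
  refine ⟨fun h6 => (h5.1 (Finset.mem_filter.1 h6).2).le, fun h6 => ?_⟩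
  rcases lt_or_gt_of_ne (h0 l hl) with h7 | h7
  · exact (h5.2 h7).le
  · exact absurd (Finset.mem_filter.2 ⟨hl, h7⟩) h6

/-- **the cells with nonempty interior cover `C`** -/
theorem exists_full_cellA {L : Finset (H579.P →ᵃ[ℝ] ℝ)} (hcpt : IsCompact C) (hC : Convex ℝ C)
    (hint : (interior C).Nonempty) (hL : ∀ l ∈ L, l.linear ≠ 0) {x : H579.P} (hx : x ∈ C) :
    ∃ τ ∈ L.powerset, (interior (cellA C L τ)).Nonempty ∧ x ∈ cellA C L τ := by
  classical
  have hcl : IsClosed (⋃ τ ∈ {τ | τ ∈ L.powerset ∧ (interior (cellA C L τ)).Nonempty},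
      cellA C L τ) := by
    refine Set.Finite.isClosed_biUnion ((L.powerset.finite_toSet).subset fun τ h => h.1) fun τ _ => ?_
    exact (isCompact_cellA hcpt).isClosed
  have h1 : C ⊆ closure (⋃ τ ∈ {τ | τ ∈ L.powerset ∧ (interior (cellA C L τ)).Nonempty},
      cellA C L τ) := by
    intro z hz
    rw [_root_.mem_closure_iff]
    intro O hO hzO
    have h2 : (O ∩ interior C).Nonempty := by
      have : z ∈ closure (interior C) := by
        rw [hC.closure_interior_eq_closure_of_nonempty_interior hint]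
        exact subset_closure hz
      exact _root_.mem_closure_iff.1 this O hO hzO
    obtain ⟨y, hy, h3⟩ := exists_off_lines (hO.inter isOpen_interior) h2 hL
    obtain ⟨τ, hτ, h4⟩ := mem_interior_cellA hy.2 h3
    exact ⟨y, hy.1, mem_iUnion₂.2 ⟨τ, ⟨hτ, ⟨y, h4⟩⟩, interior_subset h4⟩⟩
  rw [hcl.closure_eq] at h1
  obtain ⟨τ, hτ, hxτ⟩ := mem_iUnion₂.1 (h1 hx)
  exact ⟨τ, hτ.1, hτ.2, hxτ⟩

/-- **the interiors of different cells are disjoint** -/
theorem disjoint_interior_cellA {L τ τ' : Finset (H579.P →ᵃ[ℝ] ℝ)} (hL : ∀ l ∈ L, l.linear ≠ 0)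
    (h1 : τ ∈ L.powerset) (h2 : τ' ∈ L.powerset) (hne : τ ≠ τ') :
    Disjoint (interior (cellA C L τ)) (cellA C L τ') := by
  classical
  -- an element in the difference
  have key : ∀ τ₁ τ₂ : Finset (H579.P →ᵃ[ℝ] ℝ), ∀ l ∈ L,
      (l ∈ τ₁ ∧ l ∉ τ₂) ∨ (l ∉ τ₁ ∧ l ∈ τ₂) →
      Disjoint (interior (cellA C L τ₁)) (cellA C L τ₂) := by
    intro τ₁ τ₂ l hl h
    rw [Set.disjoint_left]
    intro y hy hy'
    have h0 : l y = 0 := by
      have a1 := ((interior_subset hy).2 l hl)
      have a2 := (hy'.2 l hl)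
      rcases h with ⟨b1, b2⟩ | ⟨b1, b2⟩
      · exact le_antisymm (a2.2 b2) (a1.1 b1)
      · exact le_antisymm (a1.2 b1) (a2.1 b2)
    -- `l` takes both signs near `y`
    obtain ⟨v, hv⟩ : ∃ v, l.linear v ≠ 0 := by
      by_contra h
      push Not at h
      exact hL l hl (LinearMap.ext h)
    have hc : Continuous fun t : ℝ => y + t • v := by fun_prop
    have hnh : ∀ᶠ t in 𝓝 (0:ℝ), y + t • v ∈ interior (cellA C L τ₁) := by
      refine hc.continuousAt.eventually (isOpen_interior.mem_nhds ?_)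
      simpa using hy
    obtain ⟨δ, hδ, hb⟩ := Metric.eventually_nhds_iff.1 hnh
    have h5 : ∀ t : ℝ, l (y + t • v) = t * l.linear v := by
      intro t
      have := l.map_vadd y (t • v)
      rw [vadd_eq_add, vadd_eq_add, map_smul, smul_eq_mul, h0, add_zero] at this
      rw [add_comm y, this]
    have c1 := interior_subset (hb (y := δ / 2) (by
      rw [Real.dist_eq, sub_zero, abs_of_pos (by positivity)]; linarith))
    have c2 := interior_subset (hb (y := -(δ / 2)) (by
      rw [Real.dist_eq, sub_zero, abs_neg, abs_of_pos (by positivity)]; linarith))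
    have d1 := c1.2 l hl
    have d2 := c2.2 l hl
    rw [h5] at d1 d2
    have hδ2 : 0 < δ / 2 := by positivity
    rcases h with ⟨b1, b2⟩ | ⟨b1, b2⟩
    · have e1 := d1.1 b1
      have e2 := d2.1 b1
      rcases lt_or_gt_of_ne hv with h6 | h6
      · nlinarith
      · nlinarith
    · have e1 := d1.2 b1
      have e2 := d2.2 b1
      rcases lt_or_gt_of_ne hv with h6 | h6
      · nlinarith
      · nlinarith
  obtain ⟨l, hl⟩ : ∃ l, (l ∈ τ ∧ l ∉ τ') ∨ (l ∉ τ ∧ l ∈ τ') := by
    by_contra h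
    push Not at h
    exact hne (Finset.ext fun l => ⟨fun h3 => (h l).1 h3, fun h3 => by
      by_contra h4
      exact (h l).2 h4 h3⟩)
  refine key τ τ' l ?_ hl
  rcases hl with h3 | h3
  · exact Finset.mem_powerset.1 h1 h3.1
  · exact Finset.mem_powerset.1 h2 h3.2

/-- a point of `S` where only the functionals which vanish on `S` vanish -/
theorem SgnOn.exists_generic {L : Finset (H579.P →ᵃ[ℝ] ℝ)} {S : Set H579.P} (hS : Convex ℝ S)
    (hne : S.Nonempty) (h : SgnOn L S) : ∃ x ∈ S, ∀ l ∈ L, l x = 0 → ∀ z ∈ S, l z = 0 := by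
  classical
  induction L using Finset.induction_on with
  | empty => exact hne.imp fun y hy => ⟨hy, fun l hl => absurd hl (Finset.notMem_empty _)⟩
  | insert a L ha ih =>
    obtain ⟨x, hx, h1⟩ := ih (h.mono (Finset.subset_insert _ _) Subset.rfl)
    by_cases h0 : a x = 0 → ∀ z ∈ S, a z = 0
    · refine ⟨x, hx, fun l hl => ?_⟩
      rcases Finset.mem_insert.1 hl with rfl | hl
      · exact h0
      · exact h1 l hl
    · push Not at h0
      obtain ⟨hax, z, hz, haz⟩ := h0
      have hm : ∀ l : H579.P →ᵃ[ℝ] ℝ, l (midpoint ℝ x z) = (l x + l z) / 2 := by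
        intro l
        rw [AffineMap.map_midpoint, midpoint_eq_smul_add]
        simp; ring
      refine ⟨midpoint ℝ x z, hS.midpoint_mem hx hz, fun l hl hlm => ?_⟩
      rw [hm] at hlm
      rcases Finset.mem_insert.1 hl with rfl | hl
      · rw [hax] at hlm
        exact absurd (by linarith) haz
      · refine h1 l hl ?_
        rcases h l (Finset.mem_insert_of_mem hl) with h5 | h5
        · linarith [h5 x hx, h5 z hz]
        · linarith [h5 x hx, h5 z hz]

/-- a convex set with constant signs lies in a cell with nonempty interior -/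
theorem SgnOn.exists_full {L : Finset (H579.P →ᵃ[ℝ] ℝ)} (hcpt : IsCompact C) (hC : Convex ℝ C)
    (hint : (interior C).Nonempty) (hL : ∀ l ∈ L, l.linear ≠ 0) {S : Set H579.P} (hS : Convex ℝ S)
    (hne : S.Nonempty) (hSC : S ⊆ C) (h : SgnOn L S) :
    ∃ τ ∈ L.powerset, (interior (cellA C L τ)).Nonempty ∧ S ⊆ cellA C L τ := by
  classical
  obtain ⟨x, hx, h1⟩ := h.exists_generic hS hne
  obtain ⟨τ, hτ, h2, h3⟩ := exists_full_cellA hcpt hC hint hL (hSC hx)
  refine ⟨τ, hτ, h2, fun z hz => ⟨hSC hz, fun l hl => ?_⟩⟩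
  by_cases h0 : l x = 0
  · have h5 := h1 l hl h0 z hz
    exact ⟨fun _ => h5.ge, fun _ => h5.le⟩
  · have h5 := h3.2 l hl
    rcases lt_or_gt_of_ne h0 with h6 | h6
    · have h7 : l ∉ τ := fun h8 => absurd (h5.1 h8) (not_le.2 h6)
      exact ⟨fun h8 => absurd h8 h7, fun _ => ((h l hl).resolve_left fun h9 =>
        absurd (h9 x hx) (not_le.2 h6)) z hz⟩
    · have h7 : l ∈ τ := by
        by_contra h8
        exact absurd (h5.2 h8) (not_le.2 h6)
      exact ⟨fun _ => ((h l hl).resolve_right fun h9 => absurd (h9 x hx) (not_le.2 h6)) z hz,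
        fun h8 => absurd h7 h8⟩

/-- points of `C` which are on the frontier of a cell are on the frontier of `C` or on a line -/
theorem frontier_cellA {L : Finset (H579.P →ᵃ[ℝ] ℝ)} (hcpt : IsCompact C) {z : H579.P}
    (hz : z ∈ frontier (cellA C L τ)) : z ∈ frontier C ∨ ∃ l ∈ L, l z = 0 := by
  classical
  have hzc : z ∈ cellA C L τ := (isCompact_cellA hcpt).isClosed.frontier_subset hz
  by_contra h
  push Not at h
  have hzi : z ∈ interior C := by
    by_contra h5
    exact h.1 (by rw [hcpt.isClosed.frontier_eq]; exact ⟨cellA_subset hzc, h5⟩)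
  have h1 : IsOpen (interior C ∩ ⋂ l : L, {y | (0 < l.1 z → 0 < l.1 y) ∧ (l.1 z < 0 → l.1 y < 0)}) := by
    refine isOpen_interior.inter (isOpen_iInter_of_finite fun l => ?_)
    rcases lt_or_gt_of_ne (h.2 l.1 l.2) with h5 | h5
    · have : {y | (0 < l.1 z → 0 < l.1 y) ∧ (l.1 z < 0 → l.1 y < 0)} = {y | l.1 y < 0} := by
        ext y; simp [h5, h5.not_gt]
      rw [this]
      exact isOpen_lt (affine_continuous _) continuous_const
    · have : {y | (0 < l.1 z → 0 < l.1 y) ∧ (l.1 z < 0 → l.1 y < 0)} = {y | 0 < l.1 y} := by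
        ext y; simp [h5, h5.not_gt]
      rw [this]
      exact isOpen_lt continuous_const (affine_continuous _)
  have h2 : z ∈ interior (cellA C L τ) := by
    refine interior_maximal ?_ h1 ⟨hzi, mem_iInter.2 fun l => ⟨id, id⟩⟩
    rintro y ⟨hy, hy'⟩
    refine ⟨interior_subset hy, fun l hl => ?_⟩
    have h5 := mem_iInter.1 hy' ⟨l, hl⟩
    have h6 := hzc.2 l hl
    rcases lt_or_gt_of_ne (h.2 l hl) with h7 | h7
    · exact ⟨fun h8 => absurd (h6.1 h8) (not_le.2 h7), fun _ => (h5.2 h7).le⟩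
    · exact ⟨fun _ => (h5.1 h7).le, fun h8 => absurd (h6.2 h8) (not_le.2 h7)⟩
  exact hz.2 h2

end P073.H926
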