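import Vale.Agent.P073.H880.Hook3
import Vale.Agent.P073.H407.InW0
import Vale.Agent.P073.Net.Len

/-!
# P073, H926: [RELCOR], corollaries of the relative Lipschitz bounds on passive sets
-/

open Set Metric Topology Filter
open scoped ENNReal

namespace P073.H926

open Vale.Agent.P073.St (V euc)
open Vale.Agent.P073.H73 (Mesh onSeg ctr)
open P073.Net (len var)

/-- the conclusion of `H880.rel_of_loc`: `G` is locally Lipschitz relative to `h` on `Z` -/
def Rel (L e : ℝ) (h G : V → V) (Z : Set V) : Prop :=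
  ∀ x ∈ Z, ∀ᶠ y in 𝓝[Z] x, dist (G x) (G y) ≤ L * ∑ j, |h y j - h x j| + e * dist x y

variable {L e : ℝ} {h G : V → V} {Z : Set V}

theorem Rel.mono (H : Rel L e h G Z) {Z' : Set V} (hZ : Z' ⊆ Z) : Rel L e h G Z' := fun x hx =>
  (H x (hZ hx)).filter_mono (nhdsWithin_mono x hZ)

theorem Rel.mono_const (H : Rel L e h G Z) {L' e' : ℝ} (hL : L ≤ L') (he : e ≤ e') :
    Rel L' e' h G Z := fun x hx => by
  filter_upwards [H x hx] with y hy
  refine hy.trans (add_le_add ?_ (mul_le_mul_of_nonneg_right he dist_nonneg))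
  exact mul_le_mul_of_nonneg_right hL (Finset.sum_nonneg fun _ _ => abs_nonneg _)

theorem Rel.congr (H : Rel L e h G Z) {G' : V → V} (hG : EqOn G G' Z) : Rel L e h G' Z :=
  fun x hx => by
    filter_upwards [H x hx, self_mem_nhdsWithin] with y hy hyZ
    rw [← hG hx, ← hG hyZ]
    exact hy

/-- sum of the coordinates and sup norm -/
theorem sum_abs_le (v : V) : ∑ j, |v j| ≤ 3 * ‖v‖ := by
  calc ∑ j, |v j| ≤ ∑ _j : Fin 3, ‖v‖ := Finset.sum_le_sum fun j _ => norm_le_pi_norm v j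
    _ = 3 * ‖v‖ := by simp

/-- **curves** in the passive set -/
theorem Rel.var_le (H : Rel L e h G Z) (hL : 0 ≤ L) (he : 0 ≤ e) {γ : ℝ → V} {a b : ℝ}
    (hγ : ContinuousOn γ (Icc a b)) (hm : MapsTo γ (Icc a b) Z) :
    eVariationOn (fun t => G (γ t)) (Icc a b) ≤
      ENNReal.ofReal L * ∑ j, eVariationOn (fun t => h (γ t) j) (Icc a b) +
        ENNReal.ofReal e * eVariationOn γ (Icc a b) := by
  refine H880.eVariationOn_le_of_local (u := fun j t => h (γ t) j) hL he fun t ht => ?_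
  have h1 : Tendsto γ (𝓝[Icc a b] t) (𝓝[Z] (γ t)) :=
    tendsto_nhdsWithin_iff.2 ⟨hγ t ht, by filter_upwards [self_mem_nhdsWithin] with s hs using hm hs⟩
  exact h1 (H _ (hm ht))

/-- variation of a coordinate -/
theorem eVar_coord_le (q : ℝ → V) (s : Set ℝ) (j : Fin 3) :
    eVariationOn (fun t => q t j) s ≤ eVariationOn q s := by
  have := Net.eVariationOn_le_of_edist (f := fun t => q t j) (g := q) (s := s) (C := 1)
    fun x _ y _ => by
      rw [one_mul]
      exact edist_le_pi_edist (q x) (q y) j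
  simpa using this

/-- the variation for the sup norm is at most the length -/
theorem var_le_len (q : ℝ → V) (s : Set ℝ) : eVariationOn q s ≤ len q s := by
  have := Net.eVariationOn_le_of_edist (f := q)
    (g := fun t => (WithLp.toLp 2 (q t) : EuclideanSpace ℝ (Fin 3))) (s := s) (C := 1)
    fun x _ y _ => by
      rw [one_mul, Net.edist_toLp, edist_dist, dist_eq_norm]
      exact ENNReal.ofReal_le_ofReal (Net.norm_le_euc _)
  rwa [one_mul] at this

/-- **curves**, lengths -/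
theorem Rel.len_le (H : Rel L e h G Z) (hL : 0 ≤ L) (he : 0 ≤ e) {γ : ℝ → V} {a b : ℝ}
    (hγ : ContinuousOn γ (Icc a b)) (hm : MapsTo γ (Icc a b) Z) :
    len (fun t => G (γ t)) (Icc a b) ≤ ENNReal.ofReal (6 * L) * len (fun t => h (γ t)) (Icc a b) +
      ENNReal.ofReal (2 * e) * eVariationOn γ (Icc a b) := by
  refine (Net.len_le_var _ _).trans ?_
  unfold Net.var
  have h1 := H.var_le hL he hγ hm
  have h2 : ∑ j, eVariationOn (fun t => h (γ t) j) (Icc a b) ≤
      3 * len (fun t => h (γ t)) (Icc a b) := by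
    calc ∑ j, eVariationOn (fun t => h (γ t) j) (Icc a b)
        ≤ ∑ _j : Fin 3, len (fun t => h (γ t)) (Icc a b) := Finset.sum_le_sum fun j _ =>
          (eVar_coord_le (fun t => h (γ t)) (Icc a b) j).trans (var_le_len _ _)
      _ = 3 * len (fun t => h (γ t)) (Icc a b) := by simp
  calc 2 * eVariationOn (fun t => G (γ t)) (Icc a b)
      ≤ 2 * (ENNReal.ofReal L * (3 * len (fun t => h (γ t)) (Icc a b)) +
        ENNReal.ofReal e * eVariationOn γ (Icc a b)) := by
        refine mul_le_mul_right (h1.trans ?_) _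
        exact add_le_add (mul_le_mul_right h2 _) le_rfl
    _ = _ := by
        rw [ENNReal.ofReal_mul (by norm_num : (0:ℝ) ≤ 6), ENNReal.ofReal_mul (by norm_num :
          (0:ℝ) ≤ 2)]
        rw [show ENNReal.ofReal 6 = 2 * 3 by
          rw [show (6:ℝ) = 2 * 3 by norm_num, ENNReal.ofReal_mul (by norm_num)]; norm_num]
        rw [show ENNReal.ofReal 2 = 2 by norm_num]
        ring

/-- the segment `γ t = x + t (y - x)` -/
theorem seg_var (x y : V) : eVariationOn (fun t : ℝ => x + t • (y - x)) (Icc 0 1) ≤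
    ENNReal.ofReal ‖y - x‖ := by
  have h1 := Net.eVariationOn_le_of_edist (f := fun t : ℝ => x + t • (y - x)) (g := fun t : ℝ => t)
    (s := Icc 0 1) (C := ENNReal.ofReal ‖y - x‖) fun s _ t _ => by
      rw [edist_dist, edist_dist, ← ENNReal.ofReal_mul (norm_nonneg _)]
      refine ENNReal.ofReal_le_ofReal (le_of_eq ?_)
      rw [dist_eq_norm, dist_eq_norm, show x + s • (y - x) - (x + t • (y - x)) =
        (s - t) • (y - x) by rw [sub_smul]; abel, norm_smul, mul_comm]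
  refine h1.trans (le_of_eq ?_)
  have h2 : eVariationOn (fun t : ℝ => t) (Icc 0 1) = 1 := by
    have h3 : (Icc (0:ℝ) 1) ∩ Icc 0 1 = Icc 0 1 := inter_self _
    have h4 : eVariationOn (fun t : ℝ => t) (Icc (0:ℝ) 1 ∩ Icc 0 1) ≤ ENNReal.ofReal (1 - 0) :=
      (MonotoneOn.eVariationOn_eq (f := fun t : ℝ => t) (fun a _ b _ hab => hab)
        (left_mem_Icc.2 zero_le_one) (right_mem_Icc.2 zero_le_one)).le
    rw [h3] at h4
    refine le_antisymm (h4.trans (by norm_num)) ?_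
    have h5 := eVariationOn.edist_le (fun t : ℝ => t) (right_mem_Icc.2 (zero_le_one (α := ℝ)))
      (left_mem_Icc.2 zero_le_one)
    refine le_trans (le_of_eq ?_) h5
    rw [edist_dist, Real.dist_eq]
    norm_num
  rw [h2, mul_one]

theorem seg_mem {x y : V} {t : ℝ} (ht : t ∈ Icc (0:ℝ) 1) : x + t • (y - x) ∈ segment ℝ x y := by
  rw [segment_eq_image']
  exact ⟨t, ht, rfl⟩

theorem seg_cont (x y : V) (s : Set ℝ) : ContinuousOn (fun t : ℝ => x + t • (y - x)) s := by
  fun_prop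

/-- **(a) edges** -/
theorem Rel.edge (H : Rel L e h G Z) (hL : 0 ≤ L) (he : 0 ≤ e) {s : V × V}
    (hs : segment ℝ s.1 s.2 ⊆ Z) :
    len (onSeg G s) (Icc 0 1) ≤ ENNReal.ofReal (6 * L) * len (onSeg h s) (Icc 0 1) +
      ENNReal.ofReal (2 * e * ‖s.2 - s.1‖) := by
  refine (H.len_le hL he (seg_cont s.1 s.2 _) fun t ht => hs (seg_mem ht)).trans ?_
  refine add_le_add le_rfl ?_
  rw [ENNReal.ofReal_mul (by linarith : (0:ℝ) ≤ 2 * e)]
  exact mul_le_mul_right (seg_var _ _) _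

/-- the form of `Out.edge` -/
theorem Rel.edge_le (H : Rel L e h G Z) (hL : 0 ≤ L) (he : 0 ≤ e) {s : V × V}
    (hs : segment ℝ s.1 s.2 ⊆ Z) {D ε : ℝ} (hD : 6 * L ≤ D) (hε : 2 * e * ‖s.2 - s.1‖ ≤ ε) :
    len (onSeg G s) (Icc 0 1) ≤ ENNReal.ofReal D * len (onSeg h s) (Icc 0 1) +
      ENNReal.ofReal ε := by
  refine (H.edge hL he hs).trans (add_le_add ?_ (ENNReal.ofReal_le_ofReal hε))
  exact mul_le_mul_left (ENNReal.ofReal_le_ofReal hD) _

/-- the length is at least the distance of the end points -/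
theorem norm_le_len (q : ℝ → V) : ENNReal.ofReal ‖q 1 - q 0‖ ≤ len q (Icc 0 1) := by
  refine le_trans ?_ (var_le_len q _)
  have := eVariationOn.edist_le q (right_mem_Icc.2 (zero_le_one (α := ℝ)))
    (left_mem_Icc.2 zero_le_one)
  rwa [edist_dist, dist_eq_norm] at this

/-- **(b) convex sets**: bound by the variations on the segment -/
theorem Rel.seg_le (H : Rel L e h G Z) (hL : 0 ≤ L) (he : 0 ≤ e) {x y : V}
    (hs : segment ℝ x y ⊆ Z) :
    ENNReal.ofReal ‖G y - G x‖ ≤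
      ENNReal.ofReal L * ∑ j, eVariationOn (fun t : ℝ => h (x + t • (y - x)) j) (Icc 0 1) +
        ENNReal.ofReal (e * ‖y - x‖) := by
  have h1 := H.var_le hL he (seg_cont x y (Icc 0 1)) fun t ht => hs (seg_mem ht)
  have h2 := eVariationOn.edist_le (fun t : ℝ => G (x + t • (y - x)))
    (right_mem_Icc.2 (zero_le_one (α := ℝ))) (left_mem_Icc.2 zero_le_one)
  rw [edist_dist, dist_eq_norm] at h2
  simp only [one_smul, zero_smul, add_zero, add_sub_cancel] at h2
  refine h2.trans (h1.trans (add_le_add le_rfl ?_))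
  rw [ENNReal.ofReal_mul he]
  exact mul_le_mul_right (seg_var _ _) _

/-- `h` is monotone in each coordinate on the segment -/
theorem Rel.norm_le_of_monotone (H : Rel L e h G Z) (hL : 0 ≤ L) (he : 0 ≤ e) {x y : V}
    (hs : segment ℝ x y ⊆ Z)
    (hm : ∀ j, MonotoneOn (fun t : ℝ => h (x + t • (y - x)) j) (Icc 0 1) ∨
      AntitoneOn (fun t : ℝ => h (x + t • (y - x)) j) (Icc 0 1)) :
    ‖G y - G x‖ ≤ L * ∑ j, |h y j - h x j| + e * ‖y - x‖ := by
  have h0 : (0:ℝ) ≤ L * ∑ j, |h y j - h x j| :=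
    mul_nonneg hL (Finset.sum_nonneg fun _ _ => abs_nonneg _)
  rw [← ENNReal.ofReal_le_ofReal_iff (add_nonneg h0 (mul_nonneg he (norm_nonneg _)))]
  refine (H.seg_le hL he hs).trans ?_
  rw [ENNReal.ofReal_add h0 (mul_nonneg he (norm_nonneg _)), ENNReal.ofReal_mul hL,
    ENNReal.ofReal_sum_of_nonneg fun _ _ => abs_nonneg _]
  refine add_le_add (mul_le_mul_right (Finset.sum_le_sum fun j _ => ?_) _) le_rfl
  have h01 : (Icc (0:ℝ) 1) ∩ Icc 0 1 = Icc 0 1 := inter_self _
  have e1 : x + (1:ℝ) • (y - x) = y := by simp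
  have e0 : x + (0:ℝ) • (y - x) = x := by simp
  rcases hm j with hm | hm
  · have h4 := (MonotoneOn.eVariationOn_eq hm (left_mem_Icc.2 zero_le_one)
      (right_mem_Icc.2 zero_le_one)).le
    rw [h01] at h4
    refine h4.trans (ENNReal.ofReal_le_ofReal ?_)
    simp only [e1, e0]
    exact le_abs_self _
  · have h4 := (MonotoneOn.eVariationOn_eq (f := fun t : ℝ => -h (x + t • (y - x)) j)
      (fun a ha b hb hab => neg_le_neg (hm ha hb hab)) (left_mem_Icc.2 zero_le_one)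
      (right_mem_Icc.2 zero_le_one)).le
    rw [h01] at h4
    have h5 : eVariationOn (fun t : ℝ => h (x + t • (y - x)) j) (Icc 0 1) ≤
        1 * eVariationOn (fun t : ℝ => -h (x + t • (y - x)) j) (Icc 0 1) :=
      Net.eVariationOn_le_of_edist fun s _ t _ => by
        rw [one_mul, edist_dist, edist_dist, Real.dist_eq, Real.dist_eq]
        refine ENNReal.ofReal_le_ofReal (le_of_eq ?_)
        rw [← abs_neg]
        congr 1
        ring
    rw [one_mul] at h5
    refine h5.trans (h4.trans (ENNReal.ofReal_le_ofReal ?_))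
    simp only [e1, e0]
    rw [show -h y j - -h x j = -(h y j - h x j) by ring]
    exact neg_le_abs _

/-- **(b)** `h` is affine on segments of `Z` -/
theorem Rel.norm_le_of_affine (H : Rel L e h G Z) (hL : 0 ≤ L) (he : 0 ≤ e) {x y : V}
    (hs : segment ℝ x y ⊆ Z)
    (ha : ∀ t ∈ Icc (0:ℝ) 1, h (x + t • (y - x)) = h x + t • (h y - h x)) :
    ‖G y - G x‖ ≤ 3 * L * ‖h y - h x‖ + e * ‖y - x‖ := by
  have h1 := H.norm_le_of_monotone hL he hs fun j => by
    rcases le_total (h x j) (h y j) with hj | hj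
    · left
      intro s hs' t ht hst
      show h (x + s • (y - x)) j ≤ h (x + t • (y - x)) j
      rw [ha s hs', ha t ht]
      simp only [Pi.add_apply, Pi.smul_apply, Pi.sub_apply, smul_eq_mul]
      have := mul_le_mul_of_nonneg_right hst (sub_nonneg.2 hj)
      linarith
    · right
      intro s hs' t ht hst
      show h (x + t • (y - x)) j ≤ h (x + s • (y - x)) j
      rw [ha s hs', ha t ht]
      simp only [Pi.add_apply, Pi.smul_apply, Pi.sub_apply, smul_eq_mul]
      have := mul_le_mul_of_nonneg_right hst (sub_nonneg.2 hj)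
      linarith
  have h2 : L * ∑ j, |h y j - h x j| ≤ 3 * L * ‖h y - h x‖ := by
    have := mul_le_mul_of_nonneg_left (sum_abs_le (h y - h x)) hL
    simp only [Pi.sub_apply] at this
    linarith
  linarith

/-- **(b)** `h` is `K`-Lipschitz on `Z` -/
theorem Rel.norm_le_of_lip (H : Rel L e h G Z) (hL : 0 ≤ L) (he : 0 ≤ e) {x y : V}
    (hs : segment ℝ x y ⊆ Z) {K : ℝ} (hK : 0 ≤ K)
    (hlip : ∀ x' ∈ Z, ∀ y' ∈ Z, ‖h x' - h y'‖ ≤ K * ‖x' - y'‖) :
    ‖G y - G x‖ ≤ (3 * L * K + e) * ‖y - x‖ := by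
  have h0 : (0:ℝ) ≤ (3 * L * K + e) * ‖y - x‖ := by positivity
  rw [← ENNReal.ofReal_le_ofReal_iff h0]
  refine (H.seg_le hL he hs).trans ?_
  have h1 : ∀ j, eVariationOn (fun t : ℝ => h (x + t • (y - x)) j) (Icc 0 1) ≤
      ENNReal.ofReal (K * ‖y - x‖) := by
    intro j
    refine (eVar_coord_le (fun t : ℝ => h (x + t • (y - x))) _ j).trans ?_
    have h2 : eVariationOn (fun t : ℝ => h (x + t • (y - x))) (Icc 0 1) ≤
        ENNReal.ofReal K * eVariationOn (fun t : ℝ => x + t • (y - x)) (Icc 0 1) :=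
      Net.eVariationOn_le_of_edist fun s hs' t ht => by
        rw [edist_dist, edist_dist, ← ENNReal.ofReal_mul hK, dist_eq_norm, dist_eq_norm]
        exact ENNReal.ofReal_le_ofReal (hlip _ (hs (seg_mem hs')) _ (hs (seg_mem ht)))
    refine h2.trans ?_
    rw [ENNReal.ofReal_mul hK]
    exact mul_le_mul_right (seg_var _ _) _
  calc ENNReal.ofReal L * ∑ j, eVariationOn (fun t : ℝ => h (x + t • (y - x)) j) (Icc 0 1) +
        ENNReal.ofReal (e * ‖y - x‖)
      ≤ ENNReal.ofReal L * ∑ _j : Fin 3, ENNReal.ofReal (K * ‖y - x‖) +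
        ENNReal.ofReal (e * ‖y - x‖) := by
        refine add_le_add (mul_le_mul_right (Finset.sum_le_sum fun j _ => h1 j) _) le_rfl
    _ = ENNReal.ofReal ((3 * L * K + e) * ‖y - x‖) := by
        rw [Finset.sum_const, Finset.card_univ, Fintype.card_fin, nsmul_eq_mul,
          show ((3:ℕ) : ℝ≥0∞) = ENNReal.ofReal 3 by norm_num, ← ENNReal.ofReal_mul (by norm_num),
          ← ENNReal.ofReal_mul hL, ← ENNReal.ofReal_add (by positivity) (by positivity)]
        congr 1
        ring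

/-- **(c)** the error is absorbed: `h` is affine on segments and bounded below -/
theorem Rel.norm_le_of_below (H : Rel L e h G Z) (hL : 0 ≤ L) (he : 0 ≤ e) {x y : V}
    (hs : segment ℝ x y ⊆ Z)
    (ha : ∀ t ∈ Icc (0:ℝ) 1, h (x + t • (y - x)) = h x + t • (h y - h x)) {s : ℝ}
    (hb : s * ‖y - x‖ ≤ ‖h y - h x‖) (hes : e ≤ L * s) :
    ‖G y - G x‖ ≤ 4 * L * ‖h y - h x‖ := by
  have h1 := H.norm_le_of_affine hL he hs ha
  have h2 : e * ‖y - x‖ ≤ L * ‖h y - h x‖ := by
    calc e * ‖y - x‖ ≤ L * s * ‖y - x‖ := mul_le_mul_of_nonneg_right hes (norm_nonneg _)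
      _ = L * (s * ‖y - x‖) := by ring
      _ ≤ _ := mul_le_mul_of_nonneg_left hb hL
  linarith

/-- **(c)** `h` is `K`-Lipschitz on `Z`, and not constant -/
theorem Rel.norm_le_of_lip' (H : Rel L e h G Z) (hL : 0 ≤ L) (he : 0 ≤ e) {x y : V}
    (hs : segment ℝ x y ⊆ Z) {K : ℝ} (hK : 0 ≤ K)
    (hlip : ∀ x' ∈ Z, ∀ y' ∈ Z, ‖h x' - h y'‖ ≤ K * ‖x' - y'‖) (hek : e ≤ L * K) :
    ‖G y - G x‖ ≤ 4 * L * K * ‖y - x‖ := by
  have h1 := H.norm_le_of_lip hL he hs hK hlip
  refine h1.trans (mul_le_mul_of_nonneg_right (by linarith) (norm_nonneg _))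

/-- the Lipschitz constants of an injective map are bounded below -/
theorem exists_lip_lower {Q : Set V} (hQ : Q.Nontrivial) (hinj : InjOn h Q) :
    ∃ K₀ > 0, ∀ K, (∀ x ∈ Q, ∀ y ∈ Q, ‖h x - h y‖ ≤ K * ‖x - y‖) → K₀ ≤ K := by
  obtain ⟨a, ha, b, hb, hab⟩ := hQ
  have h1 : 0 < ‖a - b‖ := norm_pos_iff.2 (sub_ne_zero.2 hab)
  have h2 : 0 < ‖h a - h b‖ := norm_pos_iff.2 (sub_ne_zero.2 fun h => hab (hinj ha hb h))
  refine ⟨‖h a - h b‖ / ‖a - b‖, div_pos h2 h1, fun K hK => ?_⟩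
  rw [div_le_iff₀ h1]
  exact hK a ha b hb

/-- the length of the image of a segment is bounded below -/
theorem exists_len_lower {s : V × V} (hne : s.1 ≠ s.2) (hinj : InjOn h (segment ℝ s.1 s.2)) :
    ∃ a₀ > 0, ENNReal.ofReal a₀ ≤ len (onSeg h s) (Icc 0 1) := by
  refine ⟨‖onSeg h s 1 - onSeg h s 0‖, norm_pos_iff.2 (sub_ne_zero.2 ?_), norm_le_len _⟩
  intro h1
  have e1 : onSeg h s 1 = h s.2 := by
    show h (s.1 + (1:ℝ) • (s.2 - s.1)) = h s.2
    rw [one_smul, add_sub_cancel]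
  have e0 : onSeg h s 0 = h s.1 := by
    show h (s.1 + (0:ℝ) • (s.2 - s.1)) = h s.1
    rw [zero_smul, add_zero]
  rw [e1, e0] at h1
  exact hne (hinj (left_mem_segment ℝ _ _) (right_mem_segment ℝ _ _) h1.symm)

/-! ### protected cells -/

/-- diagonal maps with one factor -/
theorem diag_affine {a c : V} {r : ℝ} {s : V} {Q : Set V}
    (hd : ∀ x ∈ Q, ∀ j, h x j = c j + r * s j * (x j - a j)) {x y : V} (hs : segment ℝ x y ⊆ Q)
    {t : ℝ} (ht : t ∈ Icc (0:ℝ) 1) : h (x + t • (y - x)) = h x + t • (h y - h x) := by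
  funext j
  have hx := hs (left_mem_segment ℝ x y)
  have hy := hs (right_mem_segment ℝ x y)
  rw [hd _ (hs (seg_mem ht)) j]
  simp only [Pi.add_apply, Pi.smul_apply, Pi.sub_apply, smul_eq_mul]
  rw [hd x hx j, hd y hy j]
  ring

theorem diag_norm {a c : V} {r : ℝ} {s : V} (hr : 0 ≤ r) (hs1 : ∀ j, s j = 1 ∨ s j = -1)
    {Q : Set V} (hd : ∀ x ∈ Q, ∀ j, h x j = c j + r * s j * (x j - a j)) {x y : V} (hx : x ∈ Q)
    (hy : y ∈ Q) : ‖h x - h y‖ = r * ‖x - y‖ := by
  have key : ∀ j, |(h x - h y) j| = r * |(x - y) j| := by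
    intro j
    rw [Pi.sub_apply, Pi.sub_apply, hd x hx j, hd y hy j,
      show c j + r * s j * (x j - a j) - (c j + r * s j * (y j - a j)) =
        r * (s j * (x j - y j)) by ring, abs_mul, abs_mul, abs_of_nonneg hr]
    rcases hs1 j with h1 | h1 <;> rw [h1] <;> simp
  apply le_antisymm
  · refine (pi_norm_le_iff_of_nonneg (by positivity)).2 fun j => ?_
    rw [Real.norm_eq_abs, key j]
    exact mul_le_mul_of_nonneg_left (norm_le_pi_norm (x - y) j) hr
  · rcases hr.eq_or_lt with h0 | h0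
    · rw [← h0, zero_mul]; exact norm_nonneg _
    · rw [← le_div_iff₀' h0]
      refine (pi_norm_le_iff_of_nonneg (div_nonneg (norm_nonneg _) hr)).2 fun j => ?_
      rw [le_div_iff₀' h0, Real.norm_eq_abs, ← key j]
      exact norm_le_pi_norm (h x - h y) j

open Vale.Agent.P073.H304 in
/-- **(c) protected cells**: the form of `Out.prot`, with the factor of the cell -/
theorem prot_of_rel {Ω Λ : Set V} {η δ c₀ : ℝ} {v w : V} {ρ : V → ℝ} {M : Mesh Ω}
    {J₀ J : Set (ℕ × (Fin 3 → ℤ))} {P Z : Set M.ι}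
    (I : Vale.Agent.P073.H304.InW (Λ := Λ) η δ c₀ v w ρ M h J₀ J P Z) (hη : η < 1) {i : M.ι}
    (hi : i ∈ P) : ∃ s > 0, (∀ x ∈ M.Q i, ∀ y ∈ M.Q i, ‖h x - h y‖ = s * ‖x - y‖) ∧
      ∀ (L e : ℝ) (G : V → V), 0 ≤ L → 0 ≤ e → e ≤ L * s → Rel L e h G (M.Q i) →
        ∀ x ∈ M.Q i, ∀ y ∈ M.Q i, ‖G x - G y‖ ≤ 4 * L * ‖h x - h y‖ := by
  obtain ⟨t, ht, a, r, s, hr, hs, hQ, hd⟩ := I.prot i hi
  have hpos : 0 < (1 - η) / 2 / 2 ^ t.1 / r := by
    have : 0 < 1 - η := by linarith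
    positivity
  refine ⟨(1 - η) / 2 / 2 ^ t.1 / r, hpos, fun x hx y hy => diag_norm hpos.le hs hd hx hy,
    fun L e G hL he hes H x hx y hy => ?_⟩
  have hc : Convex ℝ (M.Q i) := by rw [hQ]; exact convex_closedBall a r
  have hseg : segment ℝ y x ⊆ M.Q i := hc.segment_subset hy hx
  refine H.norm_le_of_below hL he hseg (fun t ht => diag_affine hd hseg ht) ?_ hes
  exact (diag_norm hpos.le hs hd hx hy).ge

end P073.H926
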