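import Vale.Agent.P073.H926.Num3
import Vale.Agent.P073.H304.K3C
import Vale.Agent.P073.H212.Soft

/-!
# P073, block [K3C]: the full case, protected cells and boxes, deep sets, `K3C` from the numbers
([K3-NUM], part B)
-/

open Set Metric Topology Filter

namespace Vale.Agent.P073.H926

open _root_.P073 _root_.P073.Net _root_.P073.PA691 _root_.P073.TM
open Vale.Agent.P073.St (V)
open Vale.Agent.P073.H471 Vale.Agent.P073.H267
open Vale.Agent.P073.H73 (Mesh)
open Vale.Agent.P073.H304 (Nb In Zmax)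
open Vale.Agent.P073.H212 (SoftN KE mem_cor_add)

section tiles
variable {Λ : Set V} {ρ : V → ℝ} {w : V} {K : BoxCx Λ w} {x y : V} {q t : K.T}
  {J₀ J : Set (ℕ × (Fin 3 → ℤ))}

theorem upper_lt (hρ : SizeFn Λ ρ) {m : ℕ} {z : Fin 3 → ℤ}
    (h : IsTile ρ w m z) {x : V} (hx : x ∈ dyc w m z) : ρ x < 4 / 2 ^ m := by
  cases m with
  | zero => linarith [hρ.le_one x, show (1:ℝ) < 4 / 2 ^ 0 by norm_num]
  | succ n =>
    have h1 := h.2 n (fun k => z k / 2) (Nat.lt_succ_self n) Net.NC.parent_sub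
    simp only [Adm, not_forall, not_le] at h1
    obtain ⟨y, hy, hρy⟩ := h1
    have h2 := hρ.lip x y
    have h3 := Net.NC.dist_le (Net.NC.parent_sub hx) hy
    have h4 : (4:ℝ) / 2 ^ (n + 1) = 1 / 2 ^ n + 1 / 2 ^ n := by
      rw [pow_succ]
      have h2 : (2:ℝ) ^ n ≠ 0 := by positivity
      field_simp
      ring
    linarith

/-- **touching tiles have sizes with ratio at most two** -/
theorem sT_touch (C : Cells ρ w K) (hρ : SizeFn Λ ρ) (hx : x ∈ K.cube q) (hx' : x ∈ K.cube t) :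
    C.sT q ≤ 2 * C.sT t := by
  rw [C.cube_eq] at hx hx'
  have h1 := (C.tile q).1 x hx
  have h2 := upper_lt hρ (C.tile t) hx'
  have e : C.sT q = 1 / 2 ^ (C.fT q).1 := rfl
  have e' : C.sT t = 1 / 2 ^ (C.fT t).1 := rfl
  rw [e, e']
  have h3 : (1:ℝ) / 2 ^ (C.fT q).1 < 4 / 2 ^ (C.fT t).1 := h1.trans_lt h2
  rw [div_lt_div_iff₀ (by positivity) (by positivity), one_mul] at h3
  have h4 : (2:ℝ) ^ (C.fT t).1 < 2 ^ ((C.fT q).1 + 2) := by
    rw [pow_add]; linarith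
  have h5 : (C.fT t).1 < (C.fT q).1 + 2 := (pow_lt_pow_iff_right₀ (by norm_num)).1 h4
  have h6 : (2:ℝ) ^ (C.fT t).1 ≤ 2 ^ ((C.fT q).1 + 1) :=
    pow_le_pow_right₀ (by norm_num) (by omega)
  rw [show (2:ℝ) * (1 / 2 ^ (C.fT t).1) = 2 / 2 ^ (C.fT t).1 by ring,
    div_le_div_iff₀ (by positivity) (by positivity)]
  rw [pow_succ] at h6
  linarith

/-- all tiles which touch a processed tile have a protected cell -/
def Full (C : Cells ρ w K) (J₀ J : Set (ℕ × (Fin 3 → ℤ))) : Prop :=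
  ∀ t ∈ pT C J₀, ∀ q, (K.cube t ∩ K.cube q).Nonempty → C.fT q ∈ J

theorem full_of (C : Cells ρ w K)
    (h : ∀ t ∈ J₀, ∀ t' : ℕ × (Fin 3 → ℤ), IsTile ρ w t'.1 t'.2 →
      (dyc w t.1 t.2 ∩ dyc w t'.1 t'.2).Nonempty → t' ∈ J) : Full C J₀ J := by
  intro t ht q hq
  refine h _ ht _ (C.tile q) ?_
  rwa [← C.cube_eq, ← C.cube_eq]

/-- the unprocessed plates which touch a processed tube -/
def rim (C : Cells ρ w K) (J₀ : Set (ℕ × (Fin 3 → ℤ))) : Set K.S :=
  {s | s ∉ pS C J₀ ∧ ∃ e ∈ pG C J₀, K.edge e ⊆ K.sq s}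

theorem sq_sub_of {s : K.S} (hs : q = K.sm s ∨ q = K.sp s) : K.sq s ⊆ K.cube q := by
  rcases hs with rfl | rfl
  · exact (TM.sq_subset K s).1
  · exact (TM.sq_subset K s).2

theorem Full.sq {C : Cells ρ w K} (F : Full C J₀ J) {s : K.S} (hs : s ∈ pS C J₀)
    (hq : q = K.sm s ∨ q = K.sp s) : C.fT q ∈ J := by
  obtain ⟨t, ht, hts⟩ := exists_of_pS hs
  exact F t ht q ⟨_, sq_sub_of hts (slo_mem s), sq_sub_of hq (slo_mem s)⟩

theorem Full.edge {C : Cells ρ w K} (F : Full C J₀ J) {e : K.G} (he : e ∈ pG C J₀)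
    (hq : K.edge e ⊆ K.cube q) : C.fT q ∈ J := by
  obtain ⟨t, ht, hts⟩ := he
  exact F t ht q ⟨_, hts (TM.wa_mem K e), hq (TM.wa_mem K e)⟩

theorem Full.vert {C : Cells ρ w K} (F : Full C J₀ J) {i : K.W} (he : i ∈ pW C J₀)
    (hq : K.w i ∈ K.cube q) : C.fT q ∈ J := by
  obtain ⟨t, ht, hts⟩ := he
  exact F t ht q ⟨_, hts, hq⟩

end tiles

section geo
variable {Λ : Set V} {v : V} {K : BoxCx Λ v} {S : Rad K} {W : Wid K S} {B : Boxes W} {G : Geo B}
  {x y : V} {q : K.T}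

/-- position of a point of a plate (or of a box at a hanging vertex) in its tile -/
theorem pos_aux {s : K.S} (h1 : B.τ s ≤ W.as s y)
    (h2 : |y (K.nrm s) - K.slo s (K.nrm s)| ≤ B.τ s) (hq : y ∈ K.cube q) :
    (q = K.sm s ∨ q = K.sp s) ∧
    (∀ k, k ≠ K.nrm s → K.lo q k + G.κ q < y k ∧ y k < K.hi q k - G.κ q) ∧
    ((K.hi q (K.nrm s) - y (K.nrm s) = |y (K.nrm s) - K.slo s (K.nrm s)| ∧
        K.lo q (K.nrm s) + G.κ q < y (K.nrm s)) ∨
      (y (K.nrm s) - K.lo q (K.nrm s) = |y (K.nrm s) - K.slo s (K.nrm s)| ∧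
        y (K.nrm s) < K.hi q (K.nrm s) - G.κ q)) := by
  have hτ := B.τ_pos s
  have h0 : 0 < W.as s y := hτ.trans_le h1
  have hZ : y ∈ Zs W s := ⟨h0, h2.trans h1⟩
  have hqs := (near_self (Zs_subset hZ)).tile hq
  have hκτ := G.κ_τ q s hqs
  have hκ := G.κ_pos q
  have h2' := abs_le.1 h2
  have hws := B.τ_le s
  obtain ⟨hl1, hl2⟩ := K.s_lev s
  refine ⟨hqs, fun k hkn => ?_, ?_⟩
  · have ht := marg_taper h0 (k := k) (by simpa using hkn)
    have e : marg {K.nrm s} (K.slo s) (K.shi s) (W.ws s) y = W.as s y := rfl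
    rw [e] at ht
    have hsub := sq_sub_of hqs
    have h3 := (hsub (slo_mem s)).1 k
    have h4 := (hsub (shi_mem s)).2 k
    constructor <;> linarith [ht.1, ht.2]
  · rcases hqs with rfl | rfl
    · have h3 := W.ws_le s
      have h5 := hq.2 (K.nrm s)
      left
      rw [hl1] at h5 ⊢
      refine ⟨?_, by linarith⟩
      rw [abs_sub_comm, abs_of_nonneg (by linarith)]
    · have h3 := W.ws_le' s
      have h5 := hq.1 (K.nrm s)
      right
      rw [hl2] at h5 ⊢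
      refine ⟨?_, by linarith⟩
      rw [abs_of_nonneg (by linarith)]

theorem mid_iff_aux {s : K.S} (h1 : B.τ s ≤ W.as s y)
    (h2 : |y (K.nrm s) - K.slo s (K.nrm s)| ≤ B.τ s) (hq : y ∈ K.cube q) {r : ℝ}
    (hrκ : r ≤ G.κ q) :
    ((∀ k, K.lo q k + r ≤ y k ∧ y k ≤ K.hi q k - r) ↔
      r ≤ |y (K.nrm s) - K.slo s (K.nrm s)|) ∧
    ((∀ k, K.lo q k + r < y k ∧ y k < K.hi q k - r) ↔
      r < |y (K.nrm s) - K.slo s (K.nrm s)|) := by
  obtain ⟨-, h3, h4⟩ := pos_aux (G := G) h1 h2 hq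
  constructor
  · constructor
    · intro h
      obtain ⟨h5, h6⟩ := h (K.nrm s)
      rcases h4 with ⟨h4, -⟩ | ⟨h4, -⟩ <;> rw [← h4] <;> linarith
    · intro h k
      by_cases hk : k = K.nrm s
      · subst hk
        rcases h4 with ⟨h4, h4'⟩ | ⟨h4, h4'⟩ <;> rw [← h4] at h <;> constructor <;> linarith
      · obtain ⟨h5, h6⟩ := h3 k hk
        constructor <;> linarith
  · constructor
    · intro h
      obtain ⟨h5, h6⟩ := h (K.nrm s)
      rcases h4 with ⟨h4, -⟩ | ⟨h4, -⟩ <;> rw [← h4] <;> linarith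
    · intro h k
      by_cases hk : k = K.nrm s
      · subst hk
        rcases h4 with ⟨h4, h4'⟩ | ⟨h4, h4'⟩ <;> rw [← h4] at h <;> constructor <;> linarith
      · obtain ⟨h5, h6⟩ := h3 k hk
        constructor <;> linarith

/-- position of a point of a tube in its tile -/
theorem mid_iff_inl {e : K.G} (hy : y ∈ G.TB false (.inl e)) (hq : y ∈ K.cube q) {r : ℝ}
    (hrκ : r ≤ G.κ q) :
    ((∀ k, K.lo q k + r ≤ y k ∧ y k ≤ K.hi q k - r) ↔
      ∀ k, k ≠ K.dir e → (K.w (K.a e) k = K.lo q k ∨ K.w (K.a e) k = K.hi q k) →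
        r ≤ |y k - K.w (K.a e) k|) ∧
    ((∀ k, K.lo q k + r < y k ∧ y k < K.hi q k - r) ↔
      ∀ k, k ≠ K.dir e → (K.w (K.a e) k = K.lo q k ∨ K.w (K.a e) k = K.hi q k) →
        r < |y k - K.w (K.a e) k|) := by
  have he := Geo.tile_TB_inl hy hq
  have h1 := G.κ_uT q e he
  have h2 := G.uT_lam e
  have h3 := G.lam_T e
  have h4 := B.T_le e
  have h5 := W.we_le e
  have h6 := G.uT_pos e
  have ha := G.κ_be q _ (he (TM.wa_mem K e))
  have hb := G.κ_be q _ (he (TM.wb_mem K e))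
  have hκ := G.κ_pos q
  obtain ⟨⟨hy1, hy2⟩, hy3⟩ := Geo.mem_inl.1 hy
  simp only [Bool.false_eq_true, if_false] at hy3
  have la := (he (TM.wa_mem K e)).1
  have lb := (he (TM.wb_mem K e)).2
  have hlt : ∀ k, k ≠ K.dir e → K.lo q k < K.hi q k := fun k _ => K.lt q k
  -- the other directions
  have key : ∀ k, k ≠ K.dir e →
      (K.w (K.a e) k ≠ K.lo q k → K.lo q k + r < y k) ∧
      (K.w (K.a e) k ≠ K.hi q k → y k < K.hi q k - r) := fun k hk => by
    obtain ⟨h7, h8⟩ := tile_far S he hk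
    have h9 := abs_le.1 (hy3 k hk)
    exact ⟨fun h => by linarith [h7 h], fun h => by linarith [h8 h]⟩
  have hdir : K.lo q (K.dir e) + r < y (K.dir e) ∧ y (K.dir e) < K.hi q (K.dir e) - r := by
    have h7 := la (K.dir e)
    have h8 := lb (K.dir e)
    constructor <;> linarith
  constructor
  · constructor
    · intro h k _ hk
      obtain ⟨h7, h8⟩ := h k
      rcases hk with hk | hk <;> rw [hk, le_abs']
      · right; linarith
      · left; linarith
    · intro h k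
      by_cases hk : k = K.dir e
      · subst hk
        exact ⟨hdir.1.le, hdir.2.le⟩
      · constructor
        · by_cases hl : K.w (K.a e) k = K.lo q k
          · have h7 := h k hk (Or.inl hl)
            rw [hl, abs_of_nonneg (by linarith [hq.1 k])] at h7
            linarith
          · exact ((key k hk).1 hl).le
        · by_cases hl : K.w (K.a e) k = K.hi q k
          · have h7 := h k hk (Or.inr hl)
            rw [hl, abs_sub_comm, abs_of_nonneg (by linarith [hq.2 k])] at h7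
            linarith
          · exact ((key k hk).2 hl).le
  · constructor
    · intro h k _ hk
      obtain ⟨h7, h8⟩ := h k
      rcases hk with hk | hk <;> rw [hk, lt_abs]
      · left; linarith
      · right; linarith
    · intro h k
      by_cases hk : k = K.dir e
      · subst hk
        exact hdir
      · constructor
        · by_cases hl : K.w (K.a e) k = K.lo q k
          · have h7 := h k hk (Or.inl hl)
            rw [hl, abs_of_nonneg (by linarith [hq.1 k])] at h7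
            linarith
          · exact (key k hk).1 hl
        · by_cases hl : K.w (K.a e) k = K.hi q k
          · have h7 := h k hk (Or.inr hl)
            rw [hl, abs_sub_comm, abs_of_nonneg (by linarith [hq.2 k])] at h7
            linarith
          · exact (key k hk).2 hl

/-- points close to a tube box -/
theorem near_TB {e : K.G} (hy : y ∈ G.TB false (.inl e)) (he : K.edge e ⊆ K.cube q)
    (hx : ‖y - x‖ ≤ G.κ q) : x ∈ Ze W e := by
  have h1 := G.κ_uT q e he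
  have h2 := G.uT_lam e
  have h3 := G.lam_T e
  have h4 := B.T_le e
  have h6 := G.uT_pos e
  have ha := G.lam_a e
  have hb := G.lam_b e
  obtain ⟨⟨hy1, hy2⟩, hy3⟩ := Geo.mem_inl.1 hy
  simp only [Bool.false_eq_true, if_false] at hy3
  have h7 : G.lam e + G.κ q ≤ W.ae e x := le_marg (by linarith) fun k hk => by
    have hk' : k = K.dir e := by by_contra h; exact hk (mem_Je.2 h)
    subst hk'
    have h8 := abs_le.1 ((abs_sub_le_norm y x (K.dir e)).trans hx)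
    constructor <;> linarith
  have h9 := G.κ_pos q
  refine ⟨by linarith, fun k hk => ?_⟩
  have h8 := (abs_sub_le_norm y x k).trans hx
  have h10 := abs_sub_le (x k) (y k) (K.w (K.a e) k)
  rw [abs_sub_comm (x k) (y k)] at h10
  linarith [hy3 k hk]

/-- room around the boxes at the edges inside the zones of the collapse -/
theorem room_inl {e : K.G} (hy : y ∈ G.TB false (.inl e)) :
    closedBall y (B.T e / 2) ⊆ B.E e ∨ closedBall y (B.T e / 2) ⊆ Zv W (K.a e) ∨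
      closedBall y (B.T e / 2) ⊆ Zv W (K.b e) := by
  have h3 := G.lam_T e
  have hT := B.T_pos e
  obtain ⟨⟨hy1, hy2⟩, hy3⟩ := Geo.mem_inl.1 hy
  simp only [Bool.false_eq_true, if_false] at hy3
  have hf : foot K e y ∈ K.edge e := foot_mem (by linarith [G.be_pos (K.a e)])
    (by linarith [G.be_pos (K.b e)])
  have key : ∀ y' ∈ closedBall y (B.T e / 2), ∀ k, |y' k - foot K e y k| ≤ 3 / 4 * B.T e := by
    intro y' hy' k
    have h1 := (abs_sub_le_norm y' y k)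
    rw [mem_closedBall, dist_eq_norm] at hy'
    have h2 := abs_sub_le (y' k) (y k) (foot K e y k)
    by_cases hk : k = K.dir e
    · subst hk
      rw [foot_dir] at h2 ⊢
      rw [sub_self, abs_zero] at h2
      linarith
    · rw [foot_ne hk] at h2 ⊢
      linarith [hy3 k hk]
  rcases B.near_edge e hf with h | h | h
  · exact Or.inl fun y' hy' => h y' (key y' hy')
  · exact Or.inr (Or.inl fun y' hy' => h y' (key y' hy'))
  · exact Or.inr (Or.inr fun y' hy' => h y' (key y' hy'))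

/-- room around the boxes at hanging vertices -/
theorem room_inr {b : Hang K} (hy : y ∈ G.TB false (.inr b)) :
    closedBall y (W.wv b.i / 2) ⊆ Zv W b.i := by
  intro y' hy'
  have h1 := Geo.TB_inr_ball b hy
  rw [mem_closedBall] at h1 hy'
  have h2 := G.be_wv b.i
  have h3 := G.be_pos b.i
  show dist y' (K.w b.i) ≤ W.wv b.i
  linarith [dist_triangle y' y (K.w b.i)]

end geo

variable {c₀ n δ : ℝ} {j : ℕ} {Ω Λ : Set V} {v w : V} {ρ : V → ℝ} {M : Mesh Ω} {h : ConHomeo Ω Λ}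
  {J₀ J : Set (ℕ × (Fin 3 → ℤ))} {P Z : Set M.ι} {K : BoxCx Λ w} {x y : V} {q t : K.T}

namespace KIn3

variable (D : KIn3 c₀ n j δ v w ρ M h J₀ J P Z) (C : Cells ρ w K)
include D C

theorem η_κ (q : K.T) : 1 / 2 ^ j / 2 * C.sT q ≤ (D.G C).κ q := by
  have h1 := D.η_le_κ
  have h2 := κ3_pos D.pos
  have h3 := C.sT_pos q
  have h4 : (0:ℝ) < 1 / 2 ^ j := η_pos
  show _ ≤ κ3 n * C.sT q
  exact mul_le_mul_of_nonneg_right (by linarith) h3.le

/-- **protected cells in plates**: they fill the plate above the height `η / 2` -/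
theorem mid_PB {c : ℝ} (hc : 1 / 2 ≤ c) {s : K.S} (hy : y ∈ (D.G C).PB c s) (hq : y ∈ K.cube q) :
    y ∈ H304.mid w (1 / 2 ^ j) (C.fT q) ↔
      1 / 2 ^ j / 2 * C.sT q ≤ |y (K.nrm s) - K.slo s (K.nrm s)| := by
  rw [mem_mid C (D.η_le_one.trans (by norm_num))]
  exact (mid_iff_aux (G := D.G C) (Geo.τ_as_PB hc hy) (Geo.mem_PB.1 hy).2 hq (D.η_κ C q)).1

/-- protected cells in the boxes at hanging vertices -/
theorem mid_TB_inr {b : Hang K} (hy : y ∈ (D.G C).TB false (.inr b)) (hq : y ∈ K.cube q) :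
    y ∈ H304.mid w (1 / 2 ^ j) (C.fT q) ↔
      1 / 2 ^ j / 2 * C.sT q ≤ |y (K.nrm b.s) - K.slo b.s (K.nrm b.s)| := by
  rw [mem_mid C (D.η_le_one.trans (by norm_num))]
  exact (mid_iff_aux (G := D.G C) (Geo.τ_as_TB hy)
    (by rw [Geo.mem_inr] at hy; simpa using hy.2.2) hq (D.η_κ C q)).1

/-- protected cells in the tubes -/
theorem mid_TB_inl {e : K.G} (hy : y ∈ (D.G C).TB false (.inl e)) (hq : y ∈ K.cube q) :
    y ∈ H304.mid w (1 / 2 ^ j) (C.fT q) ↔
      ∀ k, k ≠ K.dir e → (K.w (K.a e) k = K.lo q k ∨ K.w (K.a e) k = K.hi q k) →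
        1 / 2 ^ j / 2 * C.sT q ≤ |y k - K.w (K.a e) k| := by
  rw [mem_mid C (D.η_le_one.trans (by norm_num))]
  exact (mid_iff_inl (G := D.G C) hy hq (D.η_κ C q)).1

/-- the tiles which touch a processed tile -/
theorem nbr (ht : t ∈ pT C J₀) (hq : (K.cube t ∩ K.cube q).Nonempty) :
    C.fT q ∈ J ∨ C.sT q = C.sT t := by
  rw [C.cube_eq, C.cube_eq] at hq
  refine (D.inp.nbr _ ht _ (C.tile q) hq).imp_right fun h => ?_
  show 1 / 2 ^ (C.fT q).1 = 1 / 2 ^ (C.fT t).1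
  rw [h]

/-- the tile of a point of a cell which is not protected: the point is in the shell -/
theorem shell_of_not {i : M.ι} (hi : i ∉ P) (hJ : C.fT q ∈ J) {x : V} (hx : x ∈ M.Q i) :
    ∃ k, h.toFun x k ≤ K.lo q k + 1 / 2 ^ j / 2 * C.sT q ∨
      K.hi q k - 1 / 2 ^ j / 2 * C.sT q ≤ h.toFun x k := by
  by_contra hcon
  push Not at hcon
  exact D.not_int_mid C hi hJ hx hcon

/-- in the full case a cell which is not drawn is far from the processed tiles -/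
theorem far {i : M.ι} (hi : i ∉ P) (hZ : i ∉ Zmax M w h.toFun J₀ P (2 / 2 ^ j)) {x : V}
    (hx : x ∈ M.Q i) (ht : t ∈ pT C J₀) : h.toFun x ∉ Nb w {C.fT t} (1 / 2 ^ j) := by
  intro hN
  refine hZ (D.mem_Zmax C ?_ hi hx ((D.mem_Nb C).2 ?_))
  · have h1 := D.η_le_κ
    have h2 := D.κ_le_c₀
    have h3 := D.c₀_pos
    have h4 : (2:ℝ) / 2 ^ j = 2 * (1 / 2 ^ j) := by ring
    linarith
  · obtain ⟨z, hz, hxz⟩ := (mem_Nb_one C).1 hN
    refine ⟨t, ht, z, hz, hxz.trans (mul_le_mul_of_nonneg_right ?_ (C.sT_pos t).le)⟩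
    have h1 := D.δle
    have h2 := D.δpos
    have h4 : (2:ℝ) / 2 ^ j = 2 * (1 / 2 ^ j) := by ring
    linarith

/-- height of a point of a plate in the full case -/
theorem full_height {s : K.S} {i : M.ι} (F : Full C J₀ J) (hs : s ∈ pS C J₀) (hi : i ∉ P)
    (hx : x ∈ M.Q i) (h1 : (D.B C).τ s ≤ (D.W C).as s (h.toFun x))
    (h2 : |h.toFun x (K.nrm s) - K.slo s (K.nrm s)| ≤ (D.B C).τ s) :
    ∃ t ∈ pT C J₀, h.toFun x ∈ Nb w {C.fT t} (1 / 2 ^ j) := by
  have hZs : h.toFun x ∈ Zs (D.W C) s := ⟨((D.B C).τ_pos s).trans_le h1, h2.trans h1⟩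
  have hΛ : h.toFun x ∈ Λ := h.mapsTo (M.sub i hx)
  obtain ⟨q, hq⟩ := K.cover _ hΛ
  change h.toFun x ∈ K.cube q at hq
  obtain ⟨hqs, -, -⟩ := pos_aux (G := D.G C) h1 h2 hq
  have h3 : |h.toFun x (K.nrm s) - K.slo s (K.nrm s)| ≤ 1 / 2 ^ j / 2 * C.sT q := by
    by_contra hcon
    push Not at hcon
    exact D.not_int_mid C hi (F.sq hs hqs) hx
      ((mid_iff_aux (G := D.G C) h1 h2 hq (D.η_κ C q)).2.2 hcon)
  obtain ⟨t, ht, hts⟩ := exists_of_pS hs
  refine ⟨t, ht, (mem_Nb_one C).2 ⟨hat K s (h.toFun x),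
    sq_frontier hts (sqo_subset_sq s (hat_mem (Zs_subset hZs))), ?_⟩⟩
  have h4 := sT_touch C D.hρ (sq_sub_of hqs (slo_mem s)) (sq_sub_of hts (slo_mem s))
  have h5 : (0:ℝ) < 1 / 2 ^ j := η_pos
  have h6 : 1 / 2 ^ j / 2 * C.sT q ≤ 1 / 2 ^ j * C.sT t := by nlinarith
  rw [pi_norm_le_iff_of_nonneg (le_trans (abs_nonneg _) (h3.trans h6))]
  intro k
  rw [Pi.sub_apply, Real.norm_eq_abs]
  by_cases hk : k = K.nrm s
  · subst hk
    rw [hat_nrm]
    exact h3.trans h6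
  · rw [hat_ne hk, sub_self, abs_zero]
    exact le_trans (abs_nonneg _) (h3.trans h6)

/-- **(f) full case: passive cells are off the processed plates** -/
theorem off_PB (F : Full C J₀ J) {i : M.ι} (hi : i ∉ P)
    (hZ : i ∉ Zmax M w h.toFun J₀ P (2 / 2 ^ j)) {s : K.S} (hs : s ∈ pS C J₀) {c : ℝ}
    (hc : 1 / 2 ≤ c) {x : V} (hx : x ∈ M.Q i) : h.toFun x ∉ (D.G C).PB c s := by
  intro hy
  obtain ⟨t, ht, h1⟩ := D.full_height C F hs hi hx (Geo.τ_as_PB hc hy) (Geo.mem_PB.1 hy).2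
  exact D.far C hi hZ hx ht h1

/-- full case: passive cells are off the processed boxes at hanging vertices -/
theorem off_TB_inr (F : Full C J₀ J) {i : M.ι} (hi : i ∉ P)
    (hZ : i ∉ Zmax M w h.toFun J₀ P (2 / 2 ^ j)) {b : Hang K} (hs : b.s ∈ pS C J₀) {x : V}
    (hx : x ∈ M.Q i) : h.toFun x ∉ (D.G C).TB false (.inr b) := by
  intro hy
  obtain ⟨t, ht, h1⟩ := D.full_height C F hs hi hx (Geo.τ_as_TB hy)
    (by rw [Geo.mem_inr] at hy; simpa using hy.2.2)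
  exact D.far C hi hZ hx ht h1

/-- **(f) full case: a passive cell in a processed tube is close to an unprocessed plate** -/
theorem rim_TB (F : Full C J₀ J) {i : M.ι} (hi : i ∉ P)
    (hZ : i ∉ Zmax M w h.toFun J₀ P (2 / 2 ^ j)) {e : K.G} (he : e ∈ pG C J₀) {x : V}
    (hx : x ∈ M.Q i) (hy : h.toFun x ∈ (D.G C).TB false (.inl e)) (hq : h.toFun x ∈ K.cube q) :
    q ∉ pT C J₀ ∧ C.fT q ∈ J ∧ ∃ s ∈ rim C J₀, K.edge e ⊆ K.sq s ∧ (q = K.sm s ∨ q = K.sp s) ∧
      |h.toFun x (K.nrm s) - K.slo s (K.nrm s)| ≤ 1 / 2 ^ j / 2 * C.sT q := by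
  have heq := Geo.tile_TB_inl hy hq
  have hJ := F.edge he heq
  have hp : (0:ℝ) < 1 / 2 ^ j := η_pos
  have hTq := C.sT_pos q
  obtain ⟨z, hz, hxz⟩ := Boxes.exists_frontier_near (by positivity) hq (D.shell_of_not C hi hJ hx)
  -- a processed tile with `z` in its frontier is impossible
  have key : ∀ t ∈ pT C J₀, z ∈ frontier (K.cube t) → False := by
    intro t ht hzt
    refine D.far C hi hZ hx ht ((mem_Nb_one C).2 ⟨z, hzt, hxz.trans ?_⟩)
    have h1 := sT_touch C D.hρ (isClosed_Icc.frontier_subset hz) (isClosed_Icc.frontier_subset hzt)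
    nlinarith
  have hκ : ‖h.toFun x - z‖ ≤ (D.G C).κ q := hxz.trans (D.η_κ C q)
  have hZe := near_TB hy heq hκ
  have hse := Ze_subset hZe
  have hin := inTube_of_se hse
  -- `z` is on no edge
  have hne : ∀ e', z ∉ K.edge e' := by
    intro e' he'
    by_cases hee : e' = e
    · subst hee
      obtain ⟨t, ht, hte⟩ := he
      exact key t ht (edge_frontier hte he')
    · exact edge_notMem_se hee he' hse
  obtain ⟨hzq, k, hk⟩ := TM.mem_frontier_Icc3.1 hz
  obtain ⟨s, hs, hzn, hzt⟩ := K.face_cover q z hzq ⟨k, hk⟩ hne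
  have hzo : z ∈ K.sqo s := ⟨hzn, hzt⟩
  have hnot : s ∉ pS C J₀ := by
    intro hs'
    obtain ⟨t, ht, hts⟩ := exists_of_pS hs'
    exact key t ht (sq_frontier hts (sqo_subset_sq s hzo))
  have hes : K.edge e ⊆ K.sq s := by
    have hpos : 0 < (D.W C).as s z := by
      obtain ⟨r, hr, hr'⟩ : ∃ r > 0, r ≤ (D.W C).ws s ∧ ∀ k, k ≠ K.nrm s →
          4 * r ≤ z k - K.slo s k ∧ 4 * r ≤ K.shi s k - z k := by
        have hfin : ∀ k : Fin 3, ∃ r > 0, k ≠ K.nrm s →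
            4 * r ≤ z k - K.slo s k ∧ 4 * r ≤ K.shi s k - z k := by
          intro k
          by_cases hk : k = K.nrm s
          · exact ⟨1, one_pos, fun h => absurd hk h⟩
          · obtain ⟨h1, h2⟩ := hzt k hk
            refine ⟨min (z k - K.slo s k) (K.shi s k - z k) / 4,
              div_pos (lt_min (by linarith) (by linarith)) (by norm_num), fun _ => ?_⟩
            have h3 := min_le_left (z k - K.slo s k) (K.shi s k - z k)
            have h4 := min_le_right (z k - K.slo s k) (K.shi s k - z k)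
            constructor <;> linarith
        choose r hr hr' using hfin
        refine ⟨min ((D.W C).ws s) (min (r 0) (min (r 1) (r 2))),
          lt_min ((D.W C).ws_pos s) (lt_min (hr 0) (lt_min (hr 1) (hr 2))),
          min_le_left _ _, fun k hk => ?_⟩
        have h3 := hr' k hk
        have h4 : min ((D.W C).ws s) (min (r 0) (min (r 1) (r 2))) ≤ r k := by
          refine (min_le_right _ _).trans ?_
          fin_cases k
          · exact min_le_left _ _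
          · exact (min_le_right _ _).trans (min_le_left _ _)
          · exact (min_le_right _ _).trans (min_le_right _ _)
        constructor <;> linarith
      exact hr.trans_le (le_marg hr'.1 fun k hk => hr'.2 k (by simpa using hk))
    refine edge_subset_sq (W := D.W C) (y := z) ?_ hZe.1 (Ze_nJ hZe)
    refine Zs_subset ⟨hpos, ?_⟩
    rw [hzn, sub_self, abs_zero]
    exact hpos.le
  refine ⟨fun hqt => key q hqt hz, hJ, s, ⟨hnot, e, he, hes⟩, hes, hs, ?_⟩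
  rw [← hzn]
  exact (abs_sub_le_norm _ _ _).trans hxz

/-! ### the soft collapse -/

/-- the numbers of the soft collapse -/
theorem softN : SoftN (D.B C) (1 / μN n) := by
  have hμ := μN_pos D.pos
  have hA := A3_pos D.pos
  have hT : ∀ e, 1 / μN n * (D.B C).T e = A3 n / 16 * C.sG e := by
    intro e
    show 1 / μN n * (c3 n / 32 * C.sG e) = _
    rw [c3_A3]
    field_simp
    ring
  refine ⟨?_, fun e => ?_, fun e => ?_, fun e => ?_, fun i => ?_⟩
  · rw [le_div_iff₀ hμ]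
    have := D.nle
    have := D.le
    unfold μN
    linarith
  · rw [hT]
    have h1 := (C.sW_sG D.hρ (TM.wa_mem K e)).2
    show _ ≤ A3 n * C.sW (K.a e) / 4
    nlinarith
  · rw [hT]
    have h1 := (C.sW_sG D.hρ (TM.wb_mem K e)).2
    show _ ≤ A3 n * C.sW (K.b e) / 4
    nlinarith
  · rw [hT]
    have h1 := A3_le D.pos D.lt
    have h2 := C.sG_pos e
    show _ ≤ C.sG e / 128
    nlinarith
  · have e1 : 1 / μN n * (D.W C).wv i = n / 128 * C.sW i := by
      show 1 / μN n * (A3 n * C.sW i) = _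
      rw [A3_eq]
      field_simp
    rw [e1]
    have h1 := D.lt
    have h2 := C.sW_pos i
    show _ ≤ C.sW i / 128
    nlinarith

/-- the supports of the soft collapse at the edges -/
theorem supp_KE {e : K.G} (hy : y ∈ KE (D.B C) (1 / μN n) e) (he : K.edge e ⊆ K.cube t) :
    y ∈ Nb w {C.fT t} (c₀ / 2) := by
  have hS := D.softN C
  have hTp := (D.B C).T_pos e
  have hwa := (D.W C).wv_pos (K.a e)
  have hwb := (D.W C).wv_pos (K.b e)
  obtain ⟨⟨h1, h2⟩, h3⟩ := mem_cor_add.1 hy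
  have ha := hS.T_a e
  have hb := hS.T_b e
  have hA := A3_pos D.pos
  have hT : (D.B C).T e + 1 / μN n * (D.B C).T e ≤ c₀ / 2 * C.sT t := by
    have hμ := μN_pos D.pos
    have e1 : 1 / μN n * (D.B C).T e = A3 n / 16 * C.sG e := by
      show 1 / μN n * (c3 n / 32 * C.sG e) = _
      rw [c3_A3]
      field_simp
      ring
    have e2 : (D.B C).T e = c3 n / 32 * C.sG e := rfl
    have h4 := c3_A D.pos D.lt
    have h5 := C.sG_pos e
    have h6 := (C.sG_sT D.hρ he).1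
    rw [e1, e2]
    have h7 : c3 n / 32 * C.sG e + A3 n / 16 * C.sG e ≤ A3 n * C.sG e := by nlinarith
    have h8 : A3 n * C.sG e ≤ A3 n * C.sT t := mul_le_mul_of_nonneg_left h6 hA.le
    have h9 : A3 n * C.sT t ≤ c₀ / 2 * C.sT t :=
      mul_le_mul_of_nonneg_right (by linarith [D.A_le_c₀, D.c₀_pos]) (C.sT_pos t).le
    linarith
  refine (mem_Nb_one C).2 ⟨foot K e y, edge_frontier he (foot_mem (by linarith) (by linarith)), ?_⟩
  have h0 : 0 ≤ c₀ / 2 * C.sT t := by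
    have := C.sT_pos t
    have := D.c₀_pos
    positivity
  rw [pi_norm_le_iff_of_nonneg h0]
  intro k
  rw [Pi.sub_apply, Real.norm_eq_abs]
  by_cases hk : k = K.dir e
  · subst hk
    rw [foot_dir, sub_self, abs_zero]
    exact h0
  · rw [foot_ne hk]
    exact (h3 k hk).trans hT

/-- the supports of the soft collapse at the vertices -/
theorem supp_ball {i : K.W} (hy : y ∈ closedBall (K.w i) ((D.W C).wv i + 1 / μN n * (D.W C).wv i))
    (hi : K.w i ∈ K.cube t) : y ∈ Nb w {C.fT t} (c₀ / 2) := by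
  refine (mem_Nb_one C).2 ⟨K.w i, w_frontier hi, ?_⟩
  rw [mem_closedBall, dist_eq_norm] at hy
  refine hy.trans ?_
  have e1 : 1 / μN n * (D.W C).wv i = n / 128 * C.sW i := by
    have hμ := μN_pos D.pos
    show 1 / μN n * (A3 n * C.sW i) = _
    rw [A3_eq]
    field_simp
  have e2 : (D.W C).wv i = A3 n * C.sW i := rfl
  rw [e1, e2]
  have h1 := D.A_le_c₀
  have h2 := D.nle
  have h3 := C.sW_pos i
  have h4 := (C.sW_sT D.hρ hi).1
  have h5 := D.c₀_pos
  have h6 : A3 n * C.sW i + n / 128 * C.sW i ≤ c₀ / 2 * C.sW i := by nlinarith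
  exact h6.trans (mul_le_mul_of_nonneg_left h4 (by positivity))

/-- **the supports of the soft collapse of the processed squares, edges and vertices** -/
theorem supp_soft : (∀ s ∈ pS C J₀, (D.W C).ss s ⊆ Nb w J₀ c₀) ∧
    (∀ e ∈ pG C J₀, KE (D.B C) (1 / μN n) e ⊆ Nb w J₀ c₀) ∧
    ∀ i ∈ pW C J₀, closedBall (K.w i) ((D.W C).wv i + 1 / μN n * (D.W C).wv i) ⊆
      Nb w J₀ c₀ := by
  have hc : c₀ / 2 ≤ c₀ := by linarith [D.c₀_pos]
  refine ⟨(D.supp C).1, fun e he y hy => ?_, fun i hi y hy => ?_⟩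
  · obtain ⟨q, hq, hqs⟩ := he
    exact H304.Nb.mono hc (mem_Nb_of C hq (D.supp_KE C hy hqs))
  · obtain ⟨q, hq, hqs⟩ := hi
    exact H304.Nb.mono hc (mem_Nb_of C hq (D.supp_ball C hy hqs))

/-! ### deep sets -/

/-- deep edges -/
theorem deep_tube {m : ℕ} {z : Fin 3 → ℤ} {Q : Set V} {l : Fin 3}
    (H : H239.Deep c₀ δ w ρ J₀ {l} m z Q) :
    ∃ e : K.G, K.dir e = l ∧ C.sG e = 1 / 2 ^ m ∧ (∀ j, K.w (K.a e) j = w j + z j / 2 ^ m) ∧
      K.w (K.b e) l = w l + (z l + 1) / 2 ^ m ∧ e ∈ pG C J₀ ∧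
      ∀ y ∈ Q,
        closedBall y (κ3 n / 2 ^ m) ⊆ (D.G C).TB true (.inl e) ∧
        closedBall y (κ3 n / 2 ^ m) ⊆ (D.B C).E e ∧
        (∀ y' ∈ closedBall y (κ3 n / 2 ^ m), ∀ s, y' ∉ (D.G C).PB (1 / 2) s) ∧
        (∀ y' ∈ closedBall y (κ3 n / 2 ^ m), ∀ b : TBx K, b ≠ .inl e →
          y' ∉ (D.G C).TB false b) ∧
        ∀ y' ∈ closedBall y (κ3 n / 2 ^ m), K.w (K.a e) l + 2 * (A3 n * C.sW (K.a e)) ≤ y' l ∧
          y' l ≤ K.w (K.b e) l - 2 * (A3 n * C.sW (K.b e)) := by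
  have hδ : δ ≤ κ3 n := by
    have h1 := D.δ_le
    have h2 := δ3_κ D.pos
    linarith [D.δpos]
  obtain ⟨e, h1, h2, h3, h4, h5⟩ := Deep.tube C D.hρ (c3_pos D.pos) (c3_A D.pos D.lt)
    (A3_le D.pos D.lt) (κ3_eq D.pos D.lt) (o3_pos D.pos) o3_eq
    (by linarith [D.A_le_c₀, D.c₀_pos]) hδ H
  refine ⟨e, h1, h2, h3, h4, ?_, h5⟩
  have hz : (m, z) ∈ J₀ := H.act z (fun _ _ => rfl) fun _ _ => Or.inl rfl
  obtain ⟨q, hq⟩ := C.onT m z (D.tile _ hz)
  refine ⟨q, by show C.fT q ∈ J₀; rw [hq]; exact hz, ?_⟩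
  rw [C.cube_eq, hq]
  intro x hx k
  have hm : (0:ℝ) < 1 / 2 ^ m := by positivity
  have e1 : (z k + 1 : ℝ) / 2 ^ m = z k / 2 ^ m + 1 / 2 ^ m := by ring
  show w k + z k / 2 ^ m ≤ x k ∧ x k ≤ w k + (z k + 1) / 2 ^ m
  by_cases hk : k = l
  · subst hk
    have h6 := hx.1 k
    have h7 := hx.2 k
    rw [h3] at h6
    rw [h4] at h7
    exact ⟨h6, h7⟩
  · rw [edge_coord hx (by rw [h1]; exact hk), h3, e1]
    constructor <;> linarith

/-- deep plates -/
theorem deep_plate {m : ℕ} {z : Fin 3 → ℤ} {Q : Set V} {l : Fin 3}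
    (H : H239.Deep c₀ δ w ρ J₀ (Finset.univ.erase l) m z Q) :
    ∃ s : K.S, K.nrm s = l ∧ C.sS s = 1 / 2 ^ m ∧ (∀ j, K.slo s j = w j + z j / 2 ^ m) ∧
      (∀ j, j ≠ l → K.shi s j = w j + (z j + 1) / 2 ^ m) ∧ s ∈ pS C J₀ ∧
      ∀ y ∈ Q,
        closedBall y (κ3 n / 2 ^ m) ⊆ (D.B C).P s ∧
        closedBall y (κ3 n / 2 ^ m) ⊆ (D.G C).PB 2 s ∧
        (∀ y' ∈ closedBall y (κ3 n / 2 ^ m), ∀ s', s' ≠ s → y' ∉ (D.G C).PB (1 / 2) s') ∧
        (∀ y' ∈ closedBall y (κ3 n / 2 ^ m), ∀ b : TBx K, y' ∉ (D.G C).TB false b) ∧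
        ∀ y' ∈ closedBall y (κ3 n / 2 ^ m), ∀ k, k ≠ l →
          K.slo s k + 7 * (c3 n * (1 / 2 ^ m)) ≤ y' k ∧
          y' k ≤ K.shi s k - 7 * (c3 n * (1 / 2 ^ m)) := by
  have hδ : δ ≤ κ3 n := by
    have h1 := D.δ_le
    have h2 := δ3_κ D.pos
    linarith [D.δpos]
  obtain ⟨s, h1, h2, h3, h4, h5⟩ := Deep.plate C D.hρ (c3_pos D.pos) (c3_A D.pos D.lt)
    (A3_le D.pos D.lt) (κ3_eq D.pos D.lt) (o3_pos D.pos) o3_eq
    (by linarith [D.A_le_c₀, D.c₀_pos]) hδ H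
  refine ⟨s, h1, h2, h3, h4, ?_, h5⟩
  have hz : (m, z) ∈ J₀ := H.act z (fun _ _ => rfl) fun _ _ => Or.inl rfl
  obtain ⟨q, hq⟩ := C.onT m z (D.tile _ hz)
  -- the centre of the square is in this tile
  have hm : (0:ℝ) < 1 / 2 ^ m := by positivity
  set x : V := fun k => if k = l then K.slo s k else K.slo s k + 1 / 2 * (1 / 2 ^ m) with hx
  have hxq : x ∈ K.cube q := by
    rw [C.cube_eq, hq]
    intro k
    have e1 : (z k + 1 : ℝ) / 2 ^ m = z k / 2 ^ m + 1 / 2 ^ m := by ring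
    show w k + z k / 2 ^ m ≤ x k ∧ x k ≤ w k + (z k + 1) / 2 ^ m
    rw [e1, hx]
    by_cases hk : k = l
    · simp only [if_pos hk]; rw [h3]; constructor <;> linarith
    · simp only [if_neg hk]; rw [h3]; constructor <;> linarith
  have hqs : q = K.sm s ∨ q = K.sp s := by
    refine K.sqo_tile s q x ?_ (fun k hk => ?_) hxq
    · rw [hx]; simp only [h1, if_true]
    · rw [h1] at hk
      have e1 : (z k + 1 : ℝ) / 2 ^ m = z k / 2 ^ m + 1 / 2 ^ m := by ring
      rw [h4 k hk, e1, hx]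
      simp only [if_neg hk]
      rw [h3]
      constructor <;> linarith
  exact mem_pS (by show C.fT q ∈ J₀; rw [hq]; exact hz) hqs

end KIn3

/-- **`K3C` from the statement with the numbers** -/
theorem k3c_of {p : ℝ} (H : ∃ D > 0, ∀ μ > 0, ∃ D' ≥ D, ∃ r > 0, ∀ c₀ : ℝ, 0 < c₀ → c₀ ≤ 1 / 64 →
    ∃ n : ℝ, 0 < n ∧ n ≤ c₀ ∧ ∃ j : ℕ, 1 / 2 ^ j ≤ δ3 n ∧ ∃ δ > 0, 4096 * δ ≤ 1 / 2 ^ j ∧
    ∃ m : ℝ, 0 < m ∧ m ≤ c₀ ∧
    ∀ (Ω Λ : Set V) (v w : V) (ρ : V → ℝ) (M : Mesh Ω) (h : ConHomeo Ω Λ)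
      (J₀ J : Set (ℕ × (Fin 3 → ℤ))) (P Z : Set M.ι), KIn3 c₀ n j δ v w ρ M h J₀ J P Z →
      ∀ (K : BoxCx Λ w) (_ : Cells ρ w K) (Y : Set M.κ) (ε : M.κ → ℝ), (∀ k, 0 < ε k) →
      ∀ b : Bool, ∃ g : ConHomeo Ω Λ,
        H304.OutB p D D' (1 / 2 ^ j) c₀ m w ρ M h.toFun J₀ J P Z Y ε g ∧
        (b = true → H212.SharpOut3 p D c₀ δ μ r w ρ M h.toFun J₀ Y ε g) ∧
        (b = false → J = J₀ → (∀ t ∈ J₀, ∀ t' ∈ J₀, t'.1 = t.1) → Y = ∅ →
          H304.OscOut D D' c₀ w M h.toFun J₀ P Z Y g.toFun)) : H304.K3C p := by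
  obtain ⟨D, hD, H⟩ := H
  refine ⟨D, hD, fun μ hμ => ?_⟩
  obtain ⟨D', hD', r, hr, H⟩ := H μ hμ
  refine ⟨D', hD', r, hr, fun c₀ h0 h1 => ?_⟩
  obtain ⟨n, hn, hnc, j, hj, δ, hδ, hδj, m, hm, hmc, H⟩ := H c₀ h0 h1
  have hn4 : n < 1 / 4 := by linarith
  refine ⟨j, ?_, δ, hδ, m, hm, hmc, fun Ω Λ hΩ hΛ v w ρ hρ M h J₀ J P Z hin Y ε hε b => ?_⟩
  · have h2 := δ3_κ hn
    have h3 := κ3_le hn hn4
    linarith
  · obtain ⟨K, ⟨C⟩⟩ := exists_cells hρ w
    exact H Ω Λ v w ρ M h J₀ J P Z ⟨hn, hnc, h1, hj, hδ, hδj, hΩ, hΛ, hρ, hin.toW⟩ K C Y ε hε b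

end Vale.Agent.P073.H926
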