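import Vale.Agent.P073.H926.RefB
import Vale.Agent.P073.H399.RTh

/-!
# P073, H926: **[REFIN]**: the refined mesh is an input of `K3C`

* `InW.ref`: the pieces of faces off the shells which touch no protected cell give an input;
* `refInT`: **[REFIN]**, `P073.H399.RefInT` for all inputs.
-/

set_option linter.unusedSectionVars false

open Set Metric Topology Filter

namespace Vale.Agent.P073.H926

open _root_.P073 _root_.P073.Net _root_.P073.PA691 _root_.P073.TM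
open Vale.Agent.P073.St (V)
open Vale.Agent.P073.H471 Vale.Agent.P073.H267
open Vale.Agent.P073.H73 (Mesh)
open Vale.Agent.P073.H304 (Nb InW Zmax)

/-- **the refined mesh is an input** -/
theorem inW_ref {Ω Λ : Set V} {η δ c₀ : ℝ} {v w : V} {ρ : V → ℝ} {M : Mesh Ω} {h : V → V}
    {J₀ J : Set (ℕ × (Fin 3 → ℤ))} {P Z : Set M.ι}
    (H : InW (Λ := Λ) η δ c₀ v w ρ M h J₀ J P Z) {Pc : _root_.P073.H399.Pieces M} {𝒲 : Set M.κ}
    (htriv : Pc.Triv 𝒲)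
    (h𝒲 : ∀ k ∈ 𝒲, (∀ i ∈ P, Disjoint (M.F k) (M.Q i)) ∧
      ∀ i, M.F k ⊆ M.Q i → ¬ h '' M.Q i ⊆ Nb w J₀ (2 * η)) :
    InW (Λ := Λ) η δ c₀ v w ρ Pc.mesh h J₀ J P Z where
  tile := H.tile
  sub := H.sub
  nbr := H.nbr
  prot := H.prot
  surj := H.surj
  cube := H.cube
  small := H.small
  drawn := H.drawn
  face := by
    rintro ⟨k, t⟩ hne hor
    by_cases hk : k ∈ 𝒲
    · exfalso
      obtain ⟨h1, h2⟩ := h𝒲 k hk
      rcases hor with ⟨i, hi, x, hx, hxi⟩ | ⟨i, hi, hN⟩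
      · exact Set.disjoint_left.1 (h1 i hi) (Pc.sub k t hx) hxi
      · exact h2 i ((Pc.sub_Q_iff t).1 hi) hN
    · have e : Pc.A k t = M.F k := htriv k hk t
      rw [_root_.P073.H399.Pieces.mesh_F] at hne hor ⊢
      simp only [e] at hne hor ⊢
      exact H.face k hne hor

/-- **[REFIN]** -/
theorem refInT {c₀ n δ : ℝ} {j : ℕ} {Ω Λ : Set V} {v w : V} {ρ : V → ℝ} {M : Mesh Ω}
    {h : ConHomeo Ω Λ} {J₀ : Set (ℕ × (Fin 3 → ℤ))} {P Z : Set M.ι} {K : BoxCx Λ w}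
    (D : KIn3 c₀ n j δ v w ρ M h J₀ J₀ P Z) (C : Cells ρ w K) :
    _root_.P073.H399.RefInT D C := by
  intro _ β hβ
  obtain ⟨Pc, X, sg, HF, HW, HN⟩ := D.exists_refB C hβ
  exact ⟨Pc, D.Wf C, X, sg, HF, HW,
    ⟨D.pos, D.nle, D.le, D.jle, D.δpos, D.δle, D.bΩ, D.bΛ, D.hρ,
      inW_ref D.inp HF.triv fun k hk => D.wf_not C hk⟩, HN⟩

end Vale.Agent.P073.H926
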