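import Vale.Agent.P073.H345.Wild
import Vale.Agent.P073.PA260.Collar

/-!
# P073, H926: [CUT], conical cut-off functions on a coordinate plane

`K₁`, `K₂` are compact subsets of the plane `{y i = a}` which meet in finitely many points only.
There is a conical function `χ`, independent of the coordinate `i`, which is `1` near `K₁`, and `0`
near `K₂` except near the common points, where it is the standard cut-off.
-/

open Set Metric Topology Filter

namespace P073.H926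

open P073 P073.H345

variable {n : ℕ}

/-- projection to the plane `{y i = a}` -/
noncomputable def pr (i : Fin n) (a : ℝ) (y : Fin n → ℝ) : Fin n → ℝ := Function.update y i a

/-- standard cut-off: `1` at distance `≤ ρ`, `0` at distance `≥ 2 ρ` -/
noncomputable def cut (ρ : ℝ) (p y : Fin n → ℝ) : ℝ := max 0 (min 1 (2 - ‖y - p‖ / ρ))

variable {i : Fin n} {a ρ : ℝ} {p y : Fin n → ℝ}

theorem pr_update (i : Fin n) (a : ℝ) (y : Fin n → ℝ) (t : ℝ) :
    pr i a (Function.update y i t) = pr i a y := Function.update_idem _ _ _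

theorem pr_self (i : Fin n) (a : ℝ) (y : Fin n → ℝ) : pr i a y i = a := Function.update_self _ _ _

theorem pr_ne {j : Fin n} (hj : j ≠ i) (a : ℝ) (y : Fin n → ℝ) : pr i a y j = y j :=
  Function.update_of_ne hj _ _

theorem pr_eq (h : y i = a) : pr i a y = y := by rw [pr, ← h, Function.update_eq_self]

theorem pr_cc (i : Fin n) (a : ℝ) : CC (pr i a) (univ : Set (Fin n → ℝ)) := by
  have hU : ConicalSet (univ : Set (Fin n → ℝ)) := IsOpen.conicalSet isOpen_univ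
  refine CC.pi hU fun j => ?_
  by_cases hj : j = i
  · subst hj
    exact (CC.const a hU).congr fun y _ => pr_self _ _ _
  · refine CC.congr (f := fun y : Fin n → ℝ => y j) ⟨(continuous_apply j).continuousOn,
      conicalOn_coord hU j⟩ fun y _ => pr_ne hj _ _

theorem cut_nonneg (ρ : ℝ) (p y : Fin n → ℝ) : 0 ≤ cut ρ p y := le_max_left _ _

theorem cut_le_one (ρ : ℝ) (p y : Fin n → ℝ) : cut ρ p y ≤ 1 :=
  max_le zero_le_one (min_le_left _ _)

theorem cut_one (hρ : 0 < ρ) (h : ‖y - p‖ ≤ ρ) : cut ρ p y = 1 := by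
  have h1 : ‖y - p‖ / ρ ≤ 1 := (div_le_one hρ).2 h
  rw [cut, min_eq_left (by linarith), max_eq_right zero_le_one]

theorem cut_zero (hρ : 0 < ρ) (h : 2 * ρ ≤ ‖y - p‖) : cut ρ p y = 0 := by
  have h1 : 2 ≤ ‖y - p‖ / ρ := (le_div_iff₀ hρ).2 h
  rw [cut, max_eq_left]
  exact (min_le_right _ _).trans (by linarith)

theorem cut_cc (i : Fin n) (a ρ : ℝ) (p : Fin n → ℝ) :
    CC (fun y => cut ρ p (pr i a y)) univ := by
  have hU : ConicalSet (univ : Set (Fin n → ℝ)) := IsOpen.conicalSet isOpen_univ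
  have h1 : CC (fun y => pr i a y - p) univ := (pr_cc i a).sub (CC.const p hU)
  have h2 : CC (fun y => ‖pr i a y - p‖) univ :=
    ⟨h1.cont.norm, (conicalOn_norm_pi n hU).comp h1.con (mapsTo_univ _ _) h1.cont⟩
  exact (CC.const 0 hU).max ((CC.const 1 hU).min ((CC.const 2 hU).sub (h2.div_right ρ)))

/-- the maximum of finitely many functions -/
theorem exists_fmax {τ : Type*} (T : Finset τ) (f : τ → (Fin n → ℝ) → ℝ)
    (hf : ∀ t ∈ T, CC (f t) univ) :
    ∃ χ : (Fin n → ℝ) → ℝ, CC χ univ ∧ (∀ y, 0 ≤ χ y) ∧ (∀ y, ∀ t ∈ T, f t y ≤ χ y) ∧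
      (∀ y, χ y = 0 ∨ ∃ t ∈ T, χ y = f t y) ∧
      ∀ y y', (∀ t ∈ T, f t y = f t y') → χ y = χ y' := by
  classical
  have hU : ConicalSet (univ : Set (Fin n → ℝ)) := IsOpen.conicalSet isOpen_univ
  induction T using Finset.induction_on with
  | empty =>
    exact ⟨fun _ => 0, CC.const 0 hU, fun _ => le_rfl, fun y t ht => absurd ht (by simp),
      fun _ => Or.inl rfl, fun _ _ _ => rfl⟩
  | insert t T ht ih =>
    obtain ⟨χ, h1, h2, h3, h4, h5⟩ := ih fun s hs => hf s (Finset.mem_insert_of_mem hs)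
    refine ⟨fun y => max (f t y) (χ y), (hf t (Finset.mem_insert_self _ _)).max h1,
      fun y => (h2 y).trans (le_max_right _ _), ?_, ?_, ?_⟩
    · intro y s hs
      rcases Finset.mem_insert.1 hs with rfl | hs
      · exact le_max_left _ _
      · exact (h3 y s hs).trans (le_max_right _ _)
    · intro y
      rcases le_total (f t y) (χ y) with h | h
      · rcases h4 y with h6 | ⟨s, hs, h6⟩
        · left; exact (max_eq_right h).trans h6
        · right; exact ⟨s, Finset.mem_insert_of_mem hs, (max_eq_right h).trans h6⟩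
      · right; exact ⟨t, Finset.mem_insert_self _ _, max_eq_left h⟩
    · intro y y' h
      simp only
      rw [h t (Finset.mem_insert_self _ _), h5 y y' fun s hs => h s (Finset.mem_insert_of_mem hs)]

/-- points of a finite set are separated -/
theorem exists_sep {E : Type*} [NormedAddCommGroup E] (T : Finset E) :
    ∃ ρ : ℝ, 0 < ρ ∧ ∀ p ∈ T, ∀ q ∈ T, p ≠ q → ρ ≤ ‖p - q‖ := by
  obtain ⟨c, hc, h⟩ := exists_pos_le (J := {u : T × T // u.1 ≠ u.2})
    (fun u => ‖(u.1.1 : E) - u.1.2‖) fun u => norm_pos_iff.2 (sub_ne_zero.2 fun h =>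
      u.2 (Subtype.ext h))
  exact ⟨c, hc, fun p hp q hq hne => h ⟨(⟨p, hp⟩, ⟨q, hq⟩), fun h => hne (Subtype.ext_iff.1 h)⟩⟩

/-- the properties of the cut-off function `χ` -/
structure IsCut (i : Fin n) (a : ℝ) (K₁ K₂ : Set (Fin n → ℝ)) (T : Finset (Fin n → ℝ)) (ρ r : ℝ)
    (χ : (Fin n → ℝ) → ℝ) : Prop where
  cc : CC χ univ
  nonneg : ∀ y, 0 ≤ χ y
  le_one : ∀ y, χ y ≤ 1
  indep : ∀ y t, χ (Function.update y i t) = χ y
  pos : 0 < r
  /-- `1` near `K₁` -/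
  one : ∀ y, (∃ z ∈ K₁, ‖pr i a y - z‖ < r) → χ y = 1
  /-- `0` near `K₂`, far from the common points -/
  zero : ∀ y, (∃ z ∈ K₂, ‖pr i a y - z‖ < r) → (∀ p ∈ T, 2 * ρ ≤ ‖pr i a y - p‖) → χ y = 0
  /-- the standard cut-off near the common points -/
  cut : ∀ y, (∃ z ∈ K₂, ‖pr i a y - z‖ < r) → ∀ p ∈ T, ‖pr i a y - p‖ ≤ 3 * ρ →
    χ y = cut ρ p (pr i a y)

/-- **[CUT]** -/
theorem exists_cut {K₁ K₂ : Set (Fin n → ℝ)} (h1 : IsCompact K₁) (h2 : IsCompact K₂)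
    {T : Finset (Fin n → ℝ)} (hT : K₁ ∩ K₂ ⊆ T) (i : Fin n) (a : ℝ) :
    ∃ ρ₀ : ℝ, 0 < ρ₀ ∧ ∀ ρ, 0 < ρ → ρ ≤ ρ₀ → ∃ χ r, IsCut i a K₁ K₂ T ρ r χ := by
  classical
  obtain ⟨c, hc, hsep⟩ := exists_sep T
  refine ⟨c / 6, by positivity, fun ρ hρ hle => ?_⟩
  -- the part of `K₁` which is far from the common points
  set A : Set (Fin n → ℝ) := K₁ \ ⋃ p ∈ T, ball p ρ with hA
  have hAo : IsOpen (⋃ p ∈ T, ball p ρ) := isOpen_biUnion fun _ _ => isOpen_ball
  have hAc : IsCompact A := h1.diff hAo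
  have hdis : Disjoint A K₂ := by
    rw [Set.disjoint_left]
    rintro x ⟨hx1, hx2⟩ hx3
    exact hx2 (mem_iUnion₂.2 ⟨x, hT ⟨hx1, hx3⟩, mem_ball_self hρ⟩)
  obtain ⟨r₁, hr₁, hd⟩ : ∃ r₁ : ℝ, 0 < r₁ ∧ ∀ x ∈ A, ∀ z ∈ K₂, 4 * r₁ ≤ ‖x - z‖ := by
    obtain ⟨r, hr, h⟩ := Metric.exists_pos_forall_lt_edist hAc h2.isClosed hdis
    refine ⟨(r : ℝ) / 4, by positivity, fun x hx z hz => ?_⟩
    have h3 := h x hx z hz
    rw [edist_dist, dist_eq_norm, ← ENNReal.ofReal_coe_nnreal] at h3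
    have h4 : (r : ℝ) < ‖x - z‖ := (ENNReal.ofReal_lt_ofReal_iff_of_nonneg r.2).1 h3
    rw [show 4 * ((r : ℝ) / 4) = r by ring]
    exact h4.le
  obtain ⟨Q, hQA, hQf, hcov⟩ := hAc.finite_cover_balls hr₁
  -- the function
  obtain ⟨χ, c1, c2, c3, c4, c5⟩ := exists_fmax (T.disjSum hQf.toFinset)
    (fun t y => match t with
      | Sum.inl p => cut ρ p (pr i a y)
      | Sum.inr q => cut r₁ q (pr i a y)) (by
      rintro (p | q) _
      · exact cut_cc i a ρ p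
      · exact cut_cc i a r₁ q)
  -- neighbourhood of `K₁`
  obtain ⟨r₂, hr₂, hth⟩ := h1.exists_thickening_subset_open
    (t := (⋃ p ∈ T, ball p ρ) ∪ ⋃ q ∈ Q, ball q r₁)
    (hAo.union (isOpen_biUnion fun _ _ => isOpen_ball)) (by
      intro x hx
      by_cases hx2 : x ∈ ⋃ p ∈ T, ball p ρ
      · exact Or.inl hx2
      · exact Or.inr (hcov ⟨hx, hx2⟩))
  have hle1 : ∀ y, χ y ≤ 1 := by
    intro y
    rcases c4 y with h | ⟨t, -, h⟩
    · rw [h]; exact zero_le_one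
    · rw [h]
      rcases t with p | q
      · exact cut_le_one _ _ _
      · exact cut_le_one _ _ _
  have near2 : ∀ y, (∃ z ∈ K₂, ‖pr i a y - z‖ < min r₁ r₂) →
      χ y = 0 ∨ ∃ p ∈ T, χ y = cut ρ p (pr i a y) := by
    rintro y ⟨z, hz, hyz⟩
    rcases c4 y with h | ⟨t, ht, h⟩
    · exact Or.inl h
    · rcases t with p | q
      · exact Or.inr ⟨p, Finset.inl_mem_disjSum.1 ht, h⟩
      · left
        rw [h]
        refine cut_zero hr₁ ?_
        have hq : q ∈ Q := hQf.mem_toFinset.1 (Finset.inr_mem_disjSum.1 ht)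
        have h3 := hd q (hQA hq) z hz
        have h4 : ‖q - z‖ ≤ ‖pr i a y - z‖ + ‖pr i a y - q‖ := by
          have := norm_sub_le (pr i a y - z) (pr i a y - q)
          rwa [show pr i a y - z - (pr i a y - q) = q - z by abel] at this
        have h5 := hyz.trans_le (min_le_left r₁ r₂)
        linarith
  refine ⟨χ, min r₁ r₂, c1, c2, hle1, fun y t => c5 _ _ ?_, lt_min hr₁ hr₂, ?_, ?_, ?_⟩
  · rintro (p | q) _
    · simp only [pr_update]
    · simp only [pr_update]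
  · rintro y ⟨z, hz, hyz⟩
    refine le_antisymm (hle1 y) ?_
    have h3 : pr i a y ∈ thickening r₂ K₁ :=
      mem_thickening_iff.2 ⟨z, hz, by rw [dist_eq_norm]; exact hyz.trans_le (min_le_right _ _)⟩
    rcases hth h3 with h4 | h4
    · obtain ⟨p, hp, hyp⟩ := mem_iUnion₂.1 h4
      rw [← cut_one (p := p) (y := pr i a y) hρ (by rw [← dist_eq_norm]; exact hyp.le)]
      exact c3 y (Sum.inl p) (Finset.inl_mem_disjSum.2 hp)
    · obtain ⟨q, hq, hyq⟩ := mem_iUnion₂.1 h4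
      rw [← cut_one (p := q) (y := pr i a y) hr₁ (by rw [← dist_eq_norm]; exact hyq.le)]
      exact c3 y (Sum.inr q) (Finset.inr_mem_disjSum.2 (hQf.mem_toFinset.2 hq))
  · intro y hy hfar
    rcases near2 y hy with h | ⟨p, hp, h⟩
    · exact h
    · rw [h]; exact cut_zero hρ (hfar p hp)
  · intro y hy p hp hyp
    have hge : cut ρ p (pr i a y) ≤ χ y := c3 y (Sum.inl p) (Finset.inl_mem_disjSum.2 hp)
    rcases near2 y hy with h | ⟨p', hp', h⟩
    · rw [h] at hge ⊢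
      exact le_antisymm (cut_nonneg _ _ _) hge
    · by_cases hpp : p' = p
      · rw [h, hpp]
      · have h3 := hsep p' hp' p hp hpp
        have h4 : ‖p' - p‖ ≤ ‖pr i a y - p‖ + ‖pr i a y - p'‖ := by
          have := norm_sub_le (pr i a y - p) (pr i a y - p')
          rwa [show pr i a y - p - (pr i a y - p') = p' - p by abel] at this
        have h5 : cut ρ p' (pr i a y) = 0 := cut_zero hρ (by linarith)
        rw [h, h5] at hge ⊢
        exact le_antisymm (cut_nonneg _ _ _) hge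

/-- **perturbation**: points near the plane project near the section -/
theorem exists_near {S : Set (Fin n → ℝ)} (hS : IsCompact S) (i : Fin n) (a : ℝ) {r : ℝ}
    (hr : 0 < r) :
    ∃ η₀ : ℝ, 0 < η₀ ∧ ∀ y ∈ S, |y i - a| ≤ η₀ → ∃ z ∈ S, z i = a ∧ ‖pr i a y - z‖ < r := by
  set U : Set (Fin n → ℝ) := {y | ∃ z ∈ S, z i = a ∧ ‖pr i a y - z‖ < r} with hU
  have hprc : Continuous (pr i a) := continuousOn_univ.1 (pr_cc i a).cont
  have hUo : IsOpen U := by
    have : U = ⋃ z ∈ {z | z ∈ S ∧ z i = a}, {y | ‖pr i a y - z‖ < r} := by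
      ext y
      simp only [hU, mem_ofPred_eq, mem_iUnion, exists_prop, and_assoc]
    rw [this]
    exact isOpen_biUnion fun z _ => isOpen_lt (hprc.sub continuous_const).norm continuous_const
  have hSU : IsCompact (S \ U) := hS.diff hUo
  rcases (S \ U).eq_empty_or_nonempty with he | hne
  · refine ⟨1, one_pos, fun y hy _ => ?_⟩
    by_contra hn
    have : y ∈ S \ U := ⟨hy, hn⟩
    rw [he] at this
    exact this
  · obtain ⟨y₀, hy₀, hmin⟩ := hSU.exists_isMinOn hne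
      (f := fun y : Fin n → ℝ => |y i - a|) (by fun_prop)
    have hpos : 0 < |y₀ i - a| := by
      rw [abs_pos]
      intro h0
      have h1 : y₀ i = a := by linarith
      exact hy₀.2 ⟨y₀, hy₀.1, h1, by rw [pr_eq h1, sub_self, norm_zero]; exact hr⟩
    refine ⟨|y₀ i - a| / 2, by positivity, fun y hy hya => ?_⟩
    by_contra hn
    have h2 : |y₀ i - a| ≤ |y i - a| := hmin ⟨hy, hn⟩
    linarith

/-- **[CUT] for compact sets which are not contained in the plane** -/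
theorem IsCut.near {S₁ S₂ : Set (Fin n → ℝ)} (hS₁ : IsCompact S₁) (hS₂ : IsCompact S₂)
    {T : Finset (Fin n → ℝ)} {r : ℝ} {χ : (Fin n → ℝ) → ℝ}
    (H : IsCut i a (S₁ ∩ {y | y i = a}) (S₂ ∩ {y | y i = a}) T ρ r χ) :
    ∃ η₀ : ℝ, 0 < η₀ ∧ (∀ y ∈ S₁, |y i - a| ≤ η₀ → χ y = 1) ∧
      (∀ y ∈ S₂, |y i - a| ≤ η₀ → (∀ p ∈ T, 2 * ρ ≤ ‖pr i a y - p‖) → χ y = 0) ∧
      ∀ y ∈ S₂, |y i - a| ≤ η₀ → ∀ p ∈ T, ‖pr i a y - p‖ ≤ 3 * ρ →
        χ y = H926.cut ρ p (pr i a y) := by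
  obtain ⟨e₁, h1, H1⟩ := exists_near hS₁ i a H.pos
  obtain ⟨e₂, h2, H2⟩ := exists_near hS₂ i a H.pos
  refine ⟨min e₁ e₂, lt_min h1 h2, fun y hy hya => ?_, fun y hy hya => ?_, fun y hy hya => ?_⟩
  · obtain ⟨z, hz, hza, hyz⟩ := H1 y hy (hya.trans (min_le_left _ _))
    exact H.one y ⟨z, ⟨hz, hza⟩, hyz⟩
  · obtain ⟨z, hz, hza, hyz⟩ := H2 y hy (hya.trans (min_le_right _ _))
    exact H.zero y ⟨z, ⟨hz, hza⟩, hyz⟩
  · obtain ⟨z, hz, hza, hyz⟩ := H2 y hy (hya.trans (min_le_right _ _))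
    exact H.cut y ⟨z, ⟨hz, hza⟩, hyz⟩

/-- the thickness `c χ` -/
theorem IsCut.thk {K₁ K₂ : Set (Fin n → ℝ)} {T : Finset (Fin n → ℝ)} {r : ℝ}
    {χ : (Fin n → ℝ) → ℝ} (H : IsCut i a K₁ K₂ T ρ r χ) {c η : ℝ} (h0 : 0 ≤ c)
    (hc : c ≤ η / 2) : Thk i η fun y => c * χ y where
  nonneg y := mul_nonneg h0 (H.nonneg y)
  le y := (mul_le_of_le_one_right h0 (H.le_one y)).trans hc
  cc := H.cc.mul_left c
  indep y t := by rw [H.indep]

/-- **[CUT], open form** (399): a cut-off function of a compact subset of the plane `{y i = a}`,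
supported in an open set -/
theorem exists_cutU {K U : Set (Fin n → ℝ)} (hK : IsCompact K) (hU : IsOpen U) (hKU : K ⊆ U)
    (i : Fin n) (a : ℝ) :
    ∃ (χ : (Fin n → ℝ) → ℝ) (r : ℝ), 0 < r ∧ CC χ univ ∧ (∀ y, 0 ≤ χ y) ∧ (∀ y, χ y ≤ 1) ∧
      (∀ y t, χ (Function.update y i t) = χ y) ∧
      (∀ y, (∃ z ∈ K, ‖pr i a y - z‖ < r) → χ y = 1) ∧ ∀ y, pr i a y ∉ U → χ y = 0 := by
  classical
  obtain ⟨δ, hδ, hth⟩ := hK.exists_thickening_subset_open hU hKU
  have hr : 0 < δ / 3 := by positivity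
  obtain ⟨Q, hQA, hQf, hcov⟩ := hK.finite_cover_balls hr
  obtain ⟨χ, c1, c2, c3, c4, c5⟩ := exists_fmax hQf.toFinset
    (fun q y => cut (δ / 3) q (pr i a y)) fun q _ => cut_cc i a (δ / 3) q
  have hle1 : ∀ y, χ y ≤ 1 := by
    intro y
    rcases c4 y with h | ⟨q, -, h⟩
    · rw [h]; exact zero_le_one
    · rw [h]; exact cut_le_one _ _ _
  obtain ⟨r, hr0, hr1⟩ := hK.exists_thickening_subset_open
    (t := ⋃ q ∈ Q, ball q (δ / 3)) (isOpen_biUnion fun _ _ => isOpen_ball) hcov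
  refine ⟨χ, r, hr0, c1, c2, hle1, fun y t => c5 _ _ fun q _ => by rw [pr_update], ?_, ?_⟩
  · rintro y ⟨z, hz, hyz⟩
    refine le_antisymm (hle1 y) ?_
    have h3 : pr i a y ∈ thickening r K :=
      mem_thickening_iff.2 ⟨z, hz, by rw [dist_eq_norm]; exact hyz⟩
    obtain ⟨q, hq, hyq⟩ := mem_iUnion₂.1 (hr1 h3)
    rw [← cut_one (p := q) (y := pr i a y) hr (by rw [← dist_eq_norm]; exact hyq.le)]
    exact c3 y q (hQf.mem_toFinset.2 hq)
  · intro y hy
    rcases c4 y with h | ⟨q, hq, h⟩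
    · exact h
    · rw [h]
      refine cut_zero hr ?_
      by_contra hn
      push Not at hn
      exact hy (hth (mem_thickening_iff.2 ⟨q, hQA (hQf.mem_toFinset.1 hq), by
        rw [dist_eq_norm]; linarith⟩))

/-- the perturbation form of `exists_cutU`: `S` compact, `K = S ∩ {y i = a}` -/
theorem exists_cutU_near {S U : Set (Fin n → ℝ)} (hS : IsCompact S) (hU : IsOpen U)
    (i : Fin n) (a : ℝ) (hKU : S ∩ {y | y i = a} ⊆ U) :
    ∃ (χ : (Fin n → ℝ) → ℝ) (η₀ : ℝ), 0 < η₀ ∧ CC χ univ ∧ (∀ y, 0 ≤ χ y) ∧ (∀ y, χ y ≤ 1) ∧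
      (∀ y t, χ (Function.update y i t) = χ y) ∧
      (∀ y ∈ S, |y i - a| ≤ η₀ → χ y = 1) ∧ ∀ y, pr i a y ∉ U → χ y = 0 := by
  have hK : IsCompact (S ∩ {y | y i = a}) :=
    hS.inter_right (isClosed_eq (continuous_apply i) continuous_const)
  obtain ⟨χ, r, hr, c1, c2, c3, c4, c5, c6⟩ := exists_cutU hK hU hKU i a
  obtain ⟨η₀, hη, H⟩ := exists_near hS i a hr
  refine ⟨χ, η₀, hη, c1, c2, c3, c4, fun y hy hya => ?_, c6⟩
  obtain ⟨z, hz, hza, hyz⟩ := H y hy hya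
  exact c5 y ⟨z, ⟨hz, hza⟩, hyz⟩

end P073.H926
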