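import Vale.Agent.P073.Net.NH2a
import Vale.Agent.P073.H579.Web1
import Vale.Agent.P073.ConicalBody

/-!
# P073, H926: **[AFF]**, part 1: a conical map on a compact convex polygon is affine on the cells of
a finite line arrangement
-/

set_option linter.unusedSectionVars false

open Set Metric Topology Filter

namespace P073.H926

open P073 P073.H579 P073.Net

variable {E : Type*} [NormedAddCommGroup E] [NormedSpace ℝ E]

/-- dimension one: a conical curve is affine between consecutive points of a finite set -/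
theorem exists_kinks {q : ℝ → E} {a b : ℝ} (hab : a ≤ b) (hq : ConicalOn q (Icc a b)) :
    ∃ T : Finset ℝ, ∀ c ∈ Icc a b, ∀ d ∈ Icc a b, c ≤ d → (∀ t ∈ T, t ≤ c ∨ d ≤ t) →
      ∃ p w : E, ∀ s ∈ Icc c d, q s = p + s • w := by
  refine icc_chain (P := fun x y => ∃ T : Finset ℝ, ∀ c ∈ Icc x y, ∀ d ∈ Icc x y, c ≤ d →
    (∀ t ∈ T, t ≤ c ∨ d ≤ t) → ∃ p w : E, ∀ s ∈ Icc c d, q s = p + s • w) hab ?_ ?_ ?_ ?_
  · refine ⟨∅, fun c hc d hd hcd _ => ⟨q a, 0, fun s hs => ?_⟩⟩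
    have : s = a := le_antisymm (hs.2.trans hd.2) (hc.1.trans hs.1)
    rw [this, smul_zero, add_zero]
  · rintro x y z _ hxy hyz _ ⟨T₁, h1⟩ ⟨T₂, h2⟩
    classical
    refine ⟨insert y (T₁ ∪ T₂), fun c hc d hd hcd hT => ?_⟩
    rcases hT y (Finset.mem_insert_self _ _) with h | h
    · exact h2 c ⟨h, hc.2⟩ d ⟨h.trans hcd, hd.2⟩ hcd fun t ht => hT t
        (Finset.mem_insert_of_mem (Finset.mem_union_right _ ht))
    · exact h1 c ⟨hc.1, hcd.trans h⟩ d ⟨hd.1, h⟩ hcd fun t ht => hT t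
        (Finset.mem_insert_of_mem (Finset.mem_union_left _ ht))
  · intro x hx hxb
    obtain ⟨r, hr, hrb, w, hw⟩ := conical_right' hq hx hxb
    refine ⟨r, hr, hrb, ∅, fun c hc d hd hcd _ => ⟨q x - x • w, w, fun s hs => ?_⟩⟩
    rw [hw s ⟨hc.1.trans hs.1, hs.2.trans hd.2⟩]
    module
  · intro x hx hax
    obtain ⟨r, hr, hra, w, hw⟩ := conical_left' hq hx hax
    refine ⟨r, hr, hra, fun y hy => ⟨∅, fun c hc d hd hcd _ => ⟨q x - x • w, w, fun s hs => ?_⟩⟩⟩
    rw [hw s ⟨by linarith [hc.1, hs.1, hy.1], hs.2.trans hd.2⟩]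
    module

/-- every functional in `L` has a constant weak sign on `S` -/
def SgnOn (L : Finset (H579.P →ᵃ[ℝ] ℝ)) (S : Set H579.P) : Prop :=
  ∀ l ∈ L, (∀ z ∈ S, 0 ≤ l z) ∨ ∀ z ∈ S, l z ≤ 0

theorem SgnOn.mono {L L' : Finset (H579.P →ᵃ[ℝ] ℝ)} {S S' : Set H579.P} (h : SgnOn L S)
    (hL : L' ⊆ L) (hS : S' ⊆ S) : SgnOn L' S' := fun l hl =>
  (h l (hL hl)).imp (fun h1 z hz => h1 z (hS hz)) fun h1 z hz => h1 z (hS hz)

/-- the affine map given by the value at `x`, and the linear part -/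
noncomputable def affAt (x : H579.P) (p : E) (L : H579.P →ₗ[ℝ] E) : H579.P →ᵃ[ℝ] E where
  toFun y := p + L (y - x)
  linear := L
  map_vadd' y v := by
    show p + L (v + y - x) = L v + (p + L (y - x))
    rw [show v + y - x = v + (y - x) by abel, map_add]; abel

theorem affAt_apply (x : H579.P) (p : E) (L : H579.P →ₗ[ℝ] E) (y : H579.P) :
    affAt x p L y = p + L (y - x) := rfl

/-- one sector -/
theorem sector {h : H579.P → E} {C : Set H579.P} {x : H579.P} {r : ℝ} (hr : 0 < r)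
    (hC : Convex ℝ C) (hcpt : IsCompact C) (hk : ConicalOn h C)
    (hrc : ∀ v : H579.P, ‖v‖ ≤ r → x + v ∈ C → ∀ t ∈ Icc (0:ℝ) 1,
      h (x + t • v) = h x + t • (h (x + v) - h x))
    (hrl : ∀ v : H579.P, ‖v‖ ≤ r → ∀ t ∈ Ioc (0:ℝ) 1, x + t • v ∈ C → x + v ∈ C)
    {e f : H579.P} {l m : H579.P →ₗ[ℝ] ℝ} (h1 : l e = 1) (h2 : l f = 0) (h3 : m e = 0)
    (h4 : m f = 1) (hn : ∀ s ∈ Icc (-r) r, ‖e + s • f‖ ≤ r) :
    ∃ T : Finset ℝ, ∀ S ⊆ C,
      (∀ y ∈ S, ∃ τ ∈ Icc (0:ℝ) 1, ∃ s ∈ Icc (-r) r, y = x + τ • (e + s • f)) →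
      (∀ t ∈ T, (∀ y ∈ S, 0 ≤ m (y - x) - t * l (y - x)) ∨
        ∀ y ∈ S, m (y - x) - t * l (y - x) ≤ 0) →
      ∃ A : H579.P →ᵃ[ℝ] E, EqOn h A S := by
  set I : Set ℝ := {s | s ∈ Icc (-r) r ∧ x + (e + s • f) ∈ C} with hI
  have hIeq : I = Icc (-r) r ∩ (fun s : ℝ => x + (e + s • f)) ⁻¹' C := rfl
  have hcont : Continuous fun s : ℝ => x + (e + s • f) := by fun_prop
  have hIcpt : IsCompact I := isCompact_Icc.inter_right (hcpt.isClosed.preimage hcont)
  have hIcv : Convex ℝ I := by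
    intro s hs t ht a b ha hb hab
    refine ⟨convex_Icc _ _ hs.1 ht.1 ha hb hab, ?_⟩
    have := hC hs.2 ht.2 ha hb hab
    convert this using 1
    have e1 : b = 1 - a := by linarith
    subst e1
    module
  -- the values of the functionals
  have el : ∀ τ s : ℝ, l (x + τ • (e + s • f) - x) = τ := by
    intro τ s
    rw [add_sub_cancel_left, map_smul, map_add, map_smul, h1, h2]
    simp
  have em : ∀ τ s : ℝ, m (x + τ • (e + s • f) - x) = τ * s := by
    intro τ s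
    rw [add_sub_cancel_left, map_smul, map_add, map_smul, h3, h4]
    simp
  -- points of `C` in the sector
  have hmem : ∀ τ s : ℝ, 0 < τ → τ ≤ 1 → s ∈ Icc (-r) r → x + τ • (e + s • f) ∈ C → s ∈ I :=
    fun τ s h0 h1 hs hC => ⟨hs, hrl _ (hn s hs) τ ⟨h0, h1⟩ hC⟩
  rcases I.eq_empty_or_nonempty with hemp | hne
  · refine ⟨∅, fun S hSC hS _ => ⟨AffineMap.const ℝ _ (h x), fun y hy => ?_⟩⟩
    obtain ⟨τ, hτ, s, hs, rfl⟩ := hS y hy
    rcases hτ.1.eq_or_lt with h0 | h0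
    · rw [← h0, zero_smul, add_zero]; rfl
    · have := hmem τ s h0 hτ.2 hs (hSC hy)
      rw [hemp] at this
      exact absurd this (notMem_empty _)
  -- the interval
  set a := sInf I with ha
  set b := sSup I with hb
  have haI : a ∈ I := hIcpt.sInf_mem hne
  have hbI : b ∈ I := hIcpt.sSup_mem hne
  have hab : a ≤ b := csInf_le hIcpt.bddBelow hbI
  have hIcc : I = Icc a b := by
    apply Subset.antisymm
    · intro s hs
      exact ⟨csInf_le hIcpt.bddBelow hs, le_csSup hIcpt.bddAbove hs⟩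
    · exact hIcv.ordConnected.out haI hbI
  have hq : ConicalOn (fun s : ℝ => h (x + (e + s • f))) (Icc a b) := by
    have hA : ConicalOn (fun s : ℝ => x + (e + s • f)) (Icc a b) := by
      have := conicalOn_of_affine (AffineMap.lineMap (x + e) (x + e + f) : ℝ →ᵃ[ℝ] H579.P)
        (Convex.conicalSet (convex_Icc a b))
      refine this.congr fun s _ => ?_
      show x + (e + s • f) = AffineMap.lineMap (x + e) (x + e + f) s
      rw [AffineMap.lineMap_apply_module']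
      module
    exact hk.comp hA (fun s hs => (hIcc.symm.subset hs).2) hcont.continuousOn
  obtain ⟨T, hT⟩ := exists_kinks hab hq
  refine ⟨T, fun S hSC hS hsgn => ?_⟩
  set Sg : Set ℝ := {s | s ∈ Icc (-r) r ∧ ∃ τ : ℝ, 0 < τ ∧ τ ≤ 1 ∧ x + τ • (e + s • f) ∈ S}
    with hSg
  have hSgI : Sg ⊆ I := by
    rintro s ⟨hs, τ, h0, h1, hm⟩
    exact hmem τ s h0 h1 hs (hSC hm)
  rcases Sg.eq_empty_or_nonempty with hemp | hne'
  · refine ⟨AffineMap.const ℝ _ (h x), fun y hy => ?_⟩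
    obtain ⟨τ, hτ, s, hs, rfl⟩ := hS y hy
    rcases hτ.1.eq_or_lt with h0 | h0
    · rw [← h0, zero_smul, add_zero]; rfl
    · have : s ∈ Sg := ⟨hs, τ, h0, hτ.2, hy⟩
      rw [hemp] at this
      exact absurd this (notMem_empty _)
  have hbb : BddBelow Sg := hIcpt.bddBelow.mono hSgI
  have hba : BddAbove Sg := hIcpt.bddAbove.mono hSgI
  set c := sInf Sg with hc
  set d := sSup Sg with hd
  obtain ⟨s₀, hs₀⟩ := hne'
  have hcd : c ≤ d := (csInf_le hbb hs₀).trans (le_csSup hba hs₀)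
  have hac : a ≤ c := le_csInf ⟨s₀, hs₀⟩ fun s hs => (hIcc.subset (hSgI hs)).1
  have hdb : d ≤ b := csSup_le ⟨s₀, hs₀⟩ fun s hs => (hIcc.subset (hSgI hs)).2
  obtain ⟨p, w, hpw⟩ := hT c ⟨hac, hcd.trans hdb⟩ d ⟨hac.trans hcd, hdb⟩ hcd (by
    intro t ht
    rcases hsgn t ht with h5 | h5
    · left
      refine le_csInf ⟨s₀, hs₀⟩ ?_
      rintro s ⟨hs, τ, h0, h1, hm⟩
      have h6 := h5 _ hm
      rw [el, em] at h6
      by_contra h7
      push Not at h7
      nlinarith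
    · right
      refine csSup_le ⟨s₀, hs₀⟩ ?_
      rintro s ⟨hs, τ, h0, h1, hm⟩
      have h6 := h5 _ hm
      rw [el, em] at h6
      by_contra h7
      push Not at h7
      nlinarith)
  refine ⟨affAt x (h x) (l.smulRight (p - h x) + m.smulRight w), fun y hy => ?_⟩
  obtain ⟨τ, hτ, s, hs, rfl⟩ := hS y hy
  rw [affAt_apply, LinearMap.add_apply, LinearMap.smulRight_apply, LinearMap.smulRight_apply,
    el, em]
  rcases hτ.1.eq_or_lt with h0 | h0
  · rw [← h0]; simp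
  · have hsSg : s ∈ Sg := ⟨hs, τ, h0, hτ.2, hy⟩
    have h6 := hpw s ⟨csInf_le hbb hsSg, le_csSup hba hsSg⟩
    rw [hrc _ (hn s hs) (hSgI hsSg).2 τ hτ]
    have h7 : h (x + (e + s • f)) = p + s • w := h6
    rw [h7]
    module

/-! ### Functionals -/

/-- `y ↦ m (y - x) - c` -/
noncomputable def fun0 (x : H579.P) (m : H579.P →ₗ[ℝ] ℝ) (c : ℝ) : H579.P →ᵃ[ℝ] ℝ :=
  affAt x (-c) m

theorem fun0_apply (x : H579.P) (m : H579.P →ₗ[ℝ] ℝ) (c : ℝ) (y : H579.P) :
    fun0 x m c y = m (y - x) - c := by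
  rw [fun0, affAt_apply]; ring

/-- the two coordinates -/
noncomputable def co1 : H579.P →ₗ[ℝ] ℝ := LinearMap.fst ℝ ℝ ℝ
noncomputable def co2 : H579.P →ₗ[ℝ] ℝ := LinearMap.snd ℝ ℝ ℝ

@[simp] theorem co1_apply (y : H579.P) : co1 y = y.1 := rfl
@[simp] theorem co2_apply (y : H579.P) : co2 y = y.2 := rfl

/-- the finite set of lines of a sector -/
noncomputable def secL (x : H579.P) (l m : H579.P →ₗ[ℝ] ℝ) (T : Finset ℝ) :
    Finset (H579.P →ᵃ[ℝ] ℝ) :=
  open Classical in T.image fun t => fun0 x (m - t • l) 0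

theorem SgnOn.sec {x : H579.P} {l m : H579.P →ₗ[ℝ] ℝ} {T : Finset ℝ} {S : Set H579.P}
    (h : SgnOn (secL x l m T) S) : ∀ t ∈ T, (∀ y ∈ S, 0 ≤ m (y - x) - t * l (y - x)) ∨
      ∀ y ∈ S, m (y - x) - t * l (y - x) ≤ 0 := by
  classical
  intro t ht
  have := h (fun0 x (m - t • l) 0) (Finset.mem_image_of_mem _ ht)
  simpa only [fun0_apply, LinearMap.sub_apply, LinearMap.smul_apply, smul_eq_mul, sub_zero]
    using this

theorem secL_ne {x : H579.P} {l m : H579.P →ₗ[ℝ] ℝ} {T : Finset ℝ} {f : H579.P} (h2 : l f = 0)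
    (h4 : m f = 1) : ∀ a ∈ secL x l m T, a.linear ≠ 0 := by
  classical
  intro a ha h0
  obtain ⟨t, -, rfl⟩ := Finset.mem_image.1 ha
  have : (m - t • l) f = 0 := by
    have h5 : (fun0 x (m - t • l) 0).linear = m - t • l := rfl
    rw [h5] at h0
    rw [h0]; rfl
  rw [LinearMap.sub_apply, LinearMap.smul_apply, h2, h4] at this
  simp at this

/-- the sides of the square and the diagonals -/
noncomputable def boxL (x : H579.P) (r : ℝ) : Finset (H579.P →ᵃ[ℝ] ℝ) :=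
  open Classical in {fun0 x co1 r, fun0 x co1 (-r), fun0 x co2 r, fun0 x co2 (-r),
    fun0 x (co1 - co2) 0, fun0 x (co1 + co2) 0}

theorem boxL_ne {x : H579.P} {r : ℝ} : ∀ a ∈ boxL x r, a.linear ≠ 0 := by
  classical
  have e : ∀ (m : H579.P →ₗ[ℝ] ℝ) (c : ℝ), (fun0 x m c).linear = m := fun _ _ => rfl
  intro a ha h0
  have h1 : a.linear (1, 0) = 0 := by rw [h0]; rfl
  have h2 : a.linear (0, 1) = 0 := by rw [h0]; rfl
  simp only [boxL, Finset.mem_insert, Finset.mem_singleton] at ha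
  rcases ha with rfl | rfl | rfl | rfl | rfl | rfl <;>
    simp [e] at h1 h2

/-- a set with constant signs which meets the open square lies in the closed square -/
theorem SgnOn.box {x : H579.P} {r : ℝ} {S : Set H579.P} (h : SgnOn (boxL x r) S) {y₀ : H579.P}
    (hy : y₀ ∈ S) (h0 : y₀ ∈ ball x r) : S ⊆ closedBall x r := by
  classical
  rw [mem_ball, dist_eq_norm, Prod.norm_def, max_lt_iff, Real.norm_eq_abs, Real.norm_eq_abs,
    abs_lt, abs_lt] at h0
  obtain ⟨⟨a1, a2⟩, a3, a4⟩ := h0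
  simp only [Prod.fst_sub, Prod.snd_sub] at a1 a2 a3 a4
  have k1 := h (fun0 x co1 r) (by simp [boxL])
  have k2 := h (fun0 x co1 (-r)) (by simp [boxL])
  have k3 := h (fun0 x co2 r) (by simp [boxL])
  have k4 := h (fun0 x co2 (-r)) (by simp [boxL])
  simp only [fun0_apply, co1_apply, co2_apply, Prod.fst_sub, Prod.snd_sub] at k1 k2 k3 k4
  replace k1 := k1.resolve_left fun h => by linarith [h _ hy]
  replace k2 := k2.resolve_right fun h => by linarith [h _ hy]
  replace k3 := k3.resolve_left fun h => by linarith [h _ hy]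
  replace k4 := k4.resolve_right fun h => by linarith [h _ hy]
  intro y hyS
  rw [mem_closedBall, dist_eq_norm, Prod.norm_def, max_le_iff, Real.norm_eq_abs,
    Real.norm_eq_abs, abs_le, abs_le]
  simp only [Prod.fst_sub, Prod.snd_sub]
  refine ⟨⟨?_, ?_⟩, ?_, ?_⟩
  · linarith [k2 y hyS]
  · linarith [k1 y hyS]
  · linarith [k4 y hyS]
  · linarith [k3 y hyS]

/-- **the local form** -/
theorem exists_lines_loc {h : H579.P → E} {C : Set H579.P} {x : H579.P} (hC : Convex ℝ C)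
    (hcpt : IsCompact C) (hcone : LocCone C) (hk : ConicalOn h C) (hx : x ∈ C) :
    ∃ r > 0, ∃ L : Finset (H579.P →ᵃ[ℝ] ℝ), (∀ l ∈ L, l.linear ≠ 0) ∧
      ∀ S ⊆ C, S ⊆ closedBall x r → SgnOn L S → ∃ A : H579.P →ᵃ[ℝ] E, EqOn h A S := by
  classical
  obtain ⟨r₁, hr₁, H1⟩ := hk x hx
  obtain ⟨r₂, hr₂, H2⟩ := hcone x
  set r := min r₁ r₂ with hr
  have hr0 : 0 < r := lt_min hr₁ hr₂
  have hrc : ∀ v : H579.P, ‖v‖ ≤ r → x + v ∈ C → ∀ t ∈ Icc (0:ℝ) 1,
      h (x + t • v) = h x + t • (h (x + v) - h x) := fun v hv hm t ht =>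
    (H1 v (hv.trans (min_le_left _ _)) hm t ht).2
  have hrl : ∀ v : H579.P, ‖v‖ ≤ r → ∀ t ∈ Ioc (0:ℝ) 1, x + t • v ∈ C → x + v ∈ C :=
    fun v hv t ht hm => (H2 v (hv.trans (min_le_right _ _)) t ht).1 hm
  have hr' : r⁻¹ * r = 1 := inv_mul_cancel₀ hr0.ne'
  -- the four sectors
  have nrm : ∀ a b : ℝ, |a| ≤ r → |b| ≤ r → ‖((a, b) : H579.P)‖ ≤ r := by
    intro a b ha hb
    rw [Prod.norm_def]
    exact max_le ha hb
  have S1 := sector (e := (r, 0)) (f := (0, 1)) (l := r⁻¹ • co1) (m := co2) hr0 hC hcpt hk hrc hrl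
    (by simp [hr']) (by simp) (by simp) (by simp)
    (fun s hs => by
      have : ((r, 0) : H579.P) + s • ((0, 1) : H579.P) = (r, s) := by simp
      rw [this]; exact nrm _ _ (abs_of_pos hr0).le (abs_le.2 hs))
  have S2 := sector (e := (-r, 0)) (f := (0, 1)) (l := -(r⁻¹ • co1)) (m := co2) hr0 hC hcpt hk hrc
    hrl (by simp [hr']) (by simp) (by simp) (by simp)
    (fun s hs => by
      have : ((-r, 0) : H579.P) + s • ((0, 1) : H579.P) = (-r, s) := by simp
      rw [this]; exact nrm _ _ (by rw [abs_neg, abs_of_pos hr0]) (abs_le.2 hs))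
  have S3 := sector (e := (0, r)) (f := (1, 0)) (l := r⁻¹ • co2) (m := co1) hr0 hC hcpt hk hrc hrl
    (by simp [hr']) (by simp) (by simp) (by simp)
    (fun s hs => by
      have : ((0, r) : H579.P) + s • ((1, 0) : H579.P) = (s, r) := by simp
      rw [this]; exact nrm _ _ (abs_le.2 hs) (abs_of_pos hr0).le)
  have S4 := sector (e := (0, -r)) (f := (1, 0)) (l := -(r⁻¹ • co2)) (m := co1) hr0 hC hcpt hk hrc
    hrl (by simp [hr']) (by simp) (by simp) (by simp)
    (fun s hs => by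
      have : ((0, -r) : H579.P) + s • ((1, 0) : H579.P) = (s, -r) := by simp
      rw [this]; exact nrm _ _ (abs_le.2 hs) (by rw [abs_neg, abs_of_pos hr0]))
  obtain ⟨T1, S1⟩ := S1
  obtain ⟨T2, S2⟩ := S2
  obtain ⟨T3, S3⟩ := S3
  obtain ⟨T4, S4⟩ := S4
  refine ⟨r, hr0, boxL x r ∪ (secL x (r⁻¹ • co1) co2 T1 ∪ secL x (-(r⁻¹ • co1)) co2 T2 ∪
    (secL x (r⁻¹ • co2) co1 T3 ∪ secL x (-(r⁻¹ • co2)) co1 T4)), ?_, ?_⟩
  · intro l hl
    simp only [Finset.mem_union] at hl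
    rcases hl with hl | (hl | hl) | (hl | hl)
    · exact boxL_ne l hl
    · exact secL_ne (f := (0, 1)) (by simp) (by simp) l hl
    · exact secL_ne (f := (0, 1)) (by simp) (by simp) l hl
    · exact secL_ne (f := (1, 0)) (by simp) (by simp) l hl
    · exact secL_ne (f := (1, 0)) (by simp) (by simp) l hl
  · intro S hSC hSb hsgn
    have g0 : SgnOn (boxL x r) S := hsgn.mono (fun l hl => by simp [hl]) Subset.rfl
    have g1 : SgnOn (secL x (r⁻¹ • co1) co2 T1) S :=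
      hsgn.mono (fun l hl => by simp [hl]) Subset.rfl
    have g2 : SgnOn (secL x (-(r⁻¹ • co1)) co2 T2) S :=
      hsgn.mono (fun l hl => by simp [hl]) Subset.rfl
    have g3 : SgnOn (secL x (r⁻¹ • co2) co1 T3) S :=
      hsgn.mono (fun l hl => by simp [hl]) Subset.rfl
    have g4 : SgnOn (secL x (-(r⁻¹ • co2)) co1 T4) S :=
      hsgn.mono (fun l hl => by simp [hl]) Subset.rfl
    have d1 := g0 (fun0 x (co1 - co2) 0) (by simp [boxL])
    have d2 := g0 (fun0 x (co1 + co2) 0) (by simp [boxL])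
    simp only [fun0_apply, LinearMap.sub_apply, LinearMap.add_apply, co1_apply, co2_apply,
      Prod.fst_sub, Prod.snd_sub, sub_zero] at d1 d2
    have hb : ∀ y ∈ S, |y.1 - x.1| ≤ r ∧ |y.2 - x.2| ≤ r := by
      intro y hy
      have := hSb hy
      rw [mem_closedBall, dist_eq_norm, Prod.norm_def, max_le_iff] at this
      exact this
    -- the parameters of a point
    have par : ∀ u v : ℝ, 0 ≤ u → u ≤ r → |v| ≤ u → ∃ τ ∈ Icc (0:ℝ) 1, ∃ s ∈ Icc (-r) r,
        u = τ * r ∧ v = τ * s := by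
      intro u v hu hur hv
      rcases hu.eq_or_lt with h0 | h0
      · refine ⟨0, ⟨le_rfl, zero_le_one⟩, 0, ⟨by linarith, hr0.le⟩, by rw [← h0]; ring, ?_⟩
        rw [← h0] at hv
        rw [abs_nonpos_iff.1 hv]; ring
      · have hτ : 0 < u / r := div_pos h0 hr0
        refine ⟨u / r, ⟨hτ.le, (div_le_one hr0).2 hur⟩, v / (u / r), ?_, ?_, ?_⟩
        · refine abs_le.1 ?_
          rw [abs_div, abs_of_pos hτ, div_le_iff₀ hτ]
          calc |v| ≤ u := hv
            _ = r * (u / r) := by field_simp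
        · field_simp
        · field_simp
    rcases d1 with d1 | d1 <;> rcases d2 with d2 | d2
    · refine S1 S hSC (fun y hy => ?_) g1.sec
      obtain ⟨τ, hτ, s, hs, e1, e2⟩ := par (y.1 - x.1) (y.2 - x.2)
        (by linarith [d1 y hy, d2 y hy]) ((le_abs_self _).trans (hb y hy).1)
        (abs_le.2 ⟨by linarith [d2 y hy], by linarith [d1 y hy]⟩)
      refine ⟨τ, hτ, s, hs, Prod.ext ?_ ?_⟩
      · simp; linarith
      · simp; linarith
    · refine S4 S hSC (fun y hy => ?_) g4.sec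
      obtain ⟨τ, hτ, s, hs, e1, e2⟩ := par (-(y.2 - x.2)) (y.1 - x.1)
        (by linarith [d1 y hy, d2 y hy]) ((neg_le_abs _).trans (hb y hy).2)
        (abs_le.2 ⟨by linarith [d1 y hy], by linarith [d2 y hy]⟩)
      refine ⟨τ, hτ, s, hs, Prod.ext ?_ ?_⟩
      · simp; linarith
      · simp; linarith
    · refine S3 S hSC (fun y hy => ?_) g3.sec
      obtain ⟨τ, hτ, s, hs, e1, e2⟩ := par (y.2 - x.2) (y.1 - x.1)
        (by linarith [d1 y hy, d2 y hy]) ((le_abs_self _).trans (hb y hy).2)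
        (abs_le.2 ⟨by linarith [d2 y hy], by linarith [d1 y hy]⟩)
      refine ⟨τ, hτ, s, hs, Prod.ext ?_ ?_⟩
      · simp; linarith
      · simp; linarith
    · refine S2 S hSC (fun y hy => ?_) g2.sec
      obtain ⟨τ, hτ, s, hs, e1, e2⟩ := par (-(y.1 - x.1)) (y.2 - x.2)
        (by linarith [d1 y hy, d2 y hy]) ((neg_le_abs _).trans (hb y hy).1)
        (abs_le.2 ⟨by linarith [d1 y hy], by linarith [d2 y hy]⟩)
      refine ⟨τ, hτ, s, hs, Prod.ext ?_ ?_⟩
      · simp; linarith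
      · simp; linarith

/-- **global form, affine pieces** -/
theorem exists_lines_aff {h : H579.P → E} {C : Set H579.P} (hC : Convex ℝ C)
    (hcpt : IsCompact C) (hcone : LocCone C) (hk : ConicalOn h C) :
    ∃ L : Finset (H579.P →ᵃ[ℝ] ℝ), (∀ l ∈ L, l.linear ≠ 0) ∧
      ∀ S ⊆ C, SgnOn L S → ∃ A : H579.P →ᵃ[ℝ] E, EqOn h A S := by
  classical
  choose! r hr L hL hA using fun x (hx : x ∈ C) => exists_lines_loc hC hcpt hcone hk hx
  obtain ⟨t, ht, hcov⟩ := hcpt.elim_nhds_subcover (fun x => ball x (r x))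
    fun x hx => ball_mem_nhds x (hr x hx)
  refine ⟨t.biUnion fun x => L x ∪ boxL x (r x), ?_, ?_⟩
  · intro l hl
    obtain ⟨x, hx, hl⟩ := Finset.mem_biUnion.1 hl
    rcases Finset.mem_union.1 hl with hl | hl
    · exact hL x (ht x hx) l hl
    · exact boxL_ne l hl
  · intro S hSC hsgn
    rcases S.eq_empty_or_nonempty with rfl | ⟨y₀, hy₀⟩
    · exact ⟨AffineMap.const ℝ _ 0, fun y hy => absurd hy (notMem_empty _)⟩
    obtain ⟨x, hx, hyx⟩ := mem_iUnion₂.1 (hcov (hSC hy₀))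
    have h1 : SgnOn (boxL x (r x)) S := hsgn.mono (fun l hl => Finset.mem_biUnion.2
      ⟨x, hx, Finset.mem_union_right _ hl⟩) Subset.rfl
    have h2 : SgnOn (L x) S := hsgn.mono (fun l hl => Finset.mem_biUnion.2
      ⟨x, hx, Finset.mem_union_left _ hl⟩) Subset.rfl
    exact hA x (ht x hx) S hSC (h1.box hy₀ hyx) h2

end P073.H926
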