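import Vale.Agent.P073.H926.RTDat
import Vale.Agent.P073.H429.THBox
import Vale.Agent.P073.H471.GeoCover

/-!
# P073, block [K3C], (e3) [COVER], part A: the positions of the drawn cells

`cover3`: a frontier point of a tile is far from the sides of a square, or close to the middle part
of an edge, or close to a vertex.  `NearG`: the map `g` is close to `h` on the cell.  `exists_z`: the
image of a drawn cell is close to a frontier point of a processed tile.  `KIn3.lat`: the lateral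
extents of the boxes of the hook of the tubes.
-/

open Set Metric Topology Filter

namespace Vale.Agent.P073.H926

open _root_.P073 _root_.P073.Net _root_.P073.PA691 _root_.P073.TM
open Vale.Agent.P073.St (V)
open Vale.Agent.P073.H471 Vale.Agent.P073.H267
open Vale.Agent.P073.H73 (Mesh)
open Vale.Agent.P073.H304 (Nb In Zmax)
open Vale.Agent.P073.H238.K3 (Zd Wc Act Gv TOut3)
open _root_.P073.H429 (Lat YB mem_YB eal ebe mem_YB_interior)

section geo

variable {Λ : Set V} {v : V} {K : BoxCx Λ v} {S : Rad K} {W : Wid K S} {B : Boxes W}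
  {x y z : V} {q t : K.T}

/-- **position of a frontier point of a tile** -/
theorem cover3 (G : Geo B) (hz : z ∈ frontier (K.cube t)) :
    (∃ s, (t = K.sm s ∨ t = K.sp s) ∧ z (K.nrm s) = K.slo s (K.nrm s) ∧
      ∀ k, k ≠ K.nrm s → K.slo s k + (2 * G.p s + G.κ t) < z k ∧
        z k < K.shi s k - (2 * G.p s + G.κ t)) ∨
    (∃ e, K.edge e ⊆ K.cube t ∧
      (K.w (K.a e) (K.dir e) + 3 / 4 * W.wv (K.a e) ≤ z (K.dir e) ∧
        z (K.dir e) ≤ K.w (K.b e) (K.dir e) - 3 / 4 * W.wv (K.b e)) ∧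
      ((∀ k, k ≠ K.dir e → z k = K.w (K.a e) k) ∨
        ∃ s, (t = K.sm s ∨ t = K.sp s) ∧ K.edge e ⊆ K.sq s ∧ z ∈ K.sqo s ∧
          ∀ k, k ≠ K.dir e → |z k - K.w (K.a e) k| ≤ 2 * G.p s + G.κ t)) ∨
    ∃ i, K.w i ∈ K.cube t ∧ ∀ k, |z k - K.w i k| ≤ 3 / 4 * W.wv i := by
  have hxf := TM.mem_frontier_Icc3.1 hz
  have hxc : z ∈ K.cube t := hxf.1
  by_cases hE : ∃ e, z ∈ K.edge e
  · obtain ⟨e, he⟩ := hE
    have hvert : ∀ i, z = K.w i → ∃ i, K.w i ∈ K.cube t ∧ ∀ k, |z k - K.w i k| ≤ 3 / 4 * W.wv i :=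
      fun i hi => ⟨i, hi ▸ hxc, fun k => by
        rw [hi, sub_self, abs_zero]; have := W.wv_pos i; linarith⟩
    by_cases ha : z = K.w (K.a e)
    · exact Or.inr (Or.inr (hvert _ ha))
    by_cases hb : z = K.w (K.b e)
    · exact Or.inr (Or.inr (hvert _ hb))
    have hep : K.edge e ⊆ K.cube t := (K.edge_tile e t z he ha hb hxc).1
    have hwa := W.wv_pos (K.a e)
    have hwb := W.wv_pos (K.b e)
    by_cases h1 : z (K.dir e) < K.w (K.a e) (K.dir e) + 3 / 4 * W.wv (K.a e)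
    · refine Or.inr (Or.inr ⟨K.a e, hep (TM.wa_mem K e), fun k => ?_⟩)
      by_cases hk : k = K.dir e
      · subst hk
        have := he.1 (K.dir e)
        rw [abs_le]; constructor <;> linarith
      · rw [edge_coord he hk, sub_self, abs_zero]; linarith
    by_cases h2 : K.w (K.b e) (K.dir e) - 3 / 4 * W.wv (K.b e) < z (K.dir e)
    · refine Or.inr (Or.inr ⟨K.b e, hep (TM.wb_mem K e), fun k => ?_⟩)
      by_cases hk : k = K.dir e
      · subst hk
        have := he.2 (K.dir e)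
        rw [abs_le]; constructor <;> linarith
      · rw [edge_coord he hk, wab K e hk, sub_self, abs_zero]; linarith
    push Not at h1 h2
    exact Or.inr (Or.inl ⟨e, hep, ⟨h1, h2⟩, Or.inl fun k hk => edge_coord he hk⟩)
  push Not at hE
  obtain ⟨s, hs, h1, h2⟩ := K.face_cover t z hxc hxf.2 hE
  by_cases hin : ∀ k, k ≠ K.nrm s → K.slo s k + (2 * G.p s + G.κ t) < z k ∧
      z k < K.shi s k - (2 * G.p s + G.κ t)
  · exact Or.inl ⟨s, hs, h1, hin⟩
  push Not at hin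
  obtain ⟨k, hk, hkk⟩ := hin
  have hzo : z ∈ K.sqo s := ⟨h1, h2⟩
  have hsq : z ∈ K.sq s := sqo_subset_sq s hzo
  have hp0 := Geo.p_pos (G := G) s
  have hκ0 := G.κ_pos t
  have hu : 0 ≤ 2 * G.p s + G.κ t := by linarith
  -- the closest boundary point
  obtain ⟨c, hc, hzc⟩ : ∃ c, (c = K.slo s k ∨ c = K.shi s k) ∧ |z k - c| ≤ 2 * G.p s + G.κ t := by
    by_cases hlo : K.slo s k + (2 * G.p s + G.κ t) < z k
    · have hhi := hkk hlo
      exact ⟨K.shi s k, Or.inr rfl, by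
        rw [abs_le]; constructor <;> linarith [(h2 k hk).2]⟩
    · push Not at hlo
      exact ⟨K.slo s k, Or.inl rfl, by
        rw [abs_le]; constructor <;> linarith [(h2 k hk).1]⟩
  set z' : V := Function.update z k c with hz'
  have hcle : K.slo s k ≤ c ∧ c ≤ K.shi s k := by
    have := (K.s_lt s k hk).le
    rcases hc with rfl | rfl
    · exact ⟨le_rfl, this⟩
    · exact ⟨this, le_rfl⟩
  have hz's : z' ∈ K.sq s := by
    refine ⟨fun j => ?_, fun j => ?_⟩
    · by_cases hj : j = k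
      · subst hj; rw [hz', Function.update_self]; exact hcle.1
      · rw [hz', Function.update_of_ne hj]; exact hsq.1 j
    · by_cases hj : j = k
      · subst hj; rw [hz', Function.update_self]; exact hcle.2
      · rw [hz', Function.update_of_ne hj]; exact hsq.2 j
  obtain ⟨e, hes, hz'e⟩ := K.sq_bd s z' hz's ⟨k, hk, by
    rw [hz', Function.update_self]; exact hc⟩
  change K.edge e ⊆ K.sq s at hes
  change z' ∈ K.edge e at hz'e
  have hep : K.edge e ⊆ K.cube t := hes.trans (sq_sub_of hs)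
  -- the edge is in the side `k`
  have hdk : k ≠ K.dir e := by
    intro hdk
    obtain ⟨m, hmn, hmk⟩ : ∃ m, m ≠ K.nrm s ∧ m ≠ k := by
      have : ∀ a b : Fin 3, ∃ m, m ≠ a ∧ m ≠ b := by decide
      exact this _ _
    have h3 := edge_side hes hmn (hdk ▸ hmk)
    have h4 : z' m = K.w (K.a e) m := edge_coord hz'e (hdk ▸ hmk)
    rw [hz', Function.update_of_ne hmk] at h4
    have h5 := h2 m hmn
    rcases h3 with h3 | h3 <;> rw [← h4] at h3 <;> linarith
  have hdz : z' (K.dir e) = z (K.dir e) := by rw [hz', Function.update_of_ne hdk.symm]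
  have hlat : ∀ j, j ≠ K.dir e → |z j - K.w (K.a e) j| ≤ 2 * G.p s + G.κ t := by
    intro j hj
    rw [← edge_coord hz'e hj]
    by_cases hjk : j = k
    · subst hjk; rw [hz', Function.update_self]; exact hzc
    · rw [hz', Function.update_of_ne hjk, sub_self, abs_zero]; exact hu
  have hwa := W.wv_pos (K.a e)
  have hwb := W.wv_pos (K.b e)
  have hnum : ∀ i, K.w i ∈ K.sq s → 2 * G.p s + G.κ t ≤ 3 / 4 * W.wv i := by
    intro i hi
    have h3 := G.p_be s i hi
    have h4 := G.be_wv i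
    have h5 := G.κ_be t i (sq_sub_of hs hi)
    have h6 := G.be_pos i
    linarith
  by_cases h3 : z (K.dir e) < K.w (K.a e) (K.dir e) + 3 / 4 * W.wv (K.a e)
  · refine Or.inr (Or.inr ⟨K.a e, hep (TM.wa_mem K e), fun j => ?_⟩)
    by_cases hj : j = K.dir e
    · subst hj
      have := hz'e.1 (K.dir e)
      rw [hdz] at this
      rw [abs_le]; constructor <;> linarith
    · exact (hlat j hj).trans (hnum _ (hes (TM.wa_mem K e)))
  by_cases h4 : K.w (K.b e) (K.dir e) - 3 / 4 * W.wv (K.b e) < z (K.dir e)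
  · refine Or.inr (Or.inr ⟨K.b e, hep (TM.wb_mem K e), fun j => ?_⟩)
    by_cases hj : j = K.dir e
    · subst hj
      have := hz'e.2 (K.dir e)
      rw [hdz] at this
      rw [abs_le]; constructor <;> linarith
    · rw [← wab K e hj]
      exact (hlat j hj).trans (hnum _ (hes (TM.wb_mem K e)))
  push Not at h3 h4
  exact Or.inr (Or.inl ⟨e, hep, ⟨h3, h4⟩, Or.inr ⟨s, hs, hes, hzo, hlat⟩⟩)

end geo

variable {c₀ n δ : ℝ} {j : ℕ} {Ω Λ : Set V} {v w : V} {ρ : V → ℝ} {M : Mesh Ω} {h : ConHomeo Ω Λ}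
  {J₀ J : Set (ℕ × (Fin 3 → ℤ))} {P Z : Set M.ι} {K : BoxCx Λ w} {x y : V} {q t : K.T}

/-- every value of `g` on the cell `i` is close to a value of `h` on the cell -/
def NearG {S : Rad K} {W : Wid K S} {B : Boxes W} (G : Geo B) (M : Mesh Ω) (h g : V → V) (N : ℝ)
    (i : M.ι) : Prop :=
  ∀ x ∈ M.Q i, ∃ x' ∈ M.Q i, ∀ q, h x' ∈ K.cube q → ‖g x - h x'‖ ≤ N * G.om q

theorem NearG.mono {S : Rad K} {W : Wid K S} {B : Boxes W} {G : Geo B} {h g : V → V} {N N' : ℝ}
    {i : M.ι} (H : NearG G M h g N i) (hN : N ≤ N') : NearG G M h g N' i := fun x hx => by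
  obtain ⟨x', hx', h1⟩ := H x hx
  exact ⟨x', hx', fun q hq => (h1 q hq).trans (mul_le_mul_of_nonneg_right hN (G.om_pos q).le)⟩

/-- from `NearC` and a displacement -/
theorem NearG.of_nearC {S : Rad K} {W : Wid K S} {B : Boxes W} {G : Geo B} {h h1 g : V → V}
    {i : M.ι} (H : NearC G M h h1 i) {N : ℝ}
    (hg : ∀ x ∈ M.Q i, ∀ q, ∀ x' ∈ M.Q i, h x' ∈ K.cube q → ‖h1 x - h x'‖ ≤ 5 * G.om q →
      ‖g x - h1 x‖ ≤ N * G.om q) : NearG G M h g (N + 5) i := fun x hx => by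
  obtain ⟨x', hx', h1'⟩ := H x hx
  refine ⟨x', hx', fun q hq => ?_⟩
  have e1 := h1' q hq
  have e2 := hg x hx q x' hx' hq e1
  calc ‖g x - h x'‖ = ‖(g x - h1 x) + (h1 x - h x')‖ := by congr 1; abel
    _ ≤ ‖g x - h1 x‖ + ‖h1 x - h x'‖ := norm_add_le _ _
    _ ≤ (N + 5) * G.om q := by linarith

namespace KIn3

variable (D : KIn3 c₀ n j δ v w ρ M h J₀ J P Z) (C : Cells ρ w K)

/-- **(A0)** the image of a drawn cell is close to a frontier point of a processed tile -/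
theorem exists_z {g : V → V} {i : M.ι} (hi : i ∈ Zmax M w h.toFun J₀ P (2 / 2 ^ j))
    (hg : NearG (D.G C) M h.toFun g 100 i) :
    ∃ t ∈ pT C J₀, ∃ z ∈ frontier (K.cube t), ∀ x ∈ M.Q i, ‖g x - z‖ ≤ (D.G C).κ t / 8 := by
  obtain ⟨x₀, hx₀⟩ : (M.Q i).Nonempty := (M.poly i).int.mono interior_subset
  obtain ⟨t, ht, z, hz, hxz⟩ := (D.mem_Nb C).1 (hi.2 (mem_image_of_mem _ hx₀))
  refine ⟨t, ht, z, hz, fun x hx => ?_⟩
  obtain ⟨x', hx', hx2⟩ := hg x hx
  obtain ⟨q, hq⟩ := K.cover _ (h.mapsTo (M.sub i hx'))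
  change h.toFun x' ∈ K.cube q at hq
  have hη := D.jle
  have hη0 : (0:ℝ) < 1 / 2 ^ j := η_pos
  have hδ := D.δpos
  have hδ2 := D.δ_le
  have hTt := C.sT_pos t
  have hTq := C.sT_pos q
  have ho := o3_pos D.pos
  have hδ3 := δ3_eq (n := n)
  have hκo := o3_eq (n := n)
  have hκ := D.κ_lt
  have e : (2:ℝ) / 2 ^ j = 2 * (1 / 2 ^ j) := by ring
  have h0 : x₀ ∈ M.Q i := hx₀
  have hN0 : h.toFun x₀ ∈ Nb w {C.fT t} (2 / 2 ^ j) := (mem_Nb_one C).2 ⟨z, hz, hxz⟩
  have hc0 : 2 / 2 ^ j ≤ c₀ := by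
    have h1 := D.κ_le_c₀
    rw [e]
    have := D.c₀_pos
    linarith
  have h3 := D.small' C hi.1 ht hc0 hx₀ hN0 hx'
  have h4 : ‖h.toFun x' - z‖ ≤ (δ + 2 / 2 ^ j) * C.sT t := by
    rw [norm_sub_rev] at h3
    calc ‖h.toFun x' - z‖ = ‖(h.toFun x' - h.toFun x₀) + (h.toFun x₀ - z)‖ := by congr 1; abel
      _ ≤ ‖h.toFun x' - h.toFun x₀‖ + ‖h.toFun x₀ - z‖ := norm_add_le _ _
      _ ≤ (δ + 2 / 2 ^ j) * C.sT t := by linarith
  have hcmp := (D.comp C (c' := δ + 2 / 2 ^ j) (by rw [e]; linarith) hz hq h4).1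
  have h5 : ‖g x - h.toFun x'‖ ≤ 400 * (o3 n * C.sT t) := by
    refine (hx2 q hq).trans ?_
    show 100 * (o3 n * C.sT q) ≤ _
    have := mul_le_mul_of_nonneg_left hcmp ho.le
    linarith
  have h6 : (δ + 2 / 2 ^ j) * C.sT t ≤ 3 * (o3 n * C.sT t) := by
    rw [e, ← mul_assoc 3]
    refine mul_le_mul_of_nonneg_right ?_ hTt.le
    linarith
  have h7 : 4000 * (o3 n * C.sT t) ≤ (D.G C).κ t := by
    show _ ≤ κ3 n * C.sT t
    have := mul_le_mul_of_nonneg_right hκo hTt.le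
    linarith
  have h8 : 0 < o3 n * C.sT t := mul_pos ho hTt
  calc ‖g x - z‖ = ‖(g x - h.toFun x') + (h.toFun x' - z)‖ := by congr 1; abel
    _ ≤ ‖g x - h.toFun x'‖ + ‖h.toFun x' - z‖ := norm_add_le _ _
    _ ≤ (D.G C).κ t / 8 := by linarith

end KIn3

end Vale.Agent.P073.H926
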