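import Vale.Agent.P073.H926.DatB


/-!
# P073, block [K3C]: ROUND P, the data ([DAT]), part C: drawn cells without peeled face miss the
plates
-/

open Set Metric Topology Filter

namespace Vale.Agent.P073.H926

open _root_.P073 _root_.P073.Net _root_.P073.PA691 _root_.P073.TM
open Vale.Agent.P073.St (V)
open Vale.Agent.P073.H471 Vale.Agent.P073.H267
open Vale.Agent.P073.H73 (Mesh)
open Vale.Agent.P073.H304 (Nb In Zmax)
open _root_.P073.H345 (PK PK_sub_ss τ_as_PK PB_sub_PK tg)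
open _root_.P073.H880.RP (Dat)

theorem convex_poly {Q : Set V} (h : H73.Poly Q) : Convex ℝ Q := by
  obtain ⟨n, ν, t, rfl⟩ := h.half
  rw [ofPred_forall]
  exact convex_iInter fun i => (convex_Iic (t i)).linear_preimage (ν i).toLinearMap

theorem closure_interior_poly {Q : Set V} (h : H73.Poly Q) : closure (interior Q) = Q := by
  rw [(convex_poly h).closure_interior_eq_closure_of_nonempty_interior h.int,
    h.cpt.isClosed.closure_eq]

variable {c₀ n δ : ℝ} {j : ℕ} {Ω Λ : Set V} {v w : V} {ρ : V → ℝ} {M : Mesh Ω} {h : ConHomeo Ω Λ}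
  {J₀ J : Set (ℕ × (Fin 3 → ℤ))} {P Z : Set M.ι} {K : BoxCx Λ w} {x y : V} {q t : K.T}
  {h1 : ConHomeo Ω Λ}

/-- points of an open set next to a point of a compact piece of the mesh -/
theorem exists_mem_image_interior {Q : Set V} (hQ : H73.Poly Q) (hQΩ : Q ⊆ Ω) {x : V} (hx : x ∈ Q)
    (g : ConHomeo Ω Λ) {U : Set V} (hU : U ∈ 𝓝 (g.toFun x)) :
    ∃ x' ∈ interior Q, g.toFun x' ∈ U := by
  have h1 : x ∈ closure (interior Q) := by rw [closure_interior_poly hQ]; exact hx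
  have h2 : ContinuousWithinAt g.toFun (interior Q) x :=
    (g.cont x (hQΩ hx)).mono (interior_subset.trans hQΩ)
  have h3 := h2.mem_closure_image h1
  obtain ⟨_, hy, ⟨x', hx', rfl⟩⟩ := mem_closure_iff_nhds.1 h3 U hU
  exact ⟨x', hx', hy⟩

namespace KIn3

variable (D : KIn3 c₀ n j δ v w ρ M h J₀ J P Z) (C : Cells ρ w K)

/-- **the protected side** next to a point of a protected cell in a plate -/
theorem side (hpr : ∀ i ∈ P, h1.toFun '' M.Q i = h.toFun '' M.Q i) {s : K.S} {z : V}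
    (hz : z ∈ PK (D.G C) s) {i i' : M.ι} (hi : i ∉ P) (hi' : i' ∈ P)
    (hzi : z ∈ h1.toFun '' M.Q i) (hzi' : z ∈ h1.toFun '' M.Q i') :
    ∃ r > 0, ∃ σ : ℝ, (σ = 1 ∨ σ = -1) ∧ (∀ y ∈ ball z r, 0 ≤ σ * (y (K.nrm s) - z (K.nrm s)) →
      y ∈ h1.toFun '' M.Q i') ∧
      ∀ y ∈ ball z r, ∀ i'' ∈ P, y ∈ h1.toFun '' M.Q i → y ∈ h1.toFun '' M.Q i'' →
        y (K.nrm s) = z (K.nrm s) := by
  have hτ := (D.B C).τ_pos s
  obtain ⟨hl1, hl2⟩ := K.s_lev s
  set a₀ : ℝ := 1 / 2 ^ j / 2 * C.sT (K.sm s) with ha₀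
  set a₁ : ℝ := 1 / 2 ^ j / 2 * C.sT (K.sp s) with ha₁
  have hη : (0:ℝ) < 1 / 2 ^ j := η_pos
  have h0 : 0 < a₀ := mul_pos (by positivity) (C.sT_pos _)
  have h1' : 0 < a₁ := mul_pos (by positivity) (C.sT_pos _)
  -- common points of protected and other cells
  have key : ∀ y ∈ PX (D.G C) s, ∀ i'' ∈ P, y ∈ h1.toFun '' M.Q i → y ∈ h1.toFun '' M.Q i'' →
      ∃ q, C.fT q ∈ J ∧ (∀ y, y ∈ h1.toFun '' M.Q i'' ↔
        ∀ k, K.lo q k + 1 / 2 ^ j / 2 * C.sT q ≤ y k ∧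
          y k ≤ K.hi q k - 1 / 2 ^ j / 2 * C.sT q) ∧
      ((q = K.sm s ∧ y (K.nrm s) - K.slo s (K.nrm s) = -a₀) ∨
        (q = K.sp s ∧ y (K.nrm s) - K.slo s (K.nrm s) = a₁)) := by
    rintro y hy i'' hi'' ⟨x, hx, rfl⟩ hy''
    obtain ⟨q, hqJ, hq⟩ := D.interior_mid_sub C hpr hi''
    have e1 := (hq _).1 hy''
    have hyc := mem_cube_of_mid C e1
    have e2 := (mid_iff_PX (G := D.G C) hy hyc (D.η_κ C q)).1.1 e1
    have e3 : |h1.toFun x (K.nrm s) - K.slo s (K.nrm s)| ≤ 1 / 2 ^ j / 2 * C.sT q := by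
      by_contra hcon
      push Not at hcon
      exact D.not_int_mid1 C hpr hi hqJ hx
        ((mid_iff_PX (G := D.G C) hy hyc (D.η_κ C q)).2.2 hcon)
    obtain ⟨-, -, h5⟩ := pos_PX (G := D.G C) hy hyc
    refine ⟨q, hqJ, hq, ?_⟩
    rcases h5 with ⟨rfl, h5, -⟩ | ⟨rfl, h5, -⟩
    · left
      rw [hl1] at h5
      exact ⟨rfl, by linarith⟩
    · right
      rw [hl2] at h5
      exact ⟨rfl, by linarith⟩
  obtain ⟨q, hqJ, hq, hcase⟩ := key z (PK_sub_PX s hz) i' hi' hzi hzi'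
  set r := min (min a₀ a₁) ((D.B C).τ s / 4) with hr
  have hr0 : 0 < r := lt_min (lt_min h0 h1') (by positivity)
  have hra₀ : r ≤ a₀ := (min_le_left _ _).trans (min_le_left _ _)
  have hra₁ : r ≤ a₁ := (min_le_left _ _).trans (min_le_right _ _)
  have hPX : ∀ y ∈ ball z r, y ∈ PX (D.G C) s := fun y hy =>
    PX_of_near hz (by
      rw [mem_ball, dist_eq_norm] at hy
      exact hy.le.trans (min_le_right _ _))
  have hw : ∀ y ∈ ball z r, |y (K.nrm s) - z (K.nrm s)| < r := fun y hy => by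
    rw [mem_ball, dist_eq_norm] at hy
    exact (abs_sub_le_norm _ _ _).trans_lt hy
  have hΛ : ∀ y ∈ ball z r, y ∈ Λ := fun y hy => ss_subset s (PX_sub_ss s (hPX y hy))
  refine ⟨r, hr0, ?_⟩
  rcases hcase with ⟨rfl, hzn⟩ | ⟨rfl, hzn⟩
  · refine ⟨-1, Or.inr rfl, fun y hy hs => (hq y).2 ?_, fun y hy i'' hi'' hyi hyi'' => ?_⟩
    · obtain ⟨qy, hqy⟩ := K.cover _ (hΛ y hy)
      obtain ⟨-, -, h5⟩ := pos_PX (G := D.G C) (hPX y hy) hqy
      rcases h5 with ⟨rfl, h5, -⟩ | ⟨rfl, h5, -⟩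
      · refine (mid_iff_PX (G := D.G C) (hPX y hy) hqy (D.η_κ C _)).1.2 ?_
        rw [hl1] at h5
        rw [← h5]
        linarith
      · rw [hl2] at h5
        have := abs_nonneg (y (K.nrm s) - K.slo s (K.nrm s))
        linarith
    · obtain ⟨_, _, _, h6⟩ := key y (hPX y hy) i'' hi'' hyi hyi''
      rcases h6 with ⟨-, h6⟩ | ⟨-, h6⟩
      · linarith
      · have h7 := abs_lt.1 (hw y hy)
        linarith [h7.2]
  · refine ⟨1, Or.inl rfl, fun y hy hs => (hq y).2 ?_, fun y hy i'' hi'' hyi hyi'' => ?_⟩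
    · obtain ⟨qy, hqy⟩ := K.cover _ (hΛ y hy)
      obtain ⟨-, -, h5⟩ := pos_PX (G := D.G C) (hPX y hy) hqy
      rcases h5 with ⟨rfl, h5, -⟩ | ⟨rfl, h5, -⟩
      · rw [hl1] at h5
        have := abs_nonneg (y (K.nrm s) - K.slo s (K.nrm s))
        linarith
      · refine (mid_iff_PX (G := D.G C) (hPX y hy) hqy (D.η_κ C _)).1.2 ?_
        rw [hl2] at h5
        rw [← h5]
        linarith
    · obtain ⟨_, _, _, h6⟩ := key y (hPX y hy) i'' hi'' hyi hyi''
      rcases h6 with ⟨-, h6⟩ | ⟨-, h6⟩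
      · have h7 := abs_lt.1 (hw y hy)
        linarith [h7.1]
      · linarith

/-- **drawn cells without peeled face miss the plates** -/
theorem gc_off
    (hT : ∀ k, ∀ x ∈ M.F k, ∀ q, h.toFun x ∈ K.cube q → ‖h1.toFun x - h.toFun x‖ ≤ (D.G C).om q)
    (hpr : ∀ i ∈ P, h1.toFun '' M.Q i = h.toFun '' M.Q i) {i : M.ι} (hi : i ∈ (D.dat C).Zd)
    (hG : ∀ k, M.F k ⊆ M.Q i → k ∉ (D.dat C).Peel (D.G C) h1) (hx : x ∈ M.Q i) (s : K.S) :
    h1.toFun x ∉ (D.G C).PB 1 s := by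
  intro hxs
  have hn := D.nearC_drawn C hT hi
  have hPK : h1.toFun x ∈ PK (D.G C) s := PB_sub_PK (by norm_num) s hxs
  obtain ⟨hs, hw⟩ := D.drawn_PK C hi hn hx hPK
  have hosc : ∀ y ∈ M.Q i, ‖h1.toFun y - h1.toFun x‖ ≤ 11 * (D.G C).oS s := fun y hy =>
    (D.pos_PK C hs hi.1 hn hx hPK hy).2
  have hΩ := D.bΩ.1
  have hΛ := D.bΛ.1
  have hQΩ := M.sub i
  have hcQ := (M.poly i).cpt
  -- numbers
  set l := tg s false with hl
  have hln : l ≠ K.nrm s := _root_.P073.H345.tg_ne s false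
  have n1 := Geo.size (D.G C) hln
  have n2 := (D.G C).a_u s
  have n3 := Geo.p_a (G := D.G C) s
  have n4 := (D.G C).oS_τ s
  have n5 := (D.G C).τ_p s
  have n6 := (D.B C).τ_pos s
  have n7 : 0 < (D.G C).oS s := by
    have := D.ω3S_oS C s
    have := D.ω3S_pos C s
    linarith
  obtain ⟨hP1, hP2⟩ := Geo.mem_PB.1 hxs
  have hPl := hP1 l hln
  rw [one_mul] at hPl
  -- the direction
  obtain ⟨σ, hσ, hray⟩ : ∃ σ : ℝ, (σ = 1 ∨ σ = -1) ∧ ∀ t ∈ Icc 0 (12 * (D.G C).oS s),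
      Function.update (h1.toFun x) l (h1.toFun x l + σ * t) ∈ (D.G C).PB 1 s := by
    have aux : ∀ a : ℝ, K.slo s l + (D.G C).p s ≤ a → a ≤ K.shi s l - (D.G C).p s →
        Function.update (h1.toFun x) l a ∈ (D.G C).PB 1 s := by
      intro a ha ha'
      refine Geo.mem_PB.2 ⟨fun k hk => ?_, ?_⟩
      · by_cases hkl : k = l
        · subst hkl
          rw [Function.update_self, one_mul]
          exact ⟨ha, ha'⟩
        · rw [Function.update_of_ne hkl]
          exact hP1 k hk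
      · rw [Function.update_of_ne hln.symm]
        exact hP2
    rcases le_total (h1.toFun x l) ((K.slo s l + K.shi s l) / 2) with h3 | h3
    · refine ⟨1, Or.inl rfl, fun t ht => aux _ ?_ ?_⟩
      · linarith [ht.1]
      · linarith [ht.2]
    · refine ⟨-1, Or.inr rfl, fun t ht => aux _ ?_ ?_⟩
      · linarith [ht.2]
      · linarith [ht.1]
  have hσ1 : |σ| = 1 := by rcases hσ with rfl | rfl <;> simp
  set ray : ℝ → V := fun t => Function.update (h1.toFun x) l (h1.toFun x l + σ * t) with hrd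
  have hrc : Continuous ray := continuous_const.update l (by fun_prop)
  have hIc : IsCompact (h1.toFun '' M.Q i) := hcQ.image_of_continuousOn (h1.cont.mono hQΩ)
  set T : Set ℝ := Icc 0 (12 * (D.G C).oS s) ∩ ray ⁻¹' (h1.toFun '' M.Q i) with hTd
  have hTc : IsCompact T := isCompact_Icc.inter_right (hIc.isClosed.preimage hrc)
  have hT0 : (0:ℝ) ∈ T := by
    refine ⟨⟨le_rfl, by positivity⟩, ?_⟩
    have h3 : ray 0 = h1.toFun x := by
      rw [hrd]
      simp only [mul_zero, add_zero, Function.update_eq_self]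
    exact ⟨x, hx, h3.symm⟩
  set tm := sSup T with htm
  have htT : tm ∈ T := hTc.sSup_mem ⟨0, hT0⟩
  have hmax : ∀ t ∈ T, t ≤ tm := fun t ht => le_csSup hTc.bddAbove ht
  obtain ⟨xm, hxm, hxe⟩ := htT.2
  have hzPB : ray tm ∈ (D.G C).PB 1 s := hray tm htT.1
  have htm11 : tm ≤ 11 * (D.G C).oS s := by
    have h3 := (abs_sub_le_norm _ _ l).trans (hosc xm hxm)
    rw [hxe, hrd] at h3
    simp only [Function.update_self, add_sub_cancel_left, abs_mul, hσ1, one_mul] at h3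
    exact (le_abs_self _).trans h3
  -- later points of the ray are not in the image
  have hlater : ∀ᶠ ε in 𝓝[>] (0:ℝ), ray (tm + ε) ∉ h1.toFun '' M.Q i := by
    have h3 : ∀ᶠ ε in 𝓝[>] (0:ℝ), ε < (D.G C).oS s :=
      nhdsWithin_le_nhds (Iio_mem_nhds n7)
    filter_upwards [h3, self_mem_nhdsWithin] with ε hε hε0 hmem
    have hε0' : 0 < ε := hε0
    have : tm + ε ∈ T := ⟨⟨by linarith [htT.1.1], by linarith⟩, hmem⟩
    linarith [hmax _ this]
  have hraytend : Tendsto (fun ε => ray (tm + ε)) (𝓝[>] 0) (𝓝 (ray tm)) := by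
    have h3 : Continuous fun ε => ray (tm + ε) := hrc.comp (by fun_prop)
    have h4 := h3.tendsto 0
    rw [add_zero] at h4
    exact h4.mono_left nhdsWithin_le_nhds
  -- the exit point is on the boundary
  have hxfr : xm ∈ frontier (M.Q i) := by
    rw [hcQ.isClosed.frontier_eq]
    refine ⟨hxm, fun hint => ?_⟩
    have h3 : h1.toFun '' interior (M.Q i) ∈ 𝓝 (ray tm) :=
      (isOpen_image_interior h1 hΛ hQΩ).mem_nhds ⟨xm, hint, hxe⟩
    obtain ⟨ε, hε1, hε2⟩ := ((hraytend.eventually h3).and hlater).exists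
    exact hε2 (image_mono interior_subset hε1)
  -- all faces at the exit point are faces of protected cells
  have hPF : ∀ k, M.F k ⊆ M.Q i → xm ∈ M.F k → ∃ i' ∈ P, M.F k ⊆ M.Q i' := by
    intro k hk hxk
    by_contra hcon
    push Not at hcon
    refine hG k hk ⟨s, hs, ⟨⟨i, hi, hk⟩, hcon⟩, xm, hxk, ?_⟩
    rw [hxe]; exact hzPB
  obtain ⟨k₀, hxk₀, hk₀⟩ := M.bd i xm hxfr
  obtain ⟨i', hi', hk₀'⟩ := hPF k₀ hk₀ hxk₀
  have hzPK : ray tm ∈ PK (D.G C) s := PB_sub_PK (by norm_num) s hzPB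
  obtain ⟨r, hr, σ', hσ', hside, hsame⟩ := D.side C hpr hzPK hi.1 hi' ⟨xm, hxm, hxe⟩
    ⟨xm, hk₀' hxk₀, hxe⟩
  -- the other faces are far
  have hfin : {k | M.F k ⊆ M.Q i ∧ xm ∉ M.F k}.Finite := by
    refine (M.ffin (M.Q i) hQΩ hcQ).subset fun k hk => ?_
    obtain ⟨x', hx'⟩ : (M.F k).Nonempty := by
      obtain ⟨φ, -⟩ := (M.fat k).chart
      exact ⟨_, φ.mapsTo (x := (0, 0)) ⟨⟨le_rfl, zero_le_one⟩, ⟨le_rfl, zero_le_one⟩⟩⟩
    exact ⟨x', hx', hk.1 hx'⟩
  have hFc : ∀ k, IsClosed (h1.toFun '' M.F k) := fun k =>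
    ((H193.pgn_of_fat (M.fat k)).cpt.image_of_continuousOn
      (h1.cont.mono (H193.mesh_sub M k))).isClosed
  have hcl : IsClosed (⋃ k ∈ {k | M.F k ⊆ M.Q i ∧ xm ∉ M.F k}, h1.toFun '' M.F k) :=
    hfin.isClosed_biUnion fun k _ => hFc k
  have hznot : ray tm ∉ ⋃ k ∈ {k | M.F k ⊆ M.Q i ∧ xm ∉ M.F k}, h1.toFun '' M.F k := by
    intro hmem
    obtain ⟨k, hk, x', hx', he⟩ := mem_iUnion₂.1 hmem
    have : x' = xm := h1.injOn (hQΩ (hk.1 hx')) (hQΩ hxm) (he.trans hxe.symm)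
    rw [this] at hx'
    exact hk.2 hx'
  obtain ⟨r', hr', hb'⟩ := Metric.isOpen_iff.1 hcl.isOpen_compl _ hznot
  set R := min r r' with hR
  have hR0 : 0 < R := lt_min hr hr'
  -- the half ball
  set A : Set V := ball (ray tm) R ∩ {y | σ' * (y (K.nrm s) - ray tm (K.nrm s)) < 0} with hA
  have hAc : IsPreconnected A := by
    refine (Convex.inter (convex_ball _ _) ?_).isPreconnected
    have h3 : {y : V | σ' * (y (K.nrm s) - ray tm (K.nrm s)) < 0} =
        (σ' • LinearMap.proj (K.nrm s) : V →ₗ[ℝ] ℝ) ⁻¹' Iio (σ' * ray tm (K.nrm s)) := by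
      ext y
      simp only [mem_ofPred_eq, mem_preimage, mem_Iio, LinearMap.smul_apply, LinearMap.proj_apply,
        smul_eq_mul]
      constructor <;> intro h <;> linarith
    rw [h3]
    exact (convex_Iio _).linear_preimage _
  have hAfr : ∀ y ∈ A, y ∉ frontier (h1.toFun '' M.Q i) := by
    rintro y ⟨hy1, hy2⟩ hyf
    obtain ⟨x', hx', rfl⟩ := exists_of_frontier h1 hΛ hcQ hQΩ hyf
    obtain ⟨k, hxk, hk⟩ := M.bd i x' hx'
    have hxmk : xm ∈ M.F k := by
      by_contra hcon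
      exact hb' (ball_subset_ball (min_le_right _ _) hy1)
        (mem_iUnion₂.2 ⟨k, ⟨hk, hcon⟩, x', hxk, rfl⟩)
    obtain ⟨i'', hi'', hki''⟩ := hPF k hk hxmk
    have h3 := hsame _ (ball_subset_ball (min_le_left _ _) hy1) i'' hi''
      ⟨x', hk hxk, rfl⟩ ⟨x', hki'' hxk, rfl⟩
    have hy2' : σ' * (h1.toFun x' (K.nrm s) - ray tm (K.nrm s)) < 0 := hy2
    rw [h3, sub_self, mul_zero] at hy2'
    exact lt_irrefl _ hy2'
  -- it meets the image
  have hAne : (A ∩ h1.toFun '' M.Q i).Nonempty := by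
    obtain ⟨x', hx', hx''⟩ := exists_mem_image_interior (M.poly i) hQΩ hxm h1
      (U := ball (ray tm) R) (by rw [hxe]; exact ball_mem_nhds _ hR0)
    refine ⟨h1.toFun x', ⟨hx'', ?_⟩, mem_image_of_mem _ (interior_subset hx')⟩
    show σ' * (h1.toFun x' (K.nrm s) - ray tm (K.nrm s)) < 0
    by_contra hcon
    push Not at hcon
    obtain ⟨x'', hx3, he⟩ := hside _ (ball_subset_ball (min_le_left _ _) hx'') hcon
    have : x'' = x' := h1.injOn (M.sub i' hx3) (hQΩ (interior_subset hx')) he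
    subst this
    have hne : i ≠ i' := fun e => hi.1 (e ▸ hi')
    exact disjoint_left.1 (M.disj i i' hne) hx' hx3
  have hAsub : A ⊆ h1.toFun '' M.Q i := by
    intro y hy
    by_contra hcon
    have hint : ∀ y ∈ A, y ∈ h1.toFun '' M.Q i → y ∈ interior (h1.toFun '' M.Q i) := by
      intro y hy hyS
      by_contra hn
      exact hAfr y hy (by rw [hIc.isClosed.frontier_eq]; exact ⟨hyS, hn⟩)
    obtain ⟨y₀, hy₀, hy₀'⟩ := hAne
    obtain ⟨y', -, hy', hy''⟩ := hAc _ _ isOpen_interior hIc.isClosed.isOpen_compl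
      (fun y hy => by
        by_cases h : y ∈ h1.toFun '' M.Q i
        · exact Or.inl (hint y hy h)
        · exact Or.inr h) ⟨y₀, hy₀, hint y₀ hy₀ hy₀'⟩ ⟨y, hy, hcon⟩
    exact hy'' (interior_subset hy')
  -- contradiction
  have hball : ∀ᶠ ε in 𝓝[>] (0:ℝ), ray (tm + ε) ∈ ball (ray tm) R :=
    hraytend.eventually (ball_mem_nhds _ hR0)
  obtain ⟨ε, hε1, hε2⟩ := (hball.and hlater).exists
  refine hε2 (hIc.isClosed.closure_subset_iff.2 hAsub ?_)
  -- the point is a limit of points of `A`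
  have hnr : ray (tm + ε) (K.nrm s) = ray tm (K.nrm s) := by
    rw [hrd]
    simp only [Function.update_of_ne hln.symm]
  have h3 : Tendsto (fun η : ℝ => Function.update (ray (tm + ε)) (K.nrm s)
      (ray tm (K.nrm s) - σ' * η)) (𝓝[>] 0) (𝓝 (ray (tm + ε))) := by
    have h4 : Continuous fun η : ℝ => Function.update (ray (tm + ε)) (K.nrm s)
      (ray tm (K.nrm s) - σ' * η) := continuous_const.update _ (by fun_prop)
    have h5 := h4.tendsto 0
    have h6 : Function.update (ray (tm + ε)) (K.nrm s) (ray tm (K.nrm s) - σ' * 0) =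
        ray (tm + ε) := by
      rw [mul_zero, sub_zero, ← hnr, Function.update_eq_self]
    rw [h6] at h5
    exact h5.mono_left nhdsWithin_le_nhds
  refine mem_closure_of_tendsto h3 ?_
  have h4 := h3.eventually (isOpen_ball.mem_nhds hε1)
  filter_upwards [h4, self_mem_nhdsWithin] with η hη1 hη2
  refine ⟨hη1, ?_⟩
  show σ' * (Function.update (ray (tm + ε)) (K.nrm s) (ray tm (K.nrm s) - σ' * η) (K.nrm s) -
    ray tm (K.nrm s)) < 0
  rw [Function.update_self]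
  have hη0 : 0 < η := hη2
  rcases hσ' with rfl | rfl <;> linarith

/-- **given cells which are not protected miss the plates** -/
theorem gc_PB
    (hT : ∀ k, ∀ x ∈ M.F k, ∀ q, h.toFun x ∈ K.cube q → ‖h1.toFun x - h.toFun x‖ ≤ (D.G C).om q)
    (hpr : ∀ i ∈ P, h1.toFun '' M.Q i = h.toFun '' M.Q i) {i : M.ι}
    (hi : i ∈ (D.dat C).Gc (D.G C) h1) (hiP : i ∉ P) (s : K.S) :
    Disjoint (h1.toFun '' M.Q i) ((D.G C).PB 1 s) := by
  rw [disjoint_left]
  rintro _ ⟨x, hx, rfl⟩ hxs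
  rcases hi with hi | ⟨hi, -, hG⟩
  · exact hiP hi
  · exact D.gc_off C hT hpr hi hG hx s hxs

end KIn3

end Vale.Agent.P073.H926
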