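import Vale.Agent.P073.H926.K3CTop
import Vale.Agent.P073.H726.Final

/-!
# P073, H926: all exponents, from 880's three inputs (joint check)
-/

namespace Vale.Agent.P073.H926



/-- all exponents, from the chain and the rows -/
theorem full_of_rows {C₀ : ℝ} (hC₀ : 1 ≤ C₀) (HC : Top880.Chain5 C₀)
    (HR : ∀ p : ℝ, 3 ≤ p → Top880.RowsS p C₀) (HO : Top880.RowsO C₀) {p : ℝ} (hp : 1 ≤ p) :
    H608.Full p :=
  H726.full_of_k3c (fun q hq => k3c_of_rows (by linarith) hC₀ HC (HR q hq) HO) hp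

end Vale.Agent.P073.H926
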