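import Vale.Agent.P073.H880.TopF
import Vale.Agent.P073.H926.RefIn

/-!
# P073, H926: `K3C` from 880's three inputs
-/

namespace Vale.Agent.P073.H926

open Vale.Agent.P073.H304 (K3C)

/-- **`K3C` from the chain and the rows** -/
theorem k3c_of_rows {p : ℝ} (hp : 2 < p) {C₀ : ℝ} (hC₀ : 1 ≤ C₀) (HC : Top880.Chain5 C₀)
    (HR : Top880.RowsS p C₀) (HO : Top880.RowsO C₀) : K3C p :=
  _root_.P073.H399.k3c_of_k3r (by linarith) (fun D C => refInT D C) (Top880.k3r_of hp hC₀ HC HR HO)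

end Vale.Agent.P073.H926
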