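import Vale.Agent.P073.H936.ProdL

/-!
# P073, H926: [MB] the macroscopic product structure of a band
-/

open Set Metric Topology Filter

namespace P073.H926

open P073 P073.TR P073.H936

variable {E : Type*} [NormedAddCommGroup E] [NormedSpace ℝ E] {ι : Type*} {C : Set E} {u : E → ℝ}
  {M : ι → Set E} {b η : ℝ}

/-- a product structure on `[b - η, b + η]`, with parameter in `[-1, 1]` -/
theorem exists_of_prodOn (hη : 0 < η) (P : ProdOn C u M b (b - η) (b + η)) :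
    ∃ Γ : ConHomeo (lev C u b ×ˢ Icc (-1:ℝ) 1) (band C u b η),
      (∀ z s, Γ.toFun (z, s) = P.G.toFun (z, b + η * s)) ∧
      (∀ z ∈ lev C u b, ∀ s ∈ Icc (-1:ℝ) 1, u (Γ.toFun (z, s)) = b + η * s) ∧
      (∀ z ∈ lev C u b, Γ.toFun (z, 0) = z) ∧
      ∀ i, ∀ z ∈ lev C u b, ∀ s ∈ Icc (-1:ℝ) 1, (Γ.toFun (z, s) ∈ M i ↔ z ∈ M i) := by
  have hab : b - η < b + η := by linarith
  have h11 : (-1:ℝ) < 1 := by norm_num
  set A := ConHomeo.affIcc h11 hab with hA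
  have hform : ∀ s, A.toFun s = b + η * s := by
    intro s
    show b - η + (s - -1) / (1 - -1) * (b + η - (b - η)) = _
    ring
  have hs : ∀ s ∈ Icc (-1:ℝ) 1, b + η * s ∈ Icc (b - η) (b + η) := by
    intro s hs
    rw [← hform]; exact A.mapsTo hs
  set G := (((ConHomeo.refl P.conicalSet_lev').prod A).trans P.G).cast rfl
    (bnd_eq_band (C := C) (u := u)) with hG
  have hGf : ∀ z s, G.toFun (z, s) = P.G.toFun (z, b + η * s) := by
    intro z s
    show P.G.toFun (z, A.toFun s) = _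
    rw [hform]
  refine ⟨G, hGf, ?_, ?_, ?_⟩
  · intro z hz s hs'
    rw [hGf, P.level z hz _ (hs s hs')]
  · intro z hz
    rw [hGf, mul_zero, add_zero]
    exact P.base z hz
  · intro i z hz s hs'
    rw [hGf]
    exact P.vert i z hz _ (hs s hs')

/-- **[MB]**, the macroscopic product structure of a band. -/
theorem exists_mb [FiniteDimensional ℝ E] (hC : IsCompact C) (i₀ : ι) (hi₀ : M i₀ = C)
    (hu : ContinuousOn u C) (huc : ConicalOn u C) (hη : 0 < η)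
    (hbox : ∀ x ∈ band C u b η, ∃ (σ : ℝ →ₗ[ℝ] E) (r : ℝ), FlowBox u M x σ r) :
    ∃ Γ : ConHomeo (lev C u b ×ˢ Icc (-1:ℝ) 1) (band C u b η),
      (∀ z ∈ lev C u b, ∀ s ∈ Icc (-1:ℝ) 1, u (Γ.toFun (z, s)) = b + η * s) ∧
      (∀ z ∈ lev C u b, Γ.toFun (z, 0) = z) ∧
      ∀ i, ∀ z ∈ lev C u b, ∀ s ∈ Icc (-1:ℝ) 1, (Γ.toFun (z, s) ∈ M i ↔ z ∈ M i) := by
  obtain ⟨P⟩ := exists_prodOn (M := M) (t := b) (a := b - η) (b := b + η) hC i₀ hi₀ hu huc
    ⟨by linarith, by linarith⟩ (fun x hx => hbox x (by rwa [bnd_eq_band] at hx))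
  obtain ⟨Γ, -, h⟩ := exists_of_prodOn hη P
  exact ⟨Γ, h⟩

end P073.H926
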