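import Vale.Agent.P073.H267.Num
import Vale.Agent.P073.H926.MonoZ
import Vale.Agent.P073.H407.InW

/-!
# P073, block [K3C]: the processed boxes, geometry ([K3-NUM], part A)

The processed squares, edges, vertices are those of the tiles of `J₀`.
-/

open Set Metric Topology Filter

namespace Vale.Agent.P073.H926

open _root_.P073 _root_.P073.Net _root_.P073.PA691 _root_.P073.TM
open Vale.Agent.P073.St (V)
open Vale.Agent.P073.H471 Vale.Agent.P073.H267
open Vale.Agent.P073.H73 (Mesh)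
open Vale.Agent.P073.H304 (Nb In Zmax)

/-! ### geometry of the zones -/

section geo
variable {Λ : Set V} {v : V} {K : BoxCx Λ v} {S : Rad K} {W : Wid K S} {B : Boxes W} {G : Geo B}
  {x y : V} {q : K.T}

theorem abs_sub_le_norm (x y : V) (k : Fin 3) : |x k - y k| ≤ ‖x - y‖ := by
  have := norm_le_pi_norm (x - y) k
  rwa [Pi.sub_apply, Real.norm_eq_abs] at this

theorem near_of_le {s : K.S} (h : y ∈ W.ss s) (hx : ‖y - x‖ < 2 * W.as s y) : Near K s x :=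
  near_of_ss h fun k => by
    have := abs_sub_le_norm y x k
    rw [abs_sub_comm] at this
    exact this.trans_lt hx

theorem τ_as_P {s : K.S} (hy : y ∈ B.P s) : B.τ s ≤ W.as s y :=
  le_marg (B.τ_le s) fun k hk => by
    have := hy.1 k (by simpa using hk)
    have h2 := B.τ_le_u s
    constructor <;> linarith

theorem near_P {s : K.S} (hy : y ∈ B.P s) (hs : q = K.sm s ∨ q = K.sp s)
    (hx : ‖y - x‖ ≤ G.κ q) : Near K s x := by
  refine near_of_le (Zs_subset (B.P_subset s hy)) (hx.trans_lt ?_)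
  have h1 := G.κ_τ q s hs
  have h2 := τ_as_P hy
  have h3 := B.τ_pos s
  linarith

theorem near_PB {c : ℝ} (hc : 1 / 2 ≤ c) {s : K.S} (hy : y ∈ G.PB c s)
    (hs : q = K.sm s ∨ q = K.sp s) (hx : ‖y - x‖ ≤ G.κ q) : Near K s x := by
  refine near_of_le (Zs_subset (Geo.PB_subset hc s hy)) (hx.trans_lt ?_)
  have h1 := G.κ_τ q s hs
  have h2 := Geo.τ_as_PB hc hy
  have h3 := B.τ_pos s
  linarith

theorem near_E {e : K.G} (hy : y ∈ B.E e) (he : K.edge e ⊆ K.cube q)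
    (hx : ‖y - x‖ ≤ G.κ q) : InTube S e x := by
  have h1 := G.κ_uT q e he
  have h2 := G.uT_lam e
  have h3 := G.lam_T e
  have h4 := B.T_le e
  have h5 := W.we_le e
  have h6 := G.uT_pos e
  have ha := G.κ_be q _ (he (TM.wa_mem K e))
  have hb := G.κ_be q _ (he (TM.wb_mem K e))
  have ha' := G.be_wv (K.a e)
  have hb' := G.be_wv (K.b e)
  have pa := G.be_pos (K.a e)
  have pb := G.be_pos (K.b e)
  obtain ⟨⟨hy1, hy2⟩, hy3⟩ := hy
  refine ⟨fun k hk => ?_, ?_, ?_⟩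
  · have h7 := abs_sub_le_norm y x k
    have h8 := hy3 k hk
    have h9 := abs_sub_le (x k) (y k) (K.w (K.a e) k)
    rw [abs_sub_comm (x k) (y k)] at h9
    linarith
  · have h7 := (abs_le.1 (abs_sub_le_norm y x (K.dir e))).2
    linarith
  · have h7 := (abs_le.1 (abs_sub_le_norm y x (K.dir e))).1
    linarith

theorem near_E_lt {e : K.G} (hy : y ∈ B.E e) (he : K.edge e ⊆ K.cube q)
    (hx : ‖y - x‖ ≤ G.κ q) {k : Fin 3} (hk : k ≠ K.dir e) :
    |x k - K.w (K.a e) k| < 2 * S.q e := by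
  have h1 := G.κ_uT q e he
  have h2 := G.uT_lam e
  have h3 := G.lam_T e
  have h4 := B.T_le e
  have h5 := W.we_le e
  have h6 := G.uT_pos e
  have h7 := abs_sub_le_norm y x k
  have h8 := hy.2 k hk
  have h9 := abs_sub_le (x k) (y k) (K.w (K.a e) k)
  rw [abs_sub_comm (x k) (y k)] at h9
  linarith

theorem near_Zv {i : K.W} (hy : y ∈ Zv W i) (hi : K.w i ∈ K.cube q) (hx : ‖y - x‖ ≤ G.κ q) :
    x ∈ closedBall (K.w i) (2 * S.r i) := by
  have h1 := G.κ_be q i hi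
  have h2 := G.be_wv i
  have h3 := W.wv_le i
  have h4 := G.be_pos i
  have h5 : dist y (K.w i) ≤ W.wv i := hy
  rw [mem_closedBall]
  have h6 := dist_triangle x y (K.w i)
  rw [dist_comm x y, dist_eq_norm y x] at h6
  linarith

theorem not_int_of_frontier (hx : x ∈ frontier (K.cube q)) :
    ¬ ∀ k, K.lo q k < x k ∧ x k < K.hi q k := by
  obtain ⟨-, k, hk⟩ := TM.mem_frontier_Icc3.1 hx
  intro h
  rcases hk with hk | hk
  · exact (h k).1.ne' hk
  · exact (h k).2.ne hk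

/-- a frontier point close to a square is in the square -/
theorem nrm_of_frontier {s : K.S} (h : Near K s x) (hx : x ∈ frontier (K.cube q)) :
    (q = K.sm s ∨ q = K.sp s) ∧ x (K.nrm s) = K.slo s (K.nrm s) := by
  have hq := isClosed_Icc.frontier_subset hx
  refine ⟨h.tile hq, ?_⟩
  rcases h.cases with ⟨-, h1⟩ | h1 | ⟨-, h1⟩
  · have h2 : q = K.sm s := by
      by_contra hne
      exact K.dis (K.sm s) q (Ne.symm hne) x h1 hq
    subst h2
    exact absurd h1 (not_int_of_frontier hx)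
  · exact h1.1
  · have h2 : q = K.sp s := by
      by_contra hne
      exact K.dis (K.sp s) q (Ne.symm hne) x h1 hq
    subst h2
    exact absurd h1 (not_int_of_frontier hx)

/-- a frontier point in an open tube -/
theorem off_of_frontier {e : K.G} (h : InTube S e x)
    (hlt : ∀ k, k ≠ K.dir e → |x k - K.w (K.a e) k| < 2 * S.q e) (hx : x ∈ frontier (K.cube q)) :
    K.edge e ⊆ K.cube q ∧ ∃ k, k ≠ K.dir e ∧ x k = K.w (K.a e) k ∧
      (K.w (K.a e) k = K.lo q k ∨ K.w (K.a e) k = K.hi q k) := by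
  obtain ⟨hq, k, hk⟩ := TM.mem_frontier_Icc3.1 hx
  have he := h.tile hq
  refine ⟨he, ?_⟩
  have ha := he (TM.wa_mem K e)
  have hb := he (TM.wb_mem K e)
  have hkd : k ≠ K.dir e := by
    rintro rfl
    rcases hk with hk | hk
    · linarith [h.lo, ha.1 (K.dir e)]
    · linarith [h.hi, hb.2 (K.dir e)]
  obtain ⟨hf1, hf2⟩ := tile_far S he hkd
  have h1 := abs_lt.1 (hlt k hkd)
  refine ⟨k, hkd, ?_⟩
  rcases hk with hk | hk
  · have h2 : K.w (K.a e) k = K.lo q k := by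
      by_contra hne
      linarith [hf1 hne]
    exact ⟨hk.trans h2.symm, Or.inl h2⟩
  · have h2 : K.w (K.a e) k = K.hi q k := by
      by_contra hne
      linarith [hf2 hne]
    exact ⟨hk.trans h2.symm, Or.inr h2⟩

theorem sq_frontier {s : K.S} (hs : q = K.sm s ∨ q = K.sp s) :
    K.sq s ⊆ frontier (K.cube q) := by
  intro z hz
  have h1 := slo_shi_nrm s
  obtain ⟨hl1, hl2⟩ := K.s_lev s
  have h2 : z (K.nrm s) = K.slo s (K.nrm s) :=
    le_antisymm ((hz.2 _).trans h1.ge) (hz.1 _)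
  rcases hs with rfl | rfl
  · exact TM.mem_frontier_Icc3.2 ⟨(TM.sq_subset K s).1 hz, K.nrm s, Or.inr (h2.trans hl1.symm)⟩
  · exact TM.mem_frontier_Icc3.2 ⟨(TM.sq_subset K s).2 hz, K.nrm s, Or.inl (h2.trans hl2.symm)⟩

theorem edge_frontier {e : K.G} (he : K.edge e ⊆ K.cube q) : K.edge e ⊆ frontier (K.cube q) := by
  intro z hz
  refine TM.mem_frontier_Icc3.2 ⟨he hz, ?_⟩
  by_contra hcon
  push Not at hcon
  exact notMem_edge_of_int (p := q) (fun k => ⟨lt_of_le_of_ne ((he hz).1 k) (hcon k).1.symm,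
    lt_of_le_of_ne ((he hz).2 k) (hcon k).2⟩) e hz

theorem w_frontier {i : K.W} (hi : K.w i ∈ K.cube q) : K.w i ∈ frontier (K.cube q) :=
  TM.mem_frontier_Icc3.2 ⟨hi, K.w_tile i q hi⟩

/-- supports at the squares -/
theorem dist_ss {s : K.S} (h : y ∈ W.ss s) (hs : q = K.sm s ∨ q = K.sp s) :
    ∃ x ∈ frontier (K.cube q), ‖y - x‖ ≤ 2 * W.ws s := by
  refine ⟨hat K s y, sq_frontier hs (sqo_subset_sq s (hat_mem h)), ?_⟩
  rw [norm_sub_rev, pi_norm_le_iff_of_nonneg (by linarith [W.ws_pos s])]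
  intro k
  rw [Pi.sub_apply, Real.norm_eq_abs]
  exact (abs_hat_sub_lt h k).le.trans (by linarith [as_le (W := W) s (y := y)])

theorem dist_se {e : K.G} (h : y ∈ W.se e) (he : K.edge e ⊆ K.cube q) :
    ∃ x ∈ frontier (K.cube q), ‖y - x‖ ≤ 2 * W.we e := by
  have h1 := inTube_of_se h
  refine ⟨foot K e y, edge_frontier he (foot_mem h1.lo.le h1.hi.le), ?_⟩
  rw [pi_norm_le_iff_of_nonneg (by linarith [W.we_pos e])]
  intro k
  rw [Pi.sub_apply, Real.norm_eq_abs]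
  by_cases hk : k = K.dir e
  · subst hk
    rw [foot_dir, sub_self, abs_zero]
    linarith [W.we_pos e]
  · rw [foot_ne hk]
    exact (abs_le_of_se h hk).le.trans (by linarith [ae_le (W := W) e (y := y)])

theorem dist_sv {i : K.W} (h : y ∈ W.sv i) (hi : K.w i ∈ K.cube q) :
    ∃ x ∈ frontier (K.cube q), ‖y - x‖ ≤ 2 * W.wv i :=
  ⟨K.w i, w_frontier hi, (mem_sv.1 h).le⟩

end geo

/-! ### tiles -/

section tiles
variable {Λ : Set V} {ρ : V → ℝ} {w : V} {K : BoxCx Λ w} {x y : V} {q t : K.T}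
  {J₀ J : Set (ℕ × (Fin 3 → ℤ))}

/-- sizes of nearby tiles -/
theorem sT_comp (C : Cells ρ w K) (hρ : SizeFn Λ ρ) (hx : x ∈ K.cube t) (hy : y ∈ K.cube q)
    (h : ‖y - x‖ ≤ C.sT t) : C.sT q ≤ 4 * C.sT t := by
  rw [norm_sub_rev] at h
  exact sT_near C hρ hx hy h

theorem sT_comp' (C : Cells ρ w K) (hρ : SizeFn Λ ρ) (hx : x ∈ K.cube t) (hy : y ∈ K.cube q)
    (h : ‖y - x‖ ≤ 1 / 8 * C.sT t) : C.sT t ≤ 4 * C.sT q := by
  rw [C.cube_eq] at hx hy
  have h1 := (C.tile t).1 x hx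
  have h2 := Net.NC.upper hρ (C.tile q) hy
  have h3 := hρ.lip x y
  rw [norm_sub_rev] at h3
  have e : C.sT q = 1 / 2 ^ (C.fT q).1 := rfl
  have e' : C.sT t = 1 / 2 ^ (C.fT t).1 := rfl
  have h4 : (4:ℝ) / 2 ^ (C.fT q).1 = 4 * (1 / 2 ^ (C.fT q).1) := by ring
  rw [e'] at h
  have h5 : (1:ℝ) / 2 ^ (C.fT t).1 ≤ 5 * (1 / 2 ^ (C.fT q).1) := by
    have : (0:ℝ) < 1 / 2 ^ (C.fT q).1 := by positivity
    nlinarith
  have h6 := TM.IsCell.pow_le_of (C := 5) (by norm_num) h5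
  rw [e, e']
  exact sd_le_of_le h6

/-- a point close to the frontier of a tile is in the shell of its own tile -/
theorem shell_of_near {κ : ℝ} (hy : y ∈ K.cube q) (hx : x ∈ frontier (K.cube t))
    (h : ‖y - x‖ ≤ κ) : ∃ k, y k ≤ K.lo q k + κ ∨ K.hi q k - κ ≤ y k := by
  by_contra hcon
  push Not at hcon
  have h1 : ∀ k, K.lo q k < x k ∧ x k < K.hi q k := fun k => by
    have h2 := abs_le.1 ((abs_sub_le_norm y x k).trans h)
    obtain ⟨h3, h4⟩ := hcon k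
    constructor <;> linarith
  by_cases hqt : q = t
  · subst hqt
    exact not_int_of_frontier hx h1
  · exact K.dis q t hqt x h1 (isClosed_Icc.frontier_subset hx)

/-- the processed tiles -/
def pT (C : Cells ρ w K) (J₀ : Set (ℕ × (Fin 3 → ℤ))) : Set K.T := {q | C.fT q ∈ J₀}

/-- the processed squares -/
def pS (C : Cells ρ w K) (J₀ : Set (ℕ × (Fin 3 → ℤ))) : Set K.S :=
  {s | K.sm s ∈ pT C J₀ ∨ K.sp s ∈ pT C J₀}

/-- the processed edges -/
def pG (C : Cells ρ w K) (J₀ : Set (ℕ × (Fin 3 → ℤ))) : Set K.G :=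
  {e | ∃ q ∈ pT C J₀, K.edge e ⊆ K.cube q}

/-- the processed vertices -/
def pW (C : Cells ρ w K) (J₀ : Set (ℕ × (Fin 3 → ℤ))) : Set K.W :=
  {i | ∃ q ∈ pT C J₀, K.w i ∈ K.cube q}

/-- the processed boxes of round T -/
def pB (C : Cells ρ w K) (J₀ : Set (ℕ × (Fin 3 → ℤ))) : Set (TBx K) :=
  Sum.inl '' pG C J₀ ∪ Sum.inr '' {h | h.s ∈ pS C J₀}

@[simp] theorem inl_mem_pB {C : Cells ρ w K} {e : K.G} :
    (.inl e : TBx K) ∈ pB C J₀ ↔ e ∈ pG C J₀ := by simp [pB]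

@[simp] theorem inr_mem_pB {C : Cells ρ w K} {h : Hang K} :
    (.inr h : TBx K) ∈ pB C J₀ ↔ h.s ∈ pS C J₀ := by simp [pB]

theorem mem_pS {C : Cells ρ w K} {s : K.S} (hq : q ∈ pT C J₀) (h : q = K.sm s ∨ q = K.sp s) :
    s ∈ pS C J₀ := by
  rcases h with rfl | rfl
  · exact Or.inl hq
  · exact Or.inr hq

theorem exists_of_pS {C : Cells ρ w K} {s : K.S} (hs : s ∈ pS C J₀) :
    ∃ q ∈ pT C J₀, q = K.sm s ∨ q = K.sp s := by
  rcases hs with h | h
  · exact ⟨_, h, Or.inl rfl⟩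
  · exact ⟨_, h, Or.inr rfl⟩

/-- edges of processed squares are processed -/
theorem pG_of_pS {C : Cells ρ w K} {s : K.S} {e : K.G} (hs : s ∈ pS C J₀)
    (he : K.edge e ⊆ K.sq s) : e ∈ pG C J₀ := by
  rcases hs with h | h
  · exact ⟨_, h, he.trans (TM.sq_subset K s).1⟩
  · exact ⟨_, h, he.trans (TM.sq_subset K s).2⟩

/-- vertices of processed squares are processed -/
theorem pW_of_pS {C : Cells ρ w K} {s : K.S} {i : K.W} (hs : s ∈ pS C J₀)
    (hi : K.w i ∈ K.sq s) : i ∈ pW C J₀ := by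
  rcases hs with h | h
  · exact ⟨_, h, (TM.sq_subset K s).1 hi⟩
  · exact ⟨_, h, (TM.sq_subset K s).2 hi⟩

/-- end points of processed edges are processed -/
theorem pW_of_pG {C : Cells ρ w K} {e : K.G} {i : K.W} (he : e ∈ pG C J₀)
    (hi : i = K.a e ∨ i = K.b e) : i ∈ pW C J₀ := by
  obtain ⟨q, hq, h⟩ := he
  rcases hi with rfl | rfl
  · exact ⟨q, hq, h (TM.wa_mem K e)⟩
  · exact ⟨q, hq, h (TM.wb_mem K e)⟩

theorem mem_Nb_one (C : Cells ρ w K) {c' : ℝ} :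
    y ∈ Nb w {C.fT t} c' ↔ ∃ x ∈ frontier (K.cube t), ‖y - x‖ ≤ c' * C.sT t := by
  have e : c' * C.sT t = c' / 2 ^ (C.fT t).1 := by
    show c' * (1 / 2 ^ (C.fT t).1) = _
    ring
  rw [e, C.cube_eq]
  constructor
  · rintro ⟨t', rfl, x, hx, hxy⟩
    exact ⟨x, hx, hxy⟩
  · rintro ⟨x, hx, hxy⟩
    exact ⟨_, rfl, x, hx, hxy⟩

theorem mem_Nb_of (C : Cells ρ w K) {c' : ℝ} (ht : t ∈ pT C J₀) (hy : y ∈ Nb w {C.fT t} c') :
    y ∈ Nb w J₀ c' := H304.Nb.anti (singleton_subset_iff.2 ht) hy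

theorem mem_Nb (C : Cells ρ w K) (hJ : ∀ t ∈ J₀, IsTile ρ w t.1 t.2) {c' : ℝ} :
    y ∈ Nb w J₀ c' ↔ ∃ t ∈ pT C J₀, ∃ x ∈ frontier (K.cube t), ‖y - x‖ ≤ c' * C.sT t := by
  constructor
  · rintro ⟨t, ht, x, hx, hxy⟩
    obtain ⟨q, hq⟩ := C.onT t.1 t.2 (hJ t ht)
    have hq' : C.fT q = t := hq
    refine ⟨q, by show C.fT q ∈ J₀; rwa [hq'], ?_⟩
    refine (mem_Nb_one C).1 ?_
    rw [hq']
    exact ⟨t, rfl, x, hx, hxy⟩
  · rintro ⟨t, ht, h⟩
    exact mem_Nb_of C ht ((mem_Nb_one C).2 h)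

end tiles

end Vale.Agent.P073.H926
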