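import Vale.Agent.P073.H926.DatC
import Vale.Agent.P073.H805.Marks2
import Vale.Agent.P073.H669.PLevB
import Vale.Agent.P073.H196.Croft6
import Vale.Agent.P073.H237.CovB
import Vale.Agent.P073.H936.K3R

/-!
# P073, H926: **[REFIN]**, part A: the slabs near the walls of height `τ / 4`

`wl G s β`: the height above the wall. The faces which meet a slab `QW G s β` of an unprotected side
are in no protected cell and off the shells.
-/

set_option linter.unusedSectionVars false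

open Set Metric Topology Filter

namespace Vale.Agent.P073.H926

open _root_.P073 _root_.P073.Net _root_.P073.PA691 _root_.P073.TM
open Vale.Agent.P073.St (V)
open Vale.Agent.P073.H471 Vale.Agent.P073.H267
open Vale.Agent.P073.H73 (Mesh)
open Vale.Agent.P073.H304 (Nb In Zmax)
open _root_.P073.H345 (PK PK_sub_ss τ_as_PK PB_sub_PK tg)
open _root_.P073.H880.RP (Dat)
open Vale.Agent.P073.H669 (Rel)
open Vale.Agent.P073.H936.KR (hgt QW)

section geo

variable {Λ : Set V} {v : V} {K : BoxCx Λ v} {S : Rad K} {W : Wid K S} {B : Boxes W} {G : Geo B}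
  {x y : V} {q : K.T}

/-- the sign of a side -/
def sgb (β : Bool) : ℝ := if β then 1 else -1

theorem sgb_abs (β : Bool) : |sgb β| = 1 := by cases β <;> simp [sgb]

theorem hgt_eq (s : K.S) (β : Bool) (y : V) :
    hgt K s β y = sgb β * (y (K.nrm s) - K.slo s (K.nrm s)) := by
  cases β
  · simp [hgt, sgb]
  · simp [hgt, sgb]

/-- height above the wall `τ / 4` -/
noncomputable def wl (_G : Geo B) (s : K.S) (β : Bool) : V →ᵃ[ℝ] ℝ where
  toFun y := sgb β * (y (K.nrm s) - K.slo s (K.nrm s)) - B.τ s / 4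
  linear := sgb β • (LinearMap.proj (K.nrm s) : V →ₗ[ℝ] ℝ)
  map_vadd' p u := by
    show sgb β * ((u + p) (K.nrm s) - K.slo s (K.nrm s)) - B.τ s / 4 =
      sgb β * u (K.nrm s) + (sgb β * (p (K.nrm s) - K.slo s (K.nrm s)) - B.τ s / 4)
    rw [Pi.add_apply]; ring

theorem wl_apply (G : Geo B) (s : K.S) (β : Bool) (y : V) :
    wl G s β y = hgt K s β y - B.τ s / 4 := by
  rw [hgt_eq]; rfl

theorem hgt_abs {s : K.S} {β : Bool} (h : 0 ≤ hgt K s β y) :
    |y (K.nrm s) - K.slo s (K.nrm s)| = hgt K s β y := by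
  rw [hgt_eq] at h ⊢
  rw [← abs_of_nonneg h, abs_mul, sgb_abs, one_mul]

theorem QW_sub_PK (s : K.S) (β : Bool) : QW G s β ⊆ PK G s := by
  rintro y ⟨h1, h2, h3⟩
  have hτ := B.τ_pos s
  exact ⟨h1, by rw [hgt_abs (by linarith)]; linarith⟩

/-- the tile of a point over a side -/
theorem tile_hgt {s : K.S} {β : Bool} (hy : y ∈ PX G s) (h0 : 0 < hgt K s β y)
    (hq : y ∈ K.cube q) : q = if β then K.sp s else K.sm s := by
  have h1 := pos_PX hy hq
  obtain ⟨hl1, hl2⟩ := K.s_lev s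
  have ha := abs_nonneg (y (K.nrm s) - K.slo s (K.nrm s))
  rcases h1.2.2 with ⟨rfl, h3, -⟩ | ⟨rfl, h3, -⟩
  · rw [hl1] at h3
    cases β
    · rfl
    · simp only [hgt, if_true] at h0
      linarith
  · rw [hl2] at h3
    cases β
    · simp [hgt] at h0
      linarith
    · rfl

/-- corners of the slab -/
noncomputable def qlo (G : Geo B) (s : K.S) (β : Bool) : V := fun k =>
  if k = K.nrm s then (if β then K.slo s k + 3 / 16 * B.τ s else K.slo s k - 5 / 16 * B.τ s)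
  else K.slo s k + 3 / 4 * G.p s

/-- upper corner of the slab -/
noncomputable def qhi (G : Geo B) (s : K.S) (β : Bool) : V := fun k =>
  if k = K.nrm s then (if β then K.slo s k + 5 / 16 * B.τ s else K.slo s k - 3 / 16 * B.τ s)
  else K.shi s k - 3 / 4 * G.p s

theorem QW_eq (s : K.S) (β : Bool) : QW G s β = Icc (qlo G s β) (qhi G s β) := by
  ext y
  constructor
  · rintro ⟨h1, h2, h3⟩
    have key : ∀ k, qlo G s β k ≤ y k ∧ y k ≤ qhi G s β k := by
      intro k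
      by_cases hk : k = K.nrm s
      · subst hk
        cases β <;> simp [qlo, qhi, hgt] at h2 h3 ⊢ <;> constructor <;> linarith
      · simp only [qlo, qhi, if_neg hk]
        exact h1 k hk
    exact ⟨fun k => (key k).1, fun k => (key k).2⟩
  · rintro ⟨h1, h2⟩
    refine ⟨fun k hk => ?_, ?_, ?_⟩
    · have a := h1 k
      have b := h2 k
      simp only [qlo, qhi, if_neg hk] at a b
      exact ⟨a, b⟩
    · have a := h1 (K.nrm s)
      have b := h2 (K.nrm s)
      cases β <;> simp [qlo, qhi, hgt] at a b ⊢ <;> linarith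
    · have a := h1 (K.nrm s)
      have b := h2 (K.nrm s)
      cases β <;> simp [qlo, qhi, hgt] at a b ⊢ <;> linarith

end geo

variable {c₀ n δ : ℝ} {j : ℕ} {Ω Λ : Set V} {v w : V} {ρ : V → ℝ} {M : Mesh Ω} {h : ConHomeo Ω Λ}
  {J₀ J : Set (ℕ × (Fin 3 → ℤ))} {P Z : Set M.ι} {K : BoxCx Λ w} {x y : V} {q t : K.T}

namespace KIn3

variable (D : KIn3 c₀ n j δ v w ρ M h J₀ J P Z) (C : Cells ρ w K)

/-- no protected cell over an unprotected side -/
theorem notP_of_hgt {s : K.S} {β : Bool} (hβ : ¬ (D.dat C).sd s β) {i : M.ι} (hx : x ∈ M.Q i)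
    (hm : h.toFun x ∈ PX (D.G C) s) (h0 : 0 < hgt K s β (h.toFun x)) : i ∉ P := by
  intro hi
  obtain ⟨q, hq, he⟩ := D.interior_mid_sub C (h1 := h) (fun _ _ => rfl) hi
  have h1 := (he (h.toFun x)).1 (mem_image_of_mem _ hx)
  have h2 := tile_hgt hm h0 (mem_cube_of_mid C h1)
  subst h2
  exact hβ hq

/-- **the positions of a cell which meets a slab** -/
theorem wcell_pos {s : K.S} (hs : s ∈ pS C J₀) {β : Bool} (hβ : ¬ (D.dat C).sd s β) {i : M.ι}
    (hx : x ∈ M.Q i) (hxQ : h.toFun x ∈ QW (D.G C) s β) (hy : y ∈ M.Q i) :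
    i ∉ P ∧ ‖h.toFun x - h.toFun y‖ ≤ ω3S δ C s ∧ h.toFun y ∈ PX (D.G C) s ∧
      (D.B C).τ s / 8 < hgt K s β (h.toFun y) := by
  have hPK := QW_sub_PK s β hxQ
  have hτ := (D.B C).τ_pos s
  have hiP : i ∉ P := D.notP_of_hgt C hβ hx (PK_sub_PX s hPK) (by
    have := hxQ.2.1
    linarith)
  have h1 := D.osc_S C hs hiP hx hy (PK_sub_ss s hPK)
  have h2 := D.ω3S_oS C s
  have h3 := D.ω3S_pos C s
  have h4 := (D.G C).oS_τ s
  refine ⟨hiP, h1, PX_of_near hPK ?_, ?_⟩
  · rw [norm_sub_rev]; linarith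
  · have h5 := hxQ.2.1
    have h6 := (abs_sub_le_norm (h.toFun x) (h.toFun y) (K.nrm s)).trans h1
    have h7 := abs_le.1 h6
    cases β <;> simp only [hgt, if_true, Bool.false_eq_true, if_false] at h5 ⊢ <;> linarith [h7.1, h7.2]

/-- **cells which meet a slab are off the shells** -/
theorem wcell_off {s : K.S} (hs : s ∈ pS C J₀) {β : Bool} (hβ : ¬ (D.dat C).sd s β) {i : M.ι}
    (hx : x ∈ M.Q i) (hxQ : h.toFun x ∈ QW (D.G C) s β) (hy : y ∈ M.Q i) :
    h.toFun y ∉ Nb w J₀ (2 * (1 / 2 ^ j)) := by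
  intro hN
  obtain ⟨-, -, hm, hgt⟩ := D.wcell_pos C hs hβ hx hxQ hy
  have hτ := (D.B C).τ_pos s
  rw [← hgt_abs (by linarith)] at hgt
  obtain ⟨t, ht, x₁, hx₁, hxy⟩ := (D.mem_Nb C).1 hN
  obtain ⟨q, hq⟩ := K.cover _ (h.mapsTo (M.sub i hy))
  have hη := D.η_le_κ
  have hη0 : (0:ℝ) < 1 / 2 ^ j := by positivity
  have hκ := D.κ_lt
  have hcmp := D.comp C (c' := 2 * (1 / 2 ^ j)) (by linarith) hx₁ hq hxy
  have hqs := tile_PX hm hq
  have hT := C.sT_pos q
  have hTt := C.sT_pos t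
  have hd : ‖h.toFun y - x₁‖ ≤ (D.G C).κ q := by
    refine hxy.trans ?_
    show 2 * (1 / 2 ^ j) * C.sT t ≤ κ3 n * C.sT q
    calc 2 * (1 / 2 ^ j) * C.sT t ≤ 2 * (1 / 2 ^ j) * (4 * C.sT q) := by gcongr; exact hcmp.2
      _ ≤ κ3 n * C.sT q := by nlinarith
  obtain ⟨h2, h3⟩ := nrm_of_frontier (near_PX hm hqs hd) hx₁
  have h4 := (abs_sub_le_norm (h.toFun y) x₁ (K.nrm s)).trans hd
  rw [h3] at h4
  have h5 := (D.G C).κ_τ q s hqs
  linarith

/-- finitely many slabs meet a compact set -/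
theorem fin_QW {X : Set V} (hX : IsCompact X) (hXΛ : X ⊆ Λ) :
    {a : K.S × Bool | (X ∩ QW (D.G C) a.1 a.2).Nonempty}.Finite := by
  have h1 : {s : K.S | (X ∩ PK (D.G C) s).Nonempty}.Finite := by
    have hlf := H669.lf_PK (D.G C)
    choose! O hO hfin using hlf
    obtain ⟨T, hT, hcov⟩ := hX.elim_nhds_subcover O fun y hy => hO y (hXΛ hy)
    refine (Set.Finite.biUnion T.finite_toSet fun z hz => hfin z (hXΛ (hT z hz))).subset ?_
    rintro s ⟨y, hyX, hy⟩
    obtain ⟨z, hz, hyz⟩ := mem_iUnion₂.1 (hcov hyX)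
    exact mem_iUnion₂.2 ⟨z, hz, y, hy, hyz⟩
  refine (h1.prod (Set.toFinite (univ : Set Bool))).subset ?_
  rintro ⟨s, β⟩ ⟨y, hyX, hy⟩
  exact ⟨⟨y, hyX, QW_sub_PK s β hy⟩, mem_univ _⟩

/-- the slabs are large -/
theorem QW_big {s : K.S} (β : Bool) {b : TBx K} (hne : (QW (D.G C) s β ∩ (D.G C).TB false b).Nonempty)
    (k : Fin 3) : 14 * ω3T δ C b < qhi (D.G C) s β k - qlo (D.G C) s β k := by
  obtain ⟨y, hy, hyb⟩ := hne
  have hss : y ∈ (D.W C).ss s := PK_sub_ss s (QW_sub_PK s β hy)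
  have hrel : Rel s b.ax b := by
    rcases b with e | H
    · have hZe := Geo.TB_subset_Ze e hyb
      exact ⟨edge_subset_sq hss hZe.1 (Ze_nJ hZe), rfl⟩
    · have hH : H.s = s := by
        by_contra hne
        exact (disjoint_ss (W := D.W C) hne).notMem_of_mem_left
          (Zs_subset (Geo.TB_subset_Zs H hyb)) hss
      exact ⟨hH, rfl⟩
  have h1 := (D.ω3T_le_S C hrel).1
  have h2 := D.ω3S_oS C s
  have h3 := D.ω3S_pos C s
  have h4 := (D.G C).oS_τ s
  have hτ := (D.B C).τ_pos s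
  have hτp := (D.G C).τ_p s
  by_cases hk : k = K.nrm s
  · subst hk
    cases β <;> simp [qlo, qhi] <;> linarith
  · simp only [qlo, qhi, if_neg hk]
    have h5 := _root_.P073.H237.Cov.side_len (D.G C) s hk
    -- `p ≤ a`
    have h6 : 2 * (D.G C).p s ≤ (D.G C).a s := by
      obtain ⟨i, hi⟩ : ∃ i, K.w i ∈ K.sq s := by
        obtain ⟨i, hi, -⟩ := _root_.P073.H237.Cov.a_le_wv (D.G C) s (slo_mem s) fun _ _ => Or.inl rfl
        exact ⟨i, hi ▸ slo_mem s⟩
      have h7 := (D.G C).p_be s i hi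
      have h8 := (D.G C).be_a s i hi
      have hp := Geo.p_pos (G := D.G C) s
      linarith
    have hp := Geo.p_pos (G := D.G C) s
    linarith

end KIn3

end Vale.Agent.P073.H926
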