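import Vale.Agent.P073.H926.WPieces
import Vale.Agent.P073.H399.RTf
import Vale.Agent.P073.H490.RTe

/-!
# P073, H926: the data of the divided faces (`H399.WData`) from `exists_pieces`
-/

set_option linter.unusedSectionVars false

open Set Metric Topology Filter
open scoped ENNReal

namespace P073.H926

open P073
open Vale.Agent.P073.St (V)
open Vale.Agent.P073.H73 (Mesh onSeg)
open Vale.Agent.P073.H193 (edges)
open _root_.P073.Net (len var)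

/-- the length of a Lipschitz map on a segment -/
theorem len_le_lipW {h : V → V} {e : V × V} {K : ℝ} (hK : 0 ≤ K)
    (h1 : ∀ x ∈ segment ℝ e.1 e.2, ∀ y ∈ segment ℝ e.1 e.2, ‖h x - h y‖ ≤ K * ‖x - y‖) :
    len (onSeg h e) (Icc 0 1) ≤ ENNReal.ofReal (2 * K * ‖e.1 - e.2‖) := by
  have hγ : ∀ t ∈ Icc (0:ℝ) 1, e.1 + t • (e.2 - e.1) ∈ segment ℝ e.1 e.2 := by
    intro t ht
    rw [segment_eq_image']
    exact ⟨t, ht, rfl⟩
  rw [norm_sub_rev e.1 e.2]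
  refine (_root_.P073.Net.len_le_var _ _).trans ?_
  have h2 : var (onSeg h e) (Icc 0 1) ≤
      ENNReal.ofReal (K * ‖e.2 - e.1‖) * eVariationOn (id : ℝ → ℝ) (Icc 0 1) := by
    refine _root_.P073.Net.eVariationOn_le_of_edist fun s hs t ht => ?_
    rw [edist_dist, edist_dist, dist_eq_norm, Real.dist_eq, ← ENNReal.ofReal_mul (by positivity)]
    refine ENNReal.ofReal_le_ofReal ((h1 _ (hγ s hs) _ (hγ t ht)).trans (le_of_eq ?_))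
    rw [add_sub_add_left_eq_sub, ← sub_smul, norm_smul, Real.norm_eq_abs]
    simp only [id]
    ring
  have h3 : eVariationOn (id : ℝ → ℝ) (Icc 0 1) ≤ 1 := by
    have := (monotone_id.monotoneOn (Icc (0:ℝ) 1)).eVariationOn_eq (a := 0) (b := 1)
      ⟨le_rfl, zero_le_one⟩ ⟨zero_le_one, le_rfl⟩
    rw [inter_self] at this
    rw [this]; simp
  calc 2 * var (onSeg h e) (Icc 0 1) ≤ 2 * (ENNReal.ofReal (K * ‖e.2 - e.1‖) * 1) := by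
        gcongr
        exact h2.trans (by gcongr)
    _ = ENNReal.ofReal (2 * K * ‖e.2 - e.1‖) := by
        rw [mul_one, mul_assoc, ENNReal.ofReal_mul (by norm_num : (0:ℝ) ≤ 2), ENNReal.ofReal_ofNat]

variable {Ω Λ : Set V}

/-- **[WDATA]** the pieces and the data of the divided faces -/
theorem wdata_of {M : Mesh Ω} (h : ConHomeo Ω Λ) (𝒲 : Set M.κ)
    (m : M.κ → Finset (V →ᵃ[ℝ] ℝ)) {β : M.κ → ℝ} (hβ : ∀ k, 0 < β k)
    {L : M.κ → ℝ} (hL0 : ∀ k, 0 ≤ L k)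
    (hL : ∀ k, ∀ x ∈ M.F k, ∀ y ∈ M.F k, ‖h.toFun x - h.toFun y‖ ≤ L k * ‖x - y‖)
    (hchords : ∀ X : M.κ → Finset V, (∀ k, ∀ z ∈ X k, z ∈ M.F k) →
      ∃ ch : M.κ → Finset (V × V), (∀ k, ∀ s ∈ ch k, s.1 ∈ X k ∧
        s.1 ∉ intrinsicFrontier ℝ (M.F k) ∧ s.2 ∈ intrinsicFrontier ℝ (M.F k) ∧
        segment ℝ s.1 s.2 ⊆ M.F k) ∧
      ∀ k, ∀ z ∈ X k, z ∉ intrinsicFrontier ℝ (M.F k) → ∃ y, (z, y) ∈ ch k ∧
        ∀ y' ∈ intrinsicFrontier ℝ (M.F k),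
          len (onSeg h.toFun (z, y)) (Icc 0 1) ≤ 2 * len (onSeg h.toFun (z, y')) (Icc 0 1)) :
    ∃ (Pc : H399.Pieces M) (X : M.κ → Finset V) (sg : M.κ → Finset (V × V)), Pc.Triv 𝒲 ∧
      (∀ k ∈ 𝒲, ∀ t, ∃ B : V →ᵃ[ℝ] V, EqOn h.toFun B (Pc.A k t)) ∧
      (∀ k ∈ 𝒲, ∀ t, ∀ a ∈ m k, (∀ x ∈ Pc.A k t, 0 ≤ a (h.toFun x)) ∨
        ∀ x ∈ Pc.A k t, a (h.toFun x) ≤ 0) ∧
      (∀ k ∈ 𝒲, ∀ t, ∀ x ∈ Pc.A k t, ∀ y ∈ Pc.A k t, ‖h.toFun x - h.toFun y‖ ≤ β k) ∧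
      H399.WData Pc 𝒲 h.toFun β X sg := by
  classical
  set e : M.κ → ℝ := fun k => β k / (24 * (L k + 1)) with he
  have hL1 : ∀ k, 0 < L k + 1 := fun k => by linarith [hL0 k]
  have he0 : ∀ k, 0 < e k := fun k => div_pos (hβ k) (by linarith [hL1 k])
  have hLe : ∀ k, L k * e k ≤ β k / 24 := by
    intro k
    have h1 : e k * (24 * (L k + 1)) = β k := div_mul_cancel₀ _ (by linarith [hL1 k] : 24 * (L k + 1) ≠ 0)
    nlinarith [he0 k, hL0 k]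
  obtain ⟨X₀, hX₀, hP⟩ := exists_pieces (M := M) h 𝒲 he0
  set X : M.κ → Finset V := fun k => if k ∈ 𝒲 then X₀ k else ∅ with hX
  have hXe : ∀ k ∈ 𝒲, X k = X₀ k := fun k hk => if_pos hk
  obtain ⟨ch, hch, hch2⟩ := hchords X (fun k z hz => by
    by_cases hk : k ∈ 𝒲
    · rw [hXe k hk] at hz; exact hX₀ k hk z hz
    · rw [hX] at hz
      simp only [if_neg hk] at hz
      exact absurd hz (Finset.notMem_empty _))
  obtain ⟨Pc, sg, W⟩ := hP m ch fun k hk s hs => by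
    have := hch k s hs
    rw [hXe k hk] at this
    exact this
  have hosc : ∀ k ∈ 𝒲, ∀ t, ∀ x ∈ Pc.A k t, ∀ y ∈ Pc.A k t,
      ‖h.toFun x - h.toFun y‖ ≤ β k / 24 := by
    intro k hk t x hx y hy
    refine (hL k x (Pc.sub k t hx) y (Pc.sub k t hy)).trans (le_trans ?_ (hLe k))
    exact mul_le_mul_of_nonneg_left (W.diam k hk t x hx y hy) (hL0 k)
  have hlen : ∀ k, ∀ s ∈ sg k, ‖s.1 - s.2‖ ≤ e k →
      len (onSeg h.toFun s) (Icc 0 1) ≤ ENNReal.ofReal (β k) := by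
    intro k s hs hse
    refine (len_le_lipW (hL0 k) fun x hx y hy =>
      hL k x (W.ssub k s hs hx) y (W.ssub k s hs hy)).trans (ENNReal.ofReal_le_ofReal ?_)
    have h1 : L k * ‖s.1 - s.2‖ ≤ β k / 24 :=
      (mul_le_mul_of_nonneg_left hse (hL0 k)).trans (hLe k)
    linarith [hβ k]
  refine ⟨Pc, X, sg, W.triv, W.aff, W.side, fun k hk t x hx y hy =>
    (hosc k hk t x hx y hy).trans (by linarith [hβ k]), ?_, ?_, ?_, ?_⟩
  · intro k hk s hs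
    obtain ⟨h1, h2, h3⟩ := W.vert k hk s hs
    exact ⟨h1, h2, h3, W.ssub k s hs, fun t => W.sdis k s hs t⟩
  · intro k hk t
    obtain ⟨B, hB⟩ := W.aff k hk t
    have h1 := Pc.perim_piece hB (hosc k hk t)
      (T := ((edges Pc.mesh).fin_face (⟨k, t⟩ : Σ k, Pc.τ k)).toFinset) (fun e he => by
        have := (((edges Pc.mesh).fin_face (⟨k, t⟩ : Σ k, Pc.τ k)).mem_toFinset).1 he
        exact this)
    refine h1.trans (ENNReal.ofReal_le_ofReal ?_)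
    linarith
  · intro k hk t p hp
    rcases W.route k hk t p hp with h1 | ⟨s, hs, h1, h2, h3⟩ |
      ⟨s, hs, s', hs', z, hz, h1, h2, h3, h4, h5⟩
    · exact Or.inl h1
    · exact Or.inr (Or.inl ⟨s, hs, h1, h2, hlen k s hs h3⟩)
    · exact Or.inr (Or.inr ⟨s, hs, s', hs', z, by rw [hXe k hk]; exact hz, h1, h2, h3,
        hlen k s hs h4, hlen k s' hs' h5⟩)
  · intro k hk z hz
    have hzF : z ∈ M.F k := by
      rw [hXe k hk] at hz; exact hX₀ k hk z hz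
    refine ⟨hzF, ?_⟩
    by_cases hzf : z ∈ intrinsicFrontier ℝ (M.F k)
    · exact Or.inl hzf
    · obtain ⟨y, hy, hy2⟩ := hch2 k z hz hzf
      exact Or.inr ⟨y, (hch k _ hy).2.2.1, W.chs k hk hy, hy2⟩

/-- **[WDATA]** -/
theorem exists_wdata {M : Mesh Ω} (hΩ : IsOpen Ω) (h : ConHomeo Ω Λ) (𝒲 : Set M.κ)
    (m : M.κ → Finset (V →ᵃ[ℝ] ℝ)) {β : M.κ → ℝ} (hβ : ∀ k, 0 < β k) :
    ∃ (Pc : H399.Pieces M) (X : M.κ → Finset V) (sg : M.κ → Finset (V × V)), Pc.Triv 𝒲 ∧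
      (∀ k ∈ 𝒲, ∀ t, ∃ B : V →ᵃ[ℝ] V, EqOn h.toFun B (Pc.A k t)) ∧
      (∀ k ∈ 𝒲, ∀ t, ∀ a ∈ m k, (∀ x ∈ Pc.A k t, 0 ≤ a (h.toFun x)) ∨
        ∀ x ∈ Pc.A k t, a (h.toFun x) ≤ 0) ∧
      (∀ k ∈ 𝒲, ∀ t, ∀ x ∈ Pc.A k t, ∀ y ∈ Pc.A k t, ‖h.toFun x - h.toFun y‖ ≤ β k) ∧
      H399.WData Pc 𝒲 h.toFun β X sg := by
  obtain ⟨L, hL0, hL⟩ := Vale.Agent.P073.H490.exists_lipF M h hΩ
  exact wdata_of h 𝒲 m hβ hL0 hL fun X hX => Vale.Agent.P073.H490.exists_chords M h X hX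

end P073.H926
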