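import Vale.Agent.P073.H926.RefA
import Vale.Agent.P073.H926.WData
import Vale.Agent.P073.H399.RTg

/-!
# P073, H926: **[REFIN]**, part B: the faces which are divided, and the refined mesh

`Wf D C`: the faces whose images meet a slab of an unprotected side.
`exists_refB`: pieces of these faces, with `Far`, `WData`, and `NWG` for the refined mesh.
-/

set_option linter.unusedSectionVars false

open Set Metric Topology Filter

namespace Vale.Agent.P073.H926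

open _root_.P073 _root_.P073.Net _root_.P073.PA691 _root_.P073.TM
open Vale.Agent.P073.St (V)
open Vale.Agent.P073.H471 Vale.Agent.P073.H267
open Vale.Agent.P073.H73 (Mesh)
open Vale.Agent.P073.H304 (Nb In Zmax)
open _root_.P073.H345 (PK PK_sub_ss τ_as_PK PB_sub_PK tg)
open Vale.Agent.P073.H936.KR (hgt QW QZG NWG)

variable {c₀ n δ : ℝ} {j : ℕ} {Ω Λ : Set V} {v w : V} {ρ : V → ℝ} {M : Mesh Ω} {h : ConHomeo Ω Λ}
  {J₀ J : Set (ℕ × (Fin 3 → ℤ))} {P Z : Set M.ι} {K : BoxCx Λ w} {x y : V} {q t : K.T}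

theorem nb_mono {w : V} {J : Set (ℕ × (Fin 3 → ℤ))} {c c' : ℝ} (hc : c ≤ c') :
    Nb w J c ⊆ Nb w J c' := by
  rintro y ⟨t, ht, x, hx, hxy⟩
  refine ⟨t, ht, x, hx, hxy.trans ?_⟩
  gcongr

namespace KIn3

variable (D : KIn3 c₀ n j δ v w ρ M h J₀ J P Z) (C : Cells ρ w K)

/-- the faces whose images meet a slab of an unprotected side -/
def Wf : Set M.κ :=
  {k | ∃ s ∈ pS C J₀, ∃ β, ¬ (D.dat C).sd s β ∧ (h.toFun '' M.F k ∩ QW (D.G C) s β).Nonempty}

/-- the divided faces touch no protected cell and are in no cell with image in the shells -/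
theorem wf_not {k : M.κ} (hk : k ∈ D.Wf C) :
    (∀ i ∈ P, Disjoint (M.F k) (M.Q i)) ∧
      ∀ i, M.F k ⊆ M.Q i → ¬ h.toFun '' M.Q i ⊆ Nb w J₀ (2 * (1 / 2 ^ j)) := by
  obtain ⟨s, hs, β, hβ, _, ⟨x, hx, rfl⟩, hxQ⟩ := hk
  obtain ⟨i₀, i₁, -, hi⟩ := M.two k
  have hki : M.F k ⊆ M.Q i₀ := fun z hz => (hi hz).1
  refine ⟨fun i hiP => Set.disjoint_left.2 fun y hy hyi => ?_, fun i hki' hN => ?_⟩
  · obtain ⟨-, -, h1, h2⟩ := D.wcell_pos C hs hβ (hki hx) hxQ (hki hy)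
    have hτ := (D.B C).τ_pos s
    exact D.notP_of_hgt C hβ hyi h1 (by linarith) hiP
  · exact D.wcell_off C hs hβ (hki hx) hxQ (hki hx) (hN (mem_image_of_mem _ (hki' hx)))

/-- the divided faces are off the shells -/
theorem wf_far {k : M.κ} (hk : k ∈ D.Wf C) :
    Disjoint (h.toFun '' M.F k) (Nb w J₀ (2 * (1 / 2 ^ j))) := by
  obtain ⟨s, hs, β, hβ, _, ⟨x, hx, rfl⟩, hxQ⟩ := hk
  obtain ⟨i₀, i₁, -, hi⟩ := M.two k
  have hki : M.F k ⊆ M.Q i₀ := fun z hz => (hi hz).1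
  refine Set.disjoint_left.2 ?_
  rintro _ ⟨y, hy, rfl⟩
  exact D.wcell_off C hs hβ (hki hx) hxQ (hki hy)

/-- **[REFIN]**, without the input of the refined mesh -/
theorem exists_refB {β : M.κ → ℝ} (hβ : ∀ k, 0 < β k) :
    ∃ (Pc : _root_.P073.H399.Pieces M) (X : M.κ → Finset V) (sg : M.κ → Finset (V × V)),
      _root_.P073.H399.Far Pc (D.Wf C) h.toFun w J₀ (1 / 2 ^ j) Z ∧
      _root_.P073.H399.WData Pc (D.Wf C) h.toFun β X sg ∧
      NWG (D.G C) (pS C J₀) (D.dat C).sd Pc.mesh h.toFun := by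
  classical
  have hfin : ∀ k, {a : K.S × Bool | (h.toFun '' M.F k ∩ QW (D.G C) a.1 a.2).Nonempty}.Finite := by
    intro k
    have hc := (H193.pgn_of_fat (M.fat k)).cpt
    have hsub := H193.mesh_sub M k
    refine D.fin_QW C (hc.image_of_continuousOn (h.cont.mono hsub)) ?_
    rintro _ ⟨x, hx, rfl⟩
    exact h.mapsTo (hsub hx)
  obtain ⟨Pc, X, sg, h1, h2, h3, -, h5⟩ := _root_.P073.H926.exists_wdata D.bΩ.1 h (D.Wf C)
    (fun k => (hfin k).toFinset.image fun a => wl (D.G C) a.1 a.2) hβ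
  refine ⟨Pc, X, sg, ⟨h1, fun l hl => ?_, fun i hi => (D.inp.drawn i hi).2⟩, h5, ?_, ?_⟩
  · refine (D.wf_far C hl).mono_right (nb_mono ?_)
    have : (0:ℝ) < 1 / 2 ^ j := by positivity
    linarith
  · rintro Q ⟨s, hs, β', hβ', rfl⟩ ⟨k, t⟩ ⟨_, ⟨x, hx, rfl⟩, hxQ⟩
    have hk : k ∈ D.Wf C := ⟨s, hs, β', hβ', _, ⟨x, Pc.sub k t hx, rfl⟩, hxQ⟩
    exact h2 k hk t
  · rintro s hs β' hβ' ⟨k, t⟩ ⟨_, ⟨x, hx, rfl⟩, hxQ⟩
    have hne : (h.toFun '' M.F k ∩ QW (D.G C) s β').Nonempty :=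
      ⟨_, ⟨x, Pc.sub k t hx, rfl⟩, hxQ⟩
    have hk : k ∈ D.Wf C := ⟨s, hs, β', hβ', hne⟩
    have hm : wl (D.G C) s β' ∈ (hfin k).toFinset.image fun a => wl (D.G C) a.1 a.2 :=
      Finset.mem_image.2 ⟨(s, β'), (Set.Finite.mem_toFinset _).2 hne, rfl⟩
    rcases h3 k hk t _ hm with h6 | h6
    · left
      intro y hy
      have := h6 y hy
      rw [wl_apply] at this
      linarith
    · right
      intro y hy
      have := h6 y hy
      rw [wl_apply] at this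
      linarith

end KIn3

end Vale.Agent.P073.H926
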