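import Vale.Agent.P073.H926.RefIn
import Vale.Agent.P073.H399.RTi

/-!
# P073, H926: `K3C` from `TopS` and `TopO`

`k3c_of_so`: 399's composition with [REFIN] inserted.
-/

namespace Vale.Agent.P073.H926

open Vale.Agent.P073.H304 (K3C)
open Vale.Agent.P073.H936.KR (TopS TopO)

/-- **`K3C` from `TopS` and `TopO`** -/
theorem k3c_of_so {p : ℝ} (hp : 0 ≤ p) (HS : TopS p) (HO : TopO p) : K3C p :=
  _root_.P073.H399.k3c_of_tops hp (fun D C => refInT D C) HS HO

end Vale.Agent.P073.H926
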