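import Vale.Agent.P073.H926.WPlane
import Vale.Agent.P073.H238.FatFace
import Vale.Agent.P073.H399.Refine2

/-!
# P073, H926: **[W2]**, part 2: the pieces of the faces

`exists_pieces`: the faces of a set `𝒲` are divided into affine pieces of `h1`, small, which do not
cross prescribed walls; the chords from a finite set `X k` (chosen before) lie in the cutting lines.
-/

set_option linter.unusedSectionVars false

open Set Metric Topology Filter Module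

namespace P073.H926

open P073 P073.H579 P073.Net
open Vale.Agent.P073.St (V)
open Vale.Agent.P073.H73 (Mesh)
open Vale.Agent.P073.H238 (PFace meshFace)
open Vale.Agent.P073.H687 (Two)
open Vale.Agent.P073.H193 (vtx pgn_of_fat)

/-- no point of a line of the arrangement in the interior of a cell -/
theorem ne_zero_of_interior {C : Set H579.P} {L τ : Finset (H579.P →ᵃ[ℝ] ℝ)}
    (hL : ∀ l ∈ L, l.linear ≠ 0) (h1 : τ ∈ L.powerset) {y : H579.P}
    (hy : y ∈ interior (cellA C L τ)) {l : H579.P →ᵃ[ℝ] ℝ} (hl : l ∈ L) : l y ≠ 0 := by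
  classical
  intro h0
  have hyc := interior_subset hy
  set τ' : Finset (H579.P →ᵃ[ℝ] ℝ) := if l ∈ τ then τ.erase l else insert l τ with hτ'
  have h2 : τ' ∈ L.powerset := by
    rw [Finset.mem_powerset] at h1 ⊢
    rw [hτ']
    split_ifs
    · exact (Finset.erase_subset _ _).trans h1
    · exact Finset.insert_subset hl h1
  have hne : τ ≠ τ' := by
    rw [hτ']
    split_ifs with h5
    · intro h6; rw [h6] at h5; exact Finset.notMem_erase _ _ h5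
    · intro h6; rw [h6] at h5; exact h5 (Finset.mem_insert_self _ _)
  refine Set.disjoint_left.1 (disjoint_interior_cellA hL h1 h2 hne) hy ⟨hyc.1, fun m hm => ?_⟩
  by_cases hml : m = l
  · subst hml
    rw [h0]; exact ⟨fun _ => le_rfl, fun _ => le_rfl⟩
  · have e : m ∈ τ' ↔ m ∈ τ := by
      rw [hτ']
      split_ifs
      · rw [Finset.mem_erase]; exact ⟨fun h => h.2, fun h => ⟨hml, h⟩⟩
      · rw [Finset.mem_insert]; exact ⟨fun h => h.resolve_left hml, Or.inr⟩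
    rw [e]
    exact hyc.2 m hm

/-- half space of an affine functional -/
theorem half_le (a : V →ᵃ[ℝ] ℝ) : ∃ (n : ℕ) (ν : Fin n → V →L[ℝ] ℝ) (s : Fin n → ℝ),
    {x | a x ≤ 0} = {x | ∀ i, ν i x ≤ s i} := by
  refine ⟨1, fun _ => a.linear.toContinuousLinearMap, fun _ => -a 0, ?_⟩
  ext x
  have e : a x = a.linear x + a 0 := by
    have := a.map_vadd 0 x
    rw [vadd_eq_add, add_zero, vadd_eq_add] at this
    exact this
  simp only [mem_ofPred_eq, LinearMap.coe_toContinuousLinearMap', Fin.forall_fin_one]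
  rw [e]
  constructor <;> intro h <;> linarith

theorem half_ge (a : V →ᵃ[ℝ] ℝ) : ∃ (n : ℕ) (ν : Fin n → V →L[ℝ] ℝ) (s : Fin n → ℝ),
    {x | 0 ≤ a x} = {x | ∀ i, ν i x ≤ s i} := by
  obtain ⟨n, ν, s, h⟩ := half_le (-a)
  refine ⟨n, ν, s, ?_⟩
  rw [← h]
  ext x
  show 0 ≤ a x ↔ -(a x) ≤ 0
  constructor <;> intro h <;> linarith

namespace Fc

variable {A : Set V} (F : PFace A)

theorem exists_inv : ∃ ρ : V →ᵃ[ℝ] H579.P, ∀ z, ρ (F.ch z) = z := by
  obtain ⟨k, hk⟩ := LinearMap.exists_leftInverse_of_injective F.L (LinearMap.ker_eq_bot.2 F.inj)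
  have hkL : ∀ w, k (F.L w) = w := fun w => by
    have := LinearMap.congr_fun hk w
    simpa using this
  refine ⟨{ toFun := fun x => k (x - F.o), linear := k, map_vadd' := fun p v => ?_ }, fun z => ?_⟩
  · show k (v + p - F.o) = k v + k (p - F.o)
    rw [← map_add]
    congr 1
    abel
  · show k (F.o + F.L z - F.o) = z
    rw [add_sub_cancel_left, hkL]

/-- a face which is the image of a part of the chart -/
def part (C' : Set H579.P) (h1 : Convex ℝ C') (h2 : IsCompact C') (h3 : LocCone C')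
    (h4 : (interior C').Nonempty) : PFace (F.ch '' C') :=
  ⟨F.o, F.L, C', F.inj, h1, h2, h3, h4, rfl⟩

theorem two_image {C' : Set H579.P} (h1 : Convex ℝ C') (h4 : (interior C').Nonempty) :
    Two (F.ch '' C') := by
  have e : F.ch '' C' = F.aff '' C' := rfl
  have h5 : vectorSpan ℝ C' = ⊤ := by
    rw [← direction_affineSpan, affineSpan_eq_top_of_nonempty_interior (by
      rw [h1.convexHull_eq]; exact h4), AffineSubspace.direction_top]
  rw [Two, e, ← AffineMap.map_vectorSpan, h5]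
  have h6 : finrank ℝ (Submodule.map F.aff.linear ⊤) = finrank ℝ (⊤ : Submodule ℝ H579.P) :=
    (Submodule.equivMapOfInjective F.aff.linear F.inj ⊤).finrank_eq.symm
  rw [h6, finrank_top]
  simp [H579.P]

theorem norm_ch (z w : H579.P) :
    ‖F.ch z - F.ch w‖ ≤ (‖F.L.toContinuousLinearMap‖ + 1) * ‖z - w‖ := by
  have e : F.ch z - F.ch w = F.L.toContinuousLinearMap (z - w) := by
    show F.o + F.L z - (F.o + F.L w) = F.L (z - w)
    rw [map_sub]; abel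
  rw [e]
  refine (F.L.toContinuousLinearMap.le_opNorm _).trans ?_
  nlinarith [norm_nonneg (z - w)]

end Fc

/-- the output for one face -/
structure FPc (A : Set V) (h : V → V) (m : Finset (V →ᵃ[ℝ] ℝ)) (e : ℝ) (X : Finset V)
    (ch : Finset (V × V)) {ι : Type} (B : ι → Set V) (sg : Finset (V × V)) : Prop where
  half : ∀ t, ∃ (n : ℕ) (ν : Fin n → V →L[ℝ] ℝ) (s : Fin n → ℝ), B t = {x | ∀ i, ν i x ≤ s i}
  two : ∀ t, Two (B t)
  sub : ∀ t, B t ⊆ A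
  cover : ∀ x ∈ A, ∃ t, x ∈ B t
  dis : ∀ t t', t ≠ t' → Disjoint (intrinsicInterior ℝ (B t)) (B t')
  aff : ∀ t, ∃ f : V →ᵃ[ℝ] V, EqOn h f (B t)
  side : ∀ t, ∀ a ∈ m, (∀ x ∈ B t, 0 ≤ a (h x)) ∨ ∀ x ∈ B t, a (h x) ≤ 0
  diam : ∀ t, ∀ x ∈ B t, ∀ y ∈ B t, ‖x - y‖ ≤ e
  ssub : ∀ s ∈ sg, segment ℝ s.1 s.2 ⊆ A
  sdis : ∀ s ∈ sg, ∀ t, Disjoint (intrinsicInterior ℝ (B t)) (segment ℝ s.1 s.2)
  chs : ch ⊆ sg
  ends : ∀ s ∈ sg, s.1 ≠ s.2 ∧ (∃ t, s.1 ∈ (B t).extremePoints ℝ) ∧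
    ∃ t, s.2 ∈ (B t).extremePoints ℝ
  route : ∀ t, ∀ p ∈ intrinsicFrontier ℝ (B t), p ∈ intrinsicFrontier ℝ A ∨
    (∃ s ∈ sg, p ∈ segment ℝ s.1 s.2 ∧ s.2 ∈ intrinsicFrontier ℝ A ∧ ‖s.1 - s.2‖ ≤ e) ∨
    ∃ s ∈ sg, ∃ s' ∈ sg, ∃ z ∈ X, p ∈ segment ℝ s.1 s.2 ∧ s.2 ∈ segment ℝ s'.1 s'.2 ∧
      z ∈ segment ℝ s'.1 s'.2 ∧ ‖s.1 - s.2‖ ≤ e ∧ ‖s'.1 - s'.2‖ ≤ e

/-- **the pieces of one face** -/
theorem exists_face {A : Set V} (F : PFace A) (hA : ∃ (n : ℕ) (ν : Fin n → V →L[ℝ] ℝ)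
    (s : Fin n → ℝ), A = {x | ∀ i, ν i x ≤ s i}) {e : ℝ} (he : 0 < e) :
    ∃ X : Finset V, (∀ z ∈ X, z ∈ A) ∧ ∀ h : V → V, ConicalOn (fun z => h (F.ch z)) F.C →
      ∀ (m : Finset (V →ᵃ[ℝ] ℝ)) (ch : Finset (V × V)),
      (∀ s ∈ ch, s.1 ∈ X ∧ s.1 ∉ intrinsicFrontier ℝ A ∧ s.2 ∈ intrinsicFrontier ℝ A ∧
        segment ℝ s.1 s.2 ⊆ A) →
      ∃ (ι : Type) (_ : Finite ι) (B : ι → Set V) (sg : Finset (V × V)),
        FPc A h m e X ch B sg := by
  classical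
  set K : ℝ := ‖F.L.toContinuousLinearMap‖ + 1 with hK
  have hK0 : 0 < K := by positivity
  have hnorm : ∀ z w : H579.P, ‖z - w‖ ≤ e / K → ‖F.ch z - F.ch w‖ ≤ e := by
    intro z w hzw
    refine (Fc.norm_ch F z w).trans ?_
    rw [← hK]
    rw [le_div_iff₀ hK0] at hzw
    linarith
  obtain ⟨ρ, hρ⟩ := Fc.exists_inv F
  have hρA : ∀ x ∈ A, ρ x ∈ F.C ∧ F.ch (ρ x) = x := by
    intro x hx
    obtain ⟨z, hz, rfl⟩ := F.exists_ch hx
    rw [hρ]; exact ⟨hz, rfl⟩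
  have hseg : ∀ a b : H579.P, segment ℝ (F.ch a) (F.ch b) = F.ch '' segment ℝ a b := by
    intro a b
    have := image_segment ℝ F.aff a b
    exact this.symm
  have hCh : ∀ z, F.ch z ∈ A → z ∈ F.C := fun z hz => F.ch_preimage.subset hz
  have hfr : ∀ x ∈ intrinsicFrontier ℝ A, ρ x ∈ frontier F.C := by
    intro x hx
    rw [F.intrinsicFrontier_eq] at hx
    obtain ⟨z, hz, rfl⟩ := hx
    rw [hρ]; exact hz
  have hfr' : ∀ z ∈ frontier F.C, F.ch z ∈ intrinsicFrontier ℝ A := by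
    intro z hz
    rw [F.intrinsicFrontier_eq]; exact ⟨z, hz, rfl⟩
  obtain ⟨XP, hXP, hplane⟩ := exists_plane (E := V) F.compact F.convex F.cone
    (show 0 < e / K by positivity)
  refine ⟨XP.image F.ch, ?_, ?_⟩
  · intro z hz
    obtain ⟨w, hw, rfl⟩ := Finset.mem_image.1 hz
    exact F.ch_mem (hXP w hw)
  intro h hk m ch hch
  obtain ⟨L, sgP, hlin, hcell, hchs, hss, hsl, hcor, hroute⟩ := hplane _ hk m
    (ch.image fun s => (ρ s.1, ρ s.2)) (by
      intro s₀ hs₀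
      obtain ⟨s, hs, rfl⟩ := Finset.mem_image.1 hs₀
      obtain ⟨c1, c2, c3, c4⟩ := hch s hs
      have d1 : ρ s.1 ∈ XP := by
        obtain ⟨w, hw, hws⟩ := Finset.mem_image.1 c1
        rw [← hws, hρ]; exact hw
      have e1 := hρA s.1 (c4 (left_mem_segment ℝ _ _))
      have e2 := hρA s.2 (c4 (right_mem_segment ℝ _ _))
      refine ⟨d1, fun h5 => c2 ?_, hfr _ c3, fun z hz => hCh z (c4 ?_)⟩
      · rw [← e1.2]; exact hfr' _ h5
      · rw [← e1.2, ← e2.2, hseg]; exact ⟨z, hz, rfl⟩)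
  -- the cells
  set ι := {τ : Finset (H579.P →ᵃ[ℝ] ℝ) // τ ∈ L.powerset ∧ (interior (cellA F.C L τ)).Nonempty}
    with hι
  have hfin : Finite ι := by
    refine Finite.of_injective (fun t : ι => (⟨t.1, t.2.1⟩ : (L.powerset : Finset _))) ?_
    intro a b hab
    exact Subtype.ext (congrArg (fun x : (L.powerset : Finset _) => x.1) hab)
  set B : ι → Set V := fun t => F.ch '' cellA F.C L t.1 with hB
  set PF : ∀ t : ι, PFace (B t) := fun t => Fc.part F (cellA F.C L t.1) (convex_cellA F.convex)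
    (isCompact_cellA F.compact) (locCone_cellA F.cone) t.2.2 with hPF
  have hint : ∀ t, intrinsicInterior ℝ (B t) = F.ch '' interior (cellA F.C L t.1) := fun t =>
    (PF t).intrinsicInterior_eq
  have hfro : ∀ t, intrinsicFrontier ℝ (B t) = F.ch '' frontier (cellA F.C L t.1) := fun t =>
    (PF t).intrinsicFrontier_eq
  have hcov : ∀ x ∈ A, ∃ t, x ∈ B t := by
    intro x hx
    obtain ⟨z, hz, rfl⟩ := F.exists_ch hx
    obtain ⟨τ, h1, h2, h3⟩ := exists_full_cellA F.compact F.convex F.int hlin hz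
    exact ⟨⟨τ, h1, h2⟩, z, h3, rfl⟩
  -- corners are extreme points
  have hext : ∀ w, Cor L F.C w → w ∈ F.C → ∃ t, F.ch w ∈ (B t).extremePoints ℝ := by
    intro w hw hwC
    obtain ⟨t, ht⟩ := hcov _ (F.ch_mem hwC)
    refine ⟨t, mem_extremePoints.2 ⟨ht, ?_⟩⟩
    rintro _ ⟨p, hp, rfl⟩ _ ⟨q, hq, rfl⟩ hwo
    have e0 : openSegment ℝ (F.ch p) (F.ch q) = F.ch '' openSegment ℝ p q :=
      (image_openSegment ℝ F.aff p q).symm
    rw [e0] at hwo
    obtain ⟨w', hw', hww⟩ := hwo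
    rw [F.ch_inj hww] at hw'
    have hpq := hw _ cellA_subset sgnOn_cellA p hp q hq hw'
    subst hpq
    rw [openSegment_same] at hw'
    rw [mem_singleton_iff.1 hw']
    exact ⟨rfl, rfl⟩
  refine ⟨ι, hfin, B, sgP.image fun s => (F.ch s.1, F.ch s.2), ?_, ?_, ?_, hcov, ?_, ?_, ?_, ?_,
    ?_, ?_, ?_, ?_, ?_⟩
  · -- half spaces
    intro t
    have key : ∀ L' : Finset (H579.P →ᵃ[ℝ] ℝ), ∃ (n : ℕ) (ν : Fin n → V →L[ℝ] ℝ) (s : Fin n → ℝ),
        A ∩ {x | ∀ l ∈ L', (l ∈ t.1 → 0 ≤ l (ρ x)) ∧ (l ∉ t.1 → l (ρ x) ≤ 0)} =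
          {x | ∀ i, ν i x ≤ s i} := by
      intro L'
      induction L' using Finset.induction_on with
      | empty =>
        obtain ⟨n, ν, s, hs⟩ := hA
        refine ⟨n, ν, s, ?_⟩
        rw [← hs]
        ext x; simp
      | insert a L' ha ih =>
        have h5 : ∃ (n : ℕ) (ν : Fin n → V →L[ℝ] ℝ) (s : Fin n → ℝ),
            {x | (a ∈ t.1 → 0 ≤ a (ρ x)) ∧ (a ∉ t.1 → a (ρ x) ≤ 0)} =
              {x | ∀ i, ν i x ≤ s i} := by
          by_cases hat : a ∈ t.1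
          · obtain ⟨n, ν, s, hs⟩ := half_ge (a.comp ρ)
            refine ⟨n, ν, s, ?_⟩
            rw [← hs]
            ext x; simp [hat]
          · obtain ⟨n, ν, s, hs⟩ := half_le (a.comp ρ)
            refine ⟨n, ν, s, ?_⟩
            rw [← hs]
            ext x; simp [hat]
        obtain ⟨n, ν, s, hs⟩ := Vale.Agent.P073.H687.half_inter ih h5
        refine ⟨n, ν, s, ?_⟩
        rw [← hs]
        ext x
        simp only [mem_inter_iff, mem_ofPred_eq, Finset.mem_insert, forall_eq_or_imp]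
        tauto
    obtain ⟨n, ν, s, hs⟩ := key L
    refine ⟨n, ν, s, ?_⟩
    rw [← hs]
    ext x
    constructor
    · rintro ⟨z, hz, rfl⟩
      refine ⟨F.ch_mem hz.1, fun l hl => ?_⟩
      rw [hρ]; exact hz.2 l hl
    · rintro ⟨hx, hx2⟩
      obtain ⟨h5, h6⟩ := hρA x hx
      exact ⟨ρ x, ⟨h5, hx2⟩, h6⟩
  · exact fun t => Fc.two_image F (convex_cellA F.convex) t.2.2
  · rintro t _ ⟨z, hz, rfl⟩
    exact F.ch_mem hz.1
  · intro t t' htt
    rw [hint]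
    refine Set.disjoint_left.2 ?_
    rintro _ ⟨z, hz, rfl⟩ ⟨z', hz', hzz⟩
    rw [F.ch_inj hzz] at hz'
    exact Set.disjoint_left.1 (disjoint_interior_cellA hlin t.2.1 t'.2.1
      fun h5 => htt (Subtype.ext h5)) hz hz'
  · intro t
    obtain ⟨⟨f, hf⟩, -⟩ := hcell _ cellA_subset (sgnOn_cellA (C := F.C) (L := L) (τ := t.1))
    refine ⟨f.comp ρ, ?_⟩
    rintro _ ⟨z, hz, rfl⟩
    show h (F.ch z) = f (ρ (F.ch z))
    rw [hρ]; exact hf hz
  · intro t a ha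
    obtain ⟨-, h5, -⟩ := hcell _ cellA_subset (sgnOn_cellA (C := F.C) (L := L) (τ := t.1))
    rcases h5 a ha with h6 | h6
    · left; rintro _ ⟨z, hz, rfl⟩; exact h6 z hz
    · right; rintro _ ⟨z, hz, rfl⟩; exact h6 z hz
  · rintro t _ ⟨z, hz, rfl⟩ _ ⟨w, hw, rfl⟩
    obtain ⟨-, -, h5⟩ := hcell _ cellA_subset (sgnOn_cellA (C := F.C) (L := L) (τ := t.1))
    exact hnorm z w (h5 z hz w hw)
  · intro s₀ hs₀
    obtain ⟨s, hs, rfl⟩ := Finset.mem_image.1 hs₀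
    show segment ℝ (F.ch s.1) (F.ch s.2) ⊆ A
    rw [hseg]
    rintro _ ⟨z, hz, rfl⟩
    exact F.ch_mem (hss s hs hz)
  · intro s₀ hs₀ t
    obtain ⟨s, hs, rfl⟩ := Finset.mem_image.1 hs₀
    show Disjoint _ (segment ℝ (F.ch s.1) (F.ch s.2))
    rw [hseg, hint]
    refine Set.disjoint_left.2 ?_
    rintro _ ⟨z, hz, rfl⟩ ⟨z', hz', hzz⟩
    rw [F.ch_inj hzz] at hz'
    obtain ⟨l, hl, h0⟩ := hsl s hs
    exact ne_zero_of_interior hlin t.2.1 hz hl (h0 z hz')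
  · intro s hs
    refine Finset.mem_image.2 ⟨(ρ s.1, ρ s.2), hchs (Finset.mem_image.2 ⟨s, hs, rfl⟩), ?_⟩
    obtain ⟨c1, c2, c3, c4⟩ := hch s hs
    exact Prod.ext (hρA s.1 (c4 (left_mem_segment ℝ _ _))).2
      (hρA s.2 (c4 (right_mem_segment ℝ _ _))).2
  · intro s₀ hs₀
    obtain ⟨s, hs, rfl⟩ := Finset.mem_image.1 hs₀
    obtain ⟨h5, h6, h7⟩ := hcor s hs
    exact ⟨fun h8 => h5 (F.ch_inj h8), hext _ h6 (hss s hs (left_mem_segment ℝ _ _)),
      hext _ h7 (hss s hs (right_mem_segment ℝ _ _))⟩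
  · intro t p hp
    rw [hfro] at hp
    obtain ⟨z, hz, rfl⟩ := hp
    have hzC : z ∈ F.C := cellA_subset ((isCompact_cellA F.compact).isClosed.frontier_subset hz)
    rcases frontier_cellA F.compact hz with h5 | ⟨l, hl, h0⟩
    · exact Or.inl (hfr' z h5)
    rcases hroute l hl z hzC h0 with h5 | ⟨s, hs, h5, h6, h7⟩ |
      ⟨s, hs, s', hs', y, hy, h5, h6, h7, h8, h9⟩
    · exact Or.inl (hfr' z h5)
    · refine Or.inr (Or.inl ⟨_, Finset.mem_image_of_mem _ hs, ?_, hfr' _ h6, hnorm _ _ h7⟩)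
      show F.ch z ∈ segment ℝ (F.ch s.1) (F.ch s.2)
      rw [hseg]; exact mem_image_of_mem _ h5
    · refine Or.inr (Or.inr ⟨_, Finset.mem_image_of_mem _ hs, _, Finset.mem_image_of_mem _ hs',
        F.ch y, Finset.mem_image_of_mem _ hy, ?_, ?_, ?_, hnorm _ _ h8, hnorm _ _ h9⟩)
      · show F.ch z ∈ segment ℝ (F.ch s.1) (F.ch s.2)
        rw [hseg]; exact mem_image_of_mem _ h5
      · show F.ch s.2 ∈ segment ℝ (F.ch s'.1) (F.ch s'.2)
        rw [hseg]; exact mem_image_of_mem _ h6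
      · show F.ch y ∈ segment ℝ (F.ch s'.1) (F.ch s'.2)
        rw [hseg]; exact mem_image_of_mem _ h7

variable {Ω Λ : Set V}

/-- the pieces of the faces in `𝒲`, and the segments on the cutting lines -/
structure WPc (M : Mesh Ω) (h1 : ConHomeo Ω Λ) (𝒲 : Set M.κ) (m : M.κ → Finset (V →ᵃ[ℝ] ℝ))
    (e : M.κ → ℝ) (X : M.κ → Finset V) (ch : M.κ → Finset (V × V))
    (Pc : P073.H399.Pieces M) (sg : M.κ → Finset (V × V)) : Prop where
  triv : ∀ k ∉ 𝒲, ∀ t, Pc.A k t = M.F k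
  aff : ∀ k ∈ 𝒲, ∀ t, ∃ B : V →ᵃ[ℝ] V, EqOn h1.toFun B (Pc.A k t)
  side : ∀ k ∈ 𝒲, ∀ t, ∀ a ∈ m k, (∀ x ∈ Pc.A k t, 0 ≤ a (h1.toFun x)) ∨
    ∀ x ∈ Pc.A k t, a (h1.toFun x) ≤ 0
  diam : ∀ k ∈ 𝒲, ∀ t, ∀ x ∈ Pc.A k t, ∀ y ∈ Pc.A k t, ‖x - y‖ ≤ e k
  ssub : ∀ k, ∀ s ∈ sg k, segment ℝ s.1 s.2 ⊆ M.F k
  sdis : ∀ k, ∀ s ∈ sg k, ∀ t, Disjoint (intrinsicInterior ℝ (Pc.A k t)) (segment ℝ s.1 s.2)
  /-- the chords -/
  chs : ∀ k ∈ 𝒲, ch k ⊆ sg k
  /-- the ends of the segments are vertices of the refined mesh -/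
  vert : ∀ k ∈ 𝒲, ∀ s ∈ sg k, s.1 ≠ s.2 ∧ s.1 ∈ vtx Pc.mesh.F ∧ s.2 ∈ vtx Pc.mesh.F
  /-- from the boundary of a piece to the boundary of the face, or to a point of `X k`, along short
  segments of `sg` -/
  route : ∀ k ∈ 𝒲, ∀ t, ∀ p ∈ intrinsicFrontier ℝ (Pc.A k t), p ∈ intrinsicFrontier ℝ (M.F k) ∨
    (∃ s ∈ sg k, p ∈ segment ℝ s.1 s.2 ∧ s.2 ∈ intrinsicFrontier ℝ (M.F k) ∧
      ‖s.1 - s.2‖ ≤ e k) ∨
    ∃ s ∈ sg k, ∃ s' ∈ sg k, ∃ z ∈ X k, p ∈ segment ℝ s.1 s.2 ∧ s.2 ∈ segment ℝ s'.1 s'.2 ∧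
      z ∈ segment ℝ s'.1 s'.2 ∧ ‖s.1 - s.2‖ ≤ e k ∧ ‖s'.1 - s'.2‖ ≤ e k

/-- **[W2]** pieces of the faces of `𝒲`: affine, on one side of the walls `m`, small; the points
`X k` are chosen first, then the chords `ch k` from these points to the boundary of the face, then
the pieces: the chords are unions of edges of the refined mesh. -/
theorem exists_pieces {M : Mesh Ω} (h1 : ConHomeo Ω Λ) (𝒲 : Set M.κ) {e : M.κ → ℝ}
    (he : ∀ k, 0 < e k) :
    ∃ X : M.κ → Finset V, (∀ k ∈ 𝒲, ∀ z ∈ X k, z ∈ M.F k) ∧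
      ∀ (m : M.κ → Finset (V →ᵃ[ℝ] ℝ)) (ch : M.κ → Finset (V × V)),
      (∀ k ∈ 𝒲, ∀ s ∈ ch k, s.1 ∈ X k ∧ s.1 ∉ intrinsicFrontier ℝ (M.F k) ∧
        s.2 ∈ intrinsicFrontier ℝ (M.F k) ∧ segment ℝ s.1 s.2 ⊆ M.F k) →
      ∃ (Pc : P073.H399.Pieces M) (sg : M.κ → Finset (V × V)),
        WPc M h1 𝒲 m e X ch Pc sg := by
  classical
  choose X hX hface using fun k => exists_face (meshFace M k) (M.fat k).half (he k)
  refine ⟨X, fun k _ => hX k, fun m ch hch => ?_⟩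
  have hcon : ∀ k, ConicalOn (fun z => h1.toFun ((meshFace M k).ch z)) (meshFace M k).C := by
    intro k
    exact h1.conical.comp (meshFace M k).conicalOn_ch
      (fun z hz => Vale.Agent.P073.H238.mesh_sub M k ((meshFace M k).ch_mem hz))
      (meshFace M k).continuous_ch.continuousOn
  have hall : ∀ k, ∃ (ι : Type) (_ : Finite ι) (B : ι → Set V) (sg : Finset (V × V)),
      (k ∈ 𝒲 → FPc (M.F k) h1.toFun (m k) (e k) (X k) (ch k) B sg) ∧
      (k ∉ 𝒲 → (∀ t, B t = M.F k) ∧ Nonempty ι ∧ Subsingleton ι ∧ sg = ∅) := by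
    intro k
    by_cases hk : k ∈ 𝒲
    · obtain ⟨ι, hι, B, sg, h2⟩ := hface k h1.toFun (hcon k) (m k) (ch k) (hch k hk)
      exact ⟨ι, hι, B, sg, fun _ => h2, fun h3 => absurd hk h3⟩
    · exact ⟨Unit, inferInstance, fun _ => M.F k, ∅, fun h3 => absurd h3 hk,
        fun _ => ⟨fun _ => rfl, inferInstance, inferInstance, rfl⟩⟩
  choose ι hι B sg hW hN using hall
  have htwo : ∀ k, Two (M.F k) := fun k => P073.H399.two_of_pgn (pgn_of_fat (M.fat k))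
  let Pc : P073.H399.Pieces M :=
    { τ := ι
      fin := hι
      A := B
      half := fun k t => by
        by_cases hk : k ∈ 𝒲
        · exact (hW k hk).half t
        · rw [(hN k hk).1 t]; exact (M.fat k).half
      two := fun k t => by
        by_cases hk : k ∈ 𝒲
        · exact (hW k hk).two t
        · rw [(hN k hk).1 t]; exact htwo k
      sub := fun k t => by
        by_cases hk : k ∈ 𝒲
        · exact (hW k hk).sub t
        · rw [(hN k hk).1 t]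
      cover := fun k x hx => by
        by_cases hk : k ∈ 𝒲
        · exact (hW k hk).cover x hx
        · obtain ⟨t⟩ := (hN k hk).2.1
          exact ⟨t, by rw [(hN k hk).1 t]; exact hx⟩
      dis := fun k t t' htt => by
        by_cases hk : k ∈ 𝒲
        · exact (hW k hk).dis t t' htt
        · have := (hN k hk).2.2.1
          exact absurd (Subsingleton.elim t t') htt }
  refine ⟨Pc, sg, ?_, ?_, ?_, ?_, ?_, ?_, ?_, ?_, ?_⟩
  · exact fun k hk t => (hN k hk).1 t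
  · exact fun k hk t => (hW k hk).aff t
  · exact fun k hk t => (hW k hk).side t
  · exact fun k hk t => (hW k hk).diam t
  · intro k s hs
    by_cases hk : k ∈ 𝒲
    · exact (hW k hk).ssub s hs
    · rw [(hN k hk).2.2.2] at hs; exact absurd hs (Finset.notMem_empty _)
  · intro k s hs t
    by_cases hk : k ∈ 𝒲
    · exact (hW k hk).sdis s hs t
    · rw [(hN k hk).2.2.2] at hs; exact absurd hs (Finset.notMem_empty _)
  · exact fun k hk => (hW k hk).chs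
  · intro k hk s hs
    obtain ⟨h2, ⟨t, ht⟩, ⟨t', ht'⟩⟩ := (hW k hk).ends s hs
    exact ⟨h2, Vale.Agent.P073.H193.Fam.ext_vtx (F := Pc.mesh.F) (⟨k, t⟩ : Σ k, Pc.τ k) ht,
      Vale.Agent.P073.H193.Fam.ext_vtx (F := Pc.mesh.F) (⟨k, t'⟩ : Σ k, Pc.τ k) ht'⟩
  · exact fun k hk => (hW k hk).route

end P073.H926
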