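import Vale.Agent.P073.H926.AffCell
import Vale.Agent.P073.SCH.LocConeImage

/-!
# P073, H926: **[W2]**, part 1: the arrangement of lines with a grid, in the plane
-/

set_option linter.unusedSectionVars false

open Set Metric Topology Filter

namespace P073.H926

open P073 P073.H579 P073.Net

/-! ### lines in boxes -/

/-- a functional on the plane in coordinates -/
theorem aff_coord (l : H579.P →ᵃ[ℝ] ℝ) (p z : H579.P) :
    l z = l p + ((z.1 - p.1) * l.linear (1, 0) + (z.2 - p.2) * l.linear (0, 1)) := by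
  have h1 : z = (z - p) +ᵥ p := by simp
  have h2 : z - p = (z.1 - p.1) • ((1, 0) : ℝ × ℝ) + (z.2 - p.2) • ((0, 1) : ℝ × ℝ) := by
    apply Prod.ext <;> simp
  rw [h1, AffineMap.map_vadd, h2, map_add, map_smul, map_smul]
  simp only [smul_eq_mul, vadd_eq_add, Prod.fst_add, Prod.snd_add, Prod.smul_fst, Prod.smul_snd]
  ring_nf

theorem lin_ne {l : H579.P →ᵃ[ℝ] ℝ} (h : l.linear ≠ 0) :
    0 < l.linear (1, 0) ^ 2 + l.linear (0, 1) ^ 2 := by
  by_contra hcon
  have h1 : l.linear (1, 0) = 0 := by nlinarith [sq_nonneg (l.linear (1, 0)), sq_nonneg (l.linear (0, 1))]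
  have h2 : l.linear (0, 1) = 0 := by nlinarith [sq_nonneg (l.linear (1, 0)), sq_nonneg (l.linear (0, 1))]
  apply h
  apply LinearMap.ext
  intro z
  have h3 : z = z.1 • ((1, 0) : ℝ × ℝ) + z.2 • ((0, 1) : ℝ × ℝ) := by
    apply Prod.ext <;> simp
  rw [h3, map_add, map_smul, map_smul, h1, h2]
  simp

/-- the part of a line in a compact convex set is a segment with an end point on the frontier -/
theorem exists_seg_cpt {l : H579.P →ᵃ[ℝ] ℝ} (hl : l.linear ≠ 0) {K : Set H579.P}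
    (hK : IsCompact K) (hKc : Convex ℝ K) {p : H579.P} (hp : p ∈ K) (hlp : l p = 0) :
    ∃ s : H579.P × H579.P, segment ℝ s.1 s.2 = {z | z ∈ K ∧ l z = 0} ∧ s.2 ∈ frontier K := by
  set α := l.linear (1, 0) with hα
  set β := l.linear (0, 1) with hβ
  have hpos : 0 < α ^ 2 + β ^ 2 := lin_ne hl
  set f : ℝ →ᵃ[ℝ] H579.P := AffineMap.lineMap p (p + ((β, -α) : ℝ × ℝ)) with hf
  have hf1 : ∀ t, f t = (p.1 + t * β, p.2 - t * α) := by
    intro t
    rw [hf, AffineMap.lineMap_apply]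
    apply Prod.ext
    · simp; ring
    · simp; ring
  have hfc : Continuous f := AffineMap.lineMap_continuous
  set T : Set ℝ := f ⁻¹' K with hT
  have hT0 : (0:ℝ) ∈ T := by
    have e : f 0 = p := by rw [hf1]; simp
    show f 0 ∈ K
    rw [e]; exact hp
  set ρ : H579.P → ℝ := fun z => (β * (z.1 - p.1) - α * (z.2 - p.2)) / (α ^ 2 + β ^ 2) with hρ
  have hρc : Continuous ρ := by
    rw [hρ]
    fun_prop
  have hρf : ∀ t, ρ (f t) = t := by
    intro t
    rw [hf1]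
    show (β * (p.1 + t * β - p.1) - α * (p.2 - t * α - p.2)) / (α ^ 2 + β ^ 2) = t
    rw [div_eq_iff hpos.ne']
    ring
  have hfρ : ∀ z, l z = 0 → f (ρ z) = z := by
    intro z hlz
    rw [aff_coord l p, hlp, ← hα, ← hβ] at hlz
    have hz0 : (z.1 - p.1) * α = -((z.2 - p.2) * β) := by linarith
    rw [hf1]
    have e1 : p.1 + ρ z * β = z.1 := by
      have : (β * (z.1 - p.1) - α * (z.2 - p.2)) * β = (z.1 - p.1) * (α ^ 2 + β ^ 2) := by
        have : (z.2 - p.2) * β = -((z.1 - p.1) * α) := by linarith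
        calc (β * (z.1 - p.1) - α * (z.2 - p.2)) * β
            = β ^ 2 * (z.1 - p.1) - α * ((z.2 - p.2) * β) := by ring
          _ = β ^ 2 * (z.1 - p.1) + α * ((z.1 - p.1) * α) := by rw [this]; ring
          _ = _ := by ring
      rw [hρ]
      show p.1 + (β * (z.1 - p.1) - α * (z.2 - p.2)) / (α ^ 2 + β ^ 2) * β = z.1
      rw [div_mul_eq_mul_div, this, mul_div_assoc, div_self hpos.ne']
      ring
    have e2 : p.2 - ρ z * α = z.2 := by
      have : (β * (z.1 - p.1) - α * (z.2 - p.2)) * α = -(z.2 - p.2) * (α ^ 2 + β ^ 2) := by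
        calc (β * (z.1 - p.1) - α * (z.2 - p.2)) * α
            = β * ((z.1 - p.1) * α) - α ^ 2 * (z.2 - p.2) := by ring
          _ = β * (-((z.2 - p.2) * β)) - α ^ 2 * (z.2 - p.2) := by rw [hz0]
          _ = _ := by ring
      rw [hρ]
      show p.2 - (β * (z.1 - p.1) - α * (z.2 - p.2)) / (α ^ 2 + β ^ 2) * α = z.2
      rw [div_mul_eq_mul_div, this, mul_div_assoc, div_self hpos.ne']
      ring
    rw [e1, e2]
  have himg : f '' T = {z | z ∈ K ∧ l z = 0} := by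
    ext z
    constructor
    · rintro ⟨t, ht, rfl⟩
      refine ⟨ht, ?_⟩
      rw [hf1, aff_coord l p, hlp]
      simp only [← hα, ← hβ]
      ring
    · rintro ⟨hz, hlz⟩
      refine ⟨ρ z, ?_, hfρ z hlz⟩
      show f (ρ z) ∈ K
      rw [hfρ z hlz]; exact hz
  have hcl : IsClosed T := hK.isClosed.preimage hfc
  have hcv : Convex ℝ T := Convex.affine_preimage f hKc
  have hbd : Bornology.IsBounded T := by
    refine (hK.image hρc).isBounded.subset fun t ht => ⟨f t, ht, hρf t⟩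
  have hcpt : IsCompact T := isCompact_of_isClosed_isBounded hcl hbd
  have hIcc := eq_Icc_of_connected_compact ⟨⟨0, hT0⟩, hcv.isPreconnected⟩ hcpt
  set t0 := sInf T with ht0
  set t1 := sSup T with ht1
  have h01 : t0 ≤ t1 := by
    have : (0:ℝ) ∈ Icc t0 t1 := hIcc ▸ hT0
    exact this.1.trans this.2
  refine ⟨(f t0, f t1), ?_, ?_⟩
  · show segment ℝ (f t0) (f t1) = _
    rw [← image_segment, segment_eq_Icc h01, ← hIcc, himg]
  · have hm : t1 ∈ T := by rw [hIcc]; exact right_mem_Icc.2 h01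
    rw [hK.isClosed.frontier_eq]
    refine ⟨hm, fun hcon => ?_⟩
    have hev : ∀ᶠ t in 𝓝 t1, t ∈ T :=
      (hfc.continuousAt.eventually (isOpen_interior.mem_nhds hcon)).mono
        fun t ht => (interior_subset ht : f t ∈ K)
    obtain ⟨t, htT, htt⟩ := ((hev.filter_mono nhdsWithin_le_nhds).and
      (self_mem_nhdsWithin (a := t1) (s := Ioi t1))).exists
    have : t ∈ Icc t0 t1 := hIcc ▸ htT
    exact absurd this.2 (not_le.2 htt)

/-- a line through two points -/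
theorem exists_line (a b : H579.P) : ∃ l : H579.P →ᵃ[ℝ] ℝ, l.linear ≠ 0 ∧
    ∀ z ∈ segment ℝ a b, l z = 0 := by
  by_cases hab : a = b
  · refine ⟨fun0 a co1 0, ?_, ?_⟩
    · intro h
      have h3 : co1 = 0 := h
      have h4 := LinearMap.congr_fun h3 (1, 0)
      rw [co1_apply] at h4
      norm_num at h4
    · rw [← hab, segment_same]
      rintro z rfl
      rw [fun0_apply]; simp
  · set m : H579.P →ₗ[ℝ] ℝ := (b.2 - a.2) • co1 - (b.1 - a.1) • co2 with hm
    have hmz : ∀ z : H579.P, m z = (b.2 - a.2) * z.1 - (b.1 - a.1) * z.2 := by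
      intro z; rw [hm]; simp
    refine ⟨fun0 a m 0, ?_, ?_⟩
    · intro h
      have h1 : m = 0 := h
      have h2 : b.2 - a.2 = 0 := by
        have := LinearMap.congr_fun h1 (1, 0)
        rw [hmz] at this
        simpa using this
      have h3 : b.1 - a.1 = 0 := by
        have := LinearMap.congr_fun h1 (0, 1)
        rw [hmz] at this
        have h5 : a.1 - b.1 = 0 := by simpa using this
        linarith
      apply hab
      exact Prod.ext (by linarith) (by linarith)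
    · rintro z ⟨s, t, hs, ht, hst, rfl⟩
      rw [fun0_apply, hmz]
      simp only [Prod.fst_sub, Prod.fst_add, Prod.smul_fst, Prod.snd_sub, Prod.snd_add,
        Prod.smul_snd, smul_eq_mul]
      have e : s = 1 - t := by linarith
      rw [e]
      ring

theorem exists_cell_of_mono {g : ℕ → ℝ} {x : ℝ} : ∀ {N : ℕ}, 0 < N → g 0 ≤ x → x ≤ g N →
    ∃ i < N, g i ≤ x ∧ x ≤ g (i + 1)
  | 0, h, _, _ => absurd h (lt_irrefl _)
  | N + 1, _, h0, h1 => by
    rcases le_or_gt x (g N) with h2 | h2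
    · rcases Nat.eq_zero_or_pos N with hN | hN
      · subst hN
        exact ⟨0, by omega, h0, h1⟩
      · obtain ⟨i, hi, h3⟩ := exists_cell_of_mono hN h0 h2
        exact ⟨i, by omega, h3⟩
    · exact ⟨N, by omega, h2.le, h1⟩

/-! ### the theorem in the plane -/

/-- the box `(i, j)` of the grid -/
def gbox (g : ℕ → ℝ) (i j : ℕ) : Set H579.P :=
  {z | (g i ≤ z.1 ∧ z.1 ≤ g (i + 1)) ∧ g j ≤ z.2 ∧ z.2 ≤ g (j + 1)}

theorem gbox_eq (g : ℕ → ℝ) (i j : ℕ) :
    gbox g i j = Icc (g i) (g (i + 1)) ×ˢ Icc (g j) (g (j + 1)) := rfl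

theorem isCompact_gbox (g : ℕ → ℝ) (i j : ℕ) : IsCompact (gbox g i j) := by
  rw [gbox_eq]; exact isCompact_Icc.prod isCompact_Icc

theorem convex_gbox (g : ℕ → ℝ) (i j : ℕ) : Convex ℝ (gbox g i j) := by
  rw [gbox_eq]; exact (convex_Icc _ _).prod (convex_Icc _ _)

/-- points on the frontier of a box -/
theorem frontier_gbox {g : ℕ → ℝ} {i j : ℕ} {z : H579.P} (hz : z ∈ frontier (gbox g i j)) :
    z.1 = g i ∨ z.1 = g (i + 1) ∨ z.2 = g j ∨ z.2 = g (j + 1) := by
  by_contra hcon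
  push Not at hcon
  obtain ⟨c1, c2, c3, c4⟩ := hcon
  have hzb : z ∈ gbox g i j := (isCompact_gbox g i j).isClosed.frontier_subset hz
  rw [(isCompact_gbox g i j).isClosed.frontier_eq] at hz
  apply hz.2
  refine interior_maximal (t := Ioo (g i) (g (i + 1)) ×ˢ Ioo (g j) (g (j + 1))) ?_
    (isOpen_Ioo.prod isOpen_Ioo) ?_
  · rintro y ⟨hy1, hy2⟩
    exact ⟨⟨hy1.1.le, hy1.2.le⟩, hy2.1.le, hy2.2.le⟩
  · exact ⟨⟨lt_of_le_of_ne hzb.1.1 (Ne.symm c1), lt_of_le_of_ne hzb.1.2 c2⟩,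
      lt_of_le_of_ne hzb.2.1 (Ne.symm c3), lt_of_le_of_ne hzb.2.2 c4⟩

/-! ### corners -/

/-- `w` is not in the open segment between two points of a set with constant signs -/
def Cor (L : Finset (H579.P →ᵃ[ℝ] ℝ)) (C : Set H579.P) (w : H579.P) : Prop :=
  ∀ S ⊆ C, SgnOn L S → ∀ p ∈ S, ∀ q ∈ S, w ∈ openSegment ℝ p q → p = q

theorem zero_of_open {l : H579.P →ᵃ[ℝ] ℝ} {S : Set H579.P}
    (h : (∀ z ∈ S, 0 ≤ l z) ∨ ∀ z ∈ S, l z ≤ 0) {p q w : H579.P} (hp : p ∈ S) (hq : q ∈ S)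
    (hw : w ∈ openSegment ℝ p q) (h0 : l w = 0) : l p = 0 ∧ l q = 0 := by
  have hi : l w ∈ openSegment ℝ (l p) (l q) := by
    rw [← image_openSegment]; exact mem_image_of_mem _ hw
  obtain ⟨a, b, ha, hb, -, he⟩ := hi
  rw [h0, smul_eq_mul, smul_eq_mul] at he
  rcases h with h | h
  · have h1 := mul_nonneg ha.le (h p hp)
    have h2 := mul_nonneg hb.le (h q hq)
    constructor
    · have : a * l p = 0 := by linarith
      exact (mul_eq_zero.1 this).resolve_left ha.ne'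
    · have : b * l q = 0 := by linarith
      exact (mul_eq_zero.1 this).resolve_left hb.ne'
  · have h1 := mul_nonpos_of_nonneg_of_nonpos ha.le (h p hp)
    have h2 := mul_nonpos_of_nonneg_of_nonpos hb.le (h q hq)
    constructor
    · have : a * l p = 0 := by linarith
      exact (mul_eq_zero.1 this).resolve_left ha.ne'
    · have : b * l q = 0 := by linarith
      exact (mul_eq_zero.1 this).resolve_left hb.ne'

theorem ev_lower {c x y : ℝ} (h0 : c ≤ x) (h : x = c → y = c) :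
    ∀ᶠ τ in 𝓝[>] (0:ℝ), c ≤ x + τ * (y - x) := by
  rcases h0.eq_or_lt with h1 | h1
  · refine Eventually.of_forall fun τ => ?_
    rw [h h1.symm, ← h1]; simp
  · have hc : ContinuousAt (fun τ : ℝ => x + τ * (y - x)) 0 := by fun_prop
    have h2 : ∀ᶠ τ in 𝓝 (0:ℝ), c < x + τ * (y - x) :=
      hc.eventually (lt_mem_nhds (by simpa using h1))
    exact (h2.filter_mono nhdsWithin_le_nhds).mono fun τ hτ => hτ.le

theorem ev_upper {c x y : ℝ} (h0 : x ≤ c) (h : x = c → y = c) :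
    ∀ᶠ τ in 𝓝[>] (0:ℝ), x + τ * (y - x) ≤ c := by
  have h1 := ev_lower (c := -c) (x := -x) (y := -y) (by linarith) fun h2 => by
    rw [h (by linarith)]
  filter_upwards [h1] with τ hτ
  nlinarith

/-- an end point of a segment is extreme -/
theorem seg_end {u v p q w : H579.P} (hp : p ∈ segment ℝ u v) (hq : q ∈ segment ℝ u v)
    (hw : w ∈ openSegment ℝ p q) (hwe : w = u ∨ w = v) : p = q := by
  rw [segment_eq_image_lineMap] at hp hq
  obtain ⟨x, hx, rfl⟩ := hp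
  obtain ⟨y, hy, rfl⟩ := hq
  by_cases huv : u = v
  · subst huv; simp
  have hi : w ∈ openSegment ℝ (AffineMap.lineMap u v x) (AffineMap.lineMap u v y : H579.P) := hw
  rw [← image_openSegment] at hi
  obtain ⟨z, ⟨a, b, ha, hb, hab, hz⟩, hzw⟩ := hi
  have hinj : Function.Injective (AffineMap.lineMap u v : ℝ → H579.P) :=
    AffineMap.lineMap_injective ℝ huv
  rw [smul_eq_mul, smul_eq_mul] at hz
  rcases hwe with rfl | rfl
  · have h0 : z = 0 := hinj (by rw [hzw]; simp)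
    rw [h0] at hz
    have h1 := mul_nonneg ha.le hx.1
    have h2 := mul_nonneg hb.le hy.1
    have h3 : x = 0 := (mul_eq_zero.1 (show a * x = 0 by linarith)).resolve_left ha.ne'
    have h4 : y = 0 := (mul_eq_zero.1 (show b * y = 0 by linarith)).resolve_left hb.ne'
    rw [h3, h4]
  · have h0 : z = 1 := hinj (by rw [hzw]; simp)
    rw [h0] at hz
    have h1 := mul_nonneg ha.le (sub_nonneg.2 hx.2)
    have h2 := mul_nonneg hb.le (sub_nonneg.2 hy.2)
    have h3 : 1 - x = 0 := (mul_eq_zero.1 (show a * (1 - x) = 0 by nlinarith)).resolve_left ha.ne'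
    have h4 : 1 - y = 0 := (mul_eq_zero.1 (show b * (1 - y) = 0 by nlinarith)).resolve_left hb.ne'
    rw [show x = y by linarith]

/-- **the ends of the segments in the boxes are corners** -/
theorem cor_seg {L : Finset (H579.P →ᵃ[ℝ] ℝ)} {C : Set H579.P} (hC : Convex ℝ C) {g : ℕ → ℝ}
    {i j : ℕ} (hL1 : fun0 0 co1 (g i) ∈ L) (hL2 : fun0 0 co1 (g (i + 1)) ∈ L)
    (hL3 : fun0 0 co2 (g j) ∈ L) (hL4 : fun0 0 co2 (g (j + 1)) ∈ L) {l : H579.P →ᵃ[ℝ] ℝ}
    (hl : l ∈ L) {s : H579.P × H579.P}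
    (hs : segment ℝ s.1 s.2 = {z | z ∈ C ∩ gbox g i j ∧ l z = 0}) {w : H579.P}
    (hw : w = s.1 ∨ w = s.2) : Cor L C w := by
  intro S hSC hsgn p hp q hq hwo
  have hws : w ∈ segment ℝ s.1 s.2 := by
    rcases hw with rfl | rfl
    · exact left_mem_segment ℝ _ _
    · exact right_mem_segment ℝ _ _
  rw [hs] at hws
  obtain ⟨⟨hwC, ⟨b1, b2⟩, b3, b4⟩, hlw⟩ := hws
  -- the boxes
  have zer : ∀ m ∈ L, m w = 0 → m p = 0 ∧ m q = 0 := fun m hm h0 =>
    zero_of_open (hsgn m hm) hp hq hwo h0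
  have c1 : ∀ {i}, fun0 0 co1 (g i) ∈ L → w.1 = g i → p.1 = g i ∧ q.1 = g i := by
    intro i hi h0
    have := zer _ hi (by rw [fun0_apply, sub_zero, co1_apply, h0, sub_self])
    rw [fun0_apply, fun0_apply, sub_zero, sub_zero, co1_apply, co1_apply] at this
    exact ⟨by linarith [this.1], by linarith [this.2]⟩
  have c2 : ∀ {j}, fun0 0 co2 (g j) ∈ L → w.2 = g j → p.2 = g j ∧ q.2 = g j := by
    intro j hj h0
    have := zer _ hj (by rw [fun0_apply, sub_zero, co2_apply, h0, sub_self])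
    rw [fun0_apply, fun0_apply, sub_zero, sub_zero, co2_apply, co2_apply] at this
    exact ⟨by linarith [this.1], by linarith [this.2]⟩
  -- points near `w`
  have near : ∀ r ∈ S, (w.1 = g i → r.1 = g i) → (w.1 = g (i + 1) → r.1 = g (i + 1)) →
      (w.2 = g j → r.2 = g j) → (w.2 = g (j + 1) → r.2 = g (j + 1)) → l r = 0 →
      ∀ᶠ τ in 𝓝[>] (0:ℝ), (AffineMap.lineMap w r τ : H579.P) ∈ segment ℝ s.1 s.2 := by
    intro r hr d1 d2 d3 d4 hlr
    have hτ1 : ∀ᶠ τ in 𝓝[>] (0:ℝ), τ ≤ 1 :=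
      ((gt_mem_nhds (show (0:ℝ) < 1 by norm_num)).mono fun τ hτ => hτ.le).filter_mono
        nhdsWithin_le_nhds
    filter_upwards [self_mem_nhdsWithin, hτ1, ev_lower b1 d1, ev_upper b2 d2, ev_lower b3 d3,
      ev_upper b4 d4] with τ t0 t1 t2 t3 t4 t5
    rw [hs]
    have e : (AffineMap.lineMap w r τ : H579.P) = (w.1 + τ * (r.1 - w.1), w.2 + τ * (r.2 - w.2)) := by
      rw [AffineMap.lineMap_apply]
      apply Prod.ext
      · simp; ring
      · simp; ring
    refine ⟨⟨hC.lineMap_mem hwC (hSC hr) ⟨le_of_lt t0, t1⟩, ?_⟩, ?_⟩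
    · rw [e]
      exact ⟨⟨t2, t3⟩, t4, t5⟩
    · rw [AffineMap.apply_lineMap, hlw, hlr]; simp
  have zl := zer l hl hlw
  have np := near p hp (fun h => (c1 hL1 h).1) (fun h => (c1 hL2 h).1) (fun h => (c2 hL3 h).1)
    (fun h => (c2 hL4 h).1) zl.1
  have nq := near q hq (fun h => (c1 hL1 h).2) (fun h => (c1 hL2 h).2) (fun h => (c2 hL3 h).2)
    (fun h => (c2 hL4 h).2) zl.2
  obtain ⟨τ, ⟨h1, h2⟩, h3⟩ := ((np.and nq).and self_mem_nhdsWithin).exists
  have h3' : (0:ℝ) < τ := h3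
  have h4 : w ∈ openSegment ℝ (AffineMap.lineMap w p τ) (AffineMap.lineMap w q τ : H579.P) := by
    obtain ⟨a, b, ha, hb, hab, he⟩ := hwo
    refine ⟨a, b, ha, hb, hab, ?_⟩
    rw [AffineMap.lineMap_apply_module', AffineMap.lineMap_apply_module']
    have e1 : a • (τ • (p - w) + w) + b • (τ • (q - w) + w) =
        τ • ((a • p + b • q) - (a + b) • w) + (a + b) • w := by module
    rw [e1, he, hab, one_smul, sub_self, smul_zero, zero_add]
  have h5 := seg_end h1 h2 h4 hw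
  rw [AffineMap.lineMap_apply_module', AffineMap.lineMap_apply_module'] at h5
  have h6 : τ • (p - w) = τ • (q - w) := add_right_cancel h5
  have h7 := smul_right_injective H579.P h3'.ne' h6
  exact sub_left_injective h7

/-- the end of a chord on the frontier is a corner -/
theorem cor_chord {L : Finset (H579.P →ᵃ[ℝ] ℝ)} {C : Set H579.P} (hcpt : IsCompact C)
    (hC : Convex ℝ C) {l : H579.P →ᵃ[ℝ] ℝ} (hl : l ∈ L) (hlin : l.linear ≠ 0)
    {s : H579.P × H579.P} (hs : ∀ z ∈ segment ℝ s.1 s.2, l z = 0) (h1 : s.1 ∈ C)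
    (h1' : s.1 ∉ frontier C) (h2 : s.2 ∈ frontier C) : Cor L C s.2 := by
  intro S hSC hsgn p hp q hq hwo
  by_contra hpq
  have hi : s.1 ∈ interior C := by
    by_contra h5
    exact h1' (by rw [hcpt.isClosed.frontier_eq]; exact ⟨h1, h5⟩)
  have h2' : s.2 ∉ interior C := by
    rw [hcpt.isClosed.frontier_eq] at h2; exact h2.2
  obtain ⟨f, hf⟩ := geometric_hahn_banach_open_point hC.interior isOpen_interior h2'
  have hfC : ∀ z ∈ C, f z ≤ f s.2 := by
    have hcl : C ⊆ closure (interior C) := by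
      rw [hC.closure_interior_eq_closure_of_nonempty_interior ⟨_, hi⟩]
      exact subset_closure
    intro z hz
    exact closure_minimal (fun y hy => (hf y hy).le : interior C ⊆ {y | f y ≤ f s.2})
      (isClosed_le f.continuous continuous_const) (hcl hz)
  obtain ⟨a, b, ha, hb, hab, he⟩ := id hwo
  have e1 : f s.2 = a * f p + b * f q := by
    rw [← he, map_add, map_smul, map_smul, smul_eq_mul, smul_eq_mul]
  have e2 := hfC p (hSC hp)
  have e3 := hfC q (hSC hq)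
  have hb1 : b = 1 - a := by linarith
  have e4 : f p = f q := by
    have k1 : a * (f s.2 - f p) + b * (f s.2 - f q) = 0 := by rw [hb1] at e1 ⊢; nlinarith
    have k2 := mul_nonneg ha.le (sub_nonneg.2 e2)
    have k3 := mul_nonneg hb.le (sub_nonneg.2 e3)
    have k4 : f s.2 - f p = 0 :=
      (mul_eq_zero.1 (show a * (f s.2 - f p) = 0 by linarith)).resolve_left ha.ne'
    have k5 : f s.2 - f q = 0 :=
      (mul_eq_zero.1 (show b * (f s.2 - f q) = 0 by linarith)).resolve_left hb.ne'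
    linarith
  obtain ⟨z1, z2⟩ := zero_of_open (hsgn l hl) hp hq hwo (hs _ (right_mem_segment ℝ _ _))
  have zs := hs _ (left_mem_segment ℝ _ _)
  have zs2 := hs _ (right_mem_segment ℝ _ _)
  have hpos := lin_ne hlin
  set α := l.linear (1, 0) with hα
  set β := l.linear (0, 1) with hβ
  -- the kernel is one-dimensional
  have k1 : (p.1 - q.1) * α + (p.2 - q.2) * β = 0 := by
    have := aff_coord l q p
    rw [z1, z2] at this; linarith
  have k2 : (s.1.1 - s.2.1) * α + (s.1.2 - s.2.2) * β = 0 := by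
    have := aff_coord l s.2 s.1
    rw [zs, zs2] at this; linarith
  have hflin : ∀ x y : H579.P, f x - f y = (x.1 - y.1) * f (1, 0) + (x.2 - y.2) * f (0, 1) := by
    intro x y
    have h3 : x - y = (x.1 - y.1) • ((1, 0) : ℝ × ℝ) + (x.2 - y.2) • ((0, 1) : ℝ × ℝ) := by
      apply Prod.ext <;> simp
    rw [← map_sub, h3, map_add, map_smul, map_smul, smul_eq_mul, smul_eq_mul]
  have f1 := hflin p q
  have f2 := hflin s.1 s.2
  have f3 : f s.1 < f s.2 := hf _ hi
  rw [e4, sub_self] at f1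
  -- `p - q = c (β, -α)` with `c ≠ 0`
  have p1 : (p.1 - q.1) * (α ^ 2 + β ^ 2) = ((p.1 - q.1) * β - (p.2 - q.2) * α) * β := by
    linear_combination α * k1
  have p2 : (p.2 - q.2) * (α ^ 2 + β ^ 2) = -(((p.1 - q.1) * β - (p.2 - q.2) * α) * α) := by
    linear_combination β * k1
  have q1 : (s.1.1 - s.2.1) * (α ^ 2 + β ^ 2) =
      ((s.1.1 - s.2.1) * β - (s.1.2 - s.2.2) * α) * β := by
    linear_combination α * k2
  have q2 : (s.1.2 - s.2.2) * (α ^ 2 + β ^ 2) =
      -(((s.1.1 - s.2.1) * β - (s.1.2 - s.2.2) * α) * α) := by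
    linear_combination β * k2
  set c := (p.1 - q.1) * β - (p.2 - q.2) * α with hc
  set c' := (s.1.1 - s.2.1) * β - (s.1.2 - s.2.2) * α with hc'
  have hc0 : c ≠ 0 := by
    intro h0
    rw [h0, zero_mul] at p1
    rw [h0, zero_mul, neg_zero] at p2
    have r1 := (mul_eq_zero.1 p1).resolve_right hpos.ne'
    have r2 := (mul_eq_zero.1 p2).resolve_right hpos.ne'
    exact hpq (Prod.ext (by linarith) (by linarith))
  have g1 : c * (β * f (1, 0) - α * f (0, 1)) = 0 := by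
    linear_combination (-(α ^ 2 + β ^ 2)) * f1 - f (1, 0) * p1 - f (0, 1) * p2
  have g2 : β * f (1, 0) - α * f (0, 1) = 0 := (mul_eq_zero.1 g1).resolve_left hc0
  have g3 : (f s.1 - f s.2) * (α ^ 2 + β ^ 2) = c' * (β * f (1, 0) - α * f (0, 1)) := by
    linear_combination (α ^ 2 + β ^ 2) * f2 + f (1, 0) * q1 + f (0, 1) * q2
  rw [g2, mul_zero] at g3
  have g4 := (mul_eq_zero.1 g3).resolve_right hpos.ne'
  linarith

/-- another point of the side -/
theorem exists_other {C : Set H579.P} {w v : H579.P} (hw : w ∈ interior C) {a b x : ℝ}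
    (hab : a < b) (hx : a ≤ x ∧ x ≤ b) : ∃ t : ℝ, t ≠ 0 ∧ (a ≤ x + t ∧ x + t ≤ b) ∧ w + t • v ∈ C := by
  have hc : Continuous fun t : ℝ => w + t • v := by fun_prop
  have hnh : ∀ᶠ t in 𝓝 (0:ℝ), w + t • v ∈ interior C := by
    refine hc.continuousAt.eventually (isOpen_interior.mem_nhds ?_)
    simpa using hw
  obtain ⟨δ, hδ, hb⟩ := Metric.eventually_nhds_iff.1 hnh
  rcases hx.2.lt_or_eq with h1 | h1
  · refine ⟨min (δ / 2) (b - x), ?_, ⟨?_, ?_⟩, interior_subset (hb ?_)⟩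
    · have : 0 < min (δ / 2) (b - x) := lt_min (by positivity) (by linarith)
      exact this.ne'
    · have : 0 < min (δ / 2) (b - x) := lt_min (by positivity) (by linarith)
      linarith [hx.1]
    · linarith [min_le_right (δ / 2) (b - x)]
    · have : 0 < min (δ / 2) (b - x) := lt_min (by positivity) (by linarith)
      rw [Real.dist_eq, sub_zero, abs_of_pos this]
      linarith [min_le_left (δ / 2) (b - x)]
  · have hm : 0 < min (δ / 2) (b - a) := lt_min (by positivity) (by linarith)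
    refine ⟨-min (δ / 2) (b - a), ?_, ⟨?_, ?_⟩, interior_subset (hb ?_)⟩
    · linarith
    · linarith [min_le_right (δ / 2) (b - a)]
    · linarith
    · rw [Real.dist_eq, sub_zero, abs_neg, abs_of_pos hm]
      linarith [min_le_left (δ / 2) (b - a)]

variable {E : Type*} [NormedAddCommGroup E] [NormedSpace ℝ E]

/-- **[W2] in the plane**: the points `X`, then the arrangement and the segments -/
theorem exists_plane {C : Set H579.P} (hcpt : IsCompact C) (hC : Convex ℝ C) (hcone : LocCone C)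
    {e : ℝ} (he : 0 < e) :
    ∃ X : Finset H579.P, (∀ z ∈ X, z ∈ C) ∧
    ∀ (h : H579.P → E), ConicalOn h C → ∀ (m : Finset (E →ᵃ[ℝ] ℝ))
      (ch : Finset (H579.P × H579.P)),
      (∀ s ∈ ch, s.1 ∈ X ∧ s.1 ∉ frontier C ∧ s.2 ∈ frontier C ∧ segment ℝ s.1 s.2 ⊆ C) →
      ∃ (L : Finset (H579.P →ᵃ[ℝ] ℝ)) (sg : Finset (H579.P × H579.P)),
        (∀ l ∈ L, l.linear ≠ 0) ∧
        (∀ S ⊆ C, SgnOn L S → (∃ A : H579.P →ᵃ[ℝ] E, EqOn h A S) ∧
          (∀ a ∈ m, (∀ z ∈ S, 0 ≤ a (h z)) ∨ ∀ z ∈ S, a (h z) ≤ 0) ∧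
          ∀ x ∈ S, ∀ y ∈ S, ‖x - y‖ ≤ e) ∧
        ch ⊆ sg ∧ (∀ s ∈ sg, segment ℝ s.1 s.2 ⊆ C) ∧
        (∀ s ∈ sg, ∃ l ∈ L, ∀ z ∈ segment ℝ s.1 s.2, l z = 0) ∧
        (∀ s ∈ sg, s.1 ≠ s.2 ∧ Cor L C s.1 ∧ Cor L C s.2) ∧
        ∀ l ∈ L, ∀ p ∈ C, l p = 0 → p ∈ frontier C ∨
          (∃ s ∈ sg, p ∈ segment ℝ s.1 s.2 ∧ s.2 ∈ frontier C ∧ ‖s.1 - s.2‖ ≤ e) ∨
          ∃ s ∈ sg, ∃ s' ∈ sg, ∃ z ∈ X,
            p ∈ segment ℝ s.1 s.2 ∧ s.2 ∈ segment ℝ s'.1 s'.2 ∧ z ∈ segment ℝ s'.1 s'.2 ∧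
            ‖s.1 - s.2‖ ≤ e ∧ ‖s'.1 - s'.2‖ ≤ e := by
  classical
  -- the grid
  obtain ⟨R₀, hR₀⟩ := hcpt.isBounded.exists_norm_le
  set R : ℝ := max R₀ 1 with hRd
  have hR : ∀ z ∈ C, ‖z‖ ≤ R := fun z hz => (hR₀ z hz).trans (le_max_left _ _)
  have hR0 : 0 < R := lt_of_lt_of_le one_pos (le_max_right _ _)
  obtain ⟨N, hN⟩ := exists_nat_gt (2 * R / e)
  have hN0 : (0 : ℝ) < N := lt_trans (by positivity) hN
  have hNp : 0 < N := by exact_mod_cast hN0
  set d : ℝ := 2 * R / N with hd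
  have hd0 : 0 < d := by positivity
  have hde : d ≤ e := by
    rw [hd, div_le_iff₀ hN0]
    rw [div_lt_iff₀ he] at hN
    linarith
  set g : ℕ → ℝ := fun i => -R + i * d with hg
  have hg0 : g 0 = -R := by simp [hg]
  have hgN : g N = R := by
    simp only [hg, hd]
    field_simp
    ring
  have hgs : ∀ i, g (i + 1) = g i + d := by
    intro i; simp only [hg]; push_cast; ring
  have hboxd : ∀ i j, ∀ x ∈ gbox g i j, ∀ y ∈ gbox g i j, ‖x - y‖ ≤ e := by
    intro i j x hx y hy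
    refine le_trans ?_ hde
    rw [Prod.norm_def, max_le_iff, Real.norm_eq_abs, Real.norm_eq_abs, abs_le, abs_le]
    obtain ⟨⟨x1, x2⟩, x3, x4⟩ := hx
    obtain ⟨⟨y1, y2⟩, y3, y4⟩ := hy
    rw [hgs] at x2 x4 y2 y4
    simp only [Prod.fst_sub, Prod.snd_sub]
    refine ⟨⟨?_, ?_⟩, ?_, ?_⟩ <;> linarith
  -- the segments of the lines in the boxes
  have hseg : ∀ q : (H579.P →ᵃ[ℝ] ℝ) × (ℕ × ℕ), ∃ s : H579.P × H579.P, q.1.linear ≠ 0 →
      (∃ p ∈ C ∩ gbox g q.2.1 q.2.2, q.1 p = 0) →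
      segment ℝ s.1 s.2 = {z | z ∈ C ∩ gbox g q.2.1 q.2.2 ∧ q.1 z = 0} ∧
      s.2 ∈ frontier (C ∩ gbox g q.2.1 q.2.2) := by
    intro q
    by_cases h1 : q.1.linear ≠ 0 ∧ ∃ p ∈ C ∩ gbox g q.2.1 q.2.2, q.1 p = 0
    · obtain ⟨h1, p, hp, hp0⟩ := h1
      obtain ⟨s, hs⟩ := exists_seg_cpt h1 (hcpt.inter (isCompact_gbox _ _ _))
        (hC.inter (convex_gbox _ _ _)) hp hp0
      exact ⟨s, fun _ _ => hs⟩
    · exact ⟨0, fun h2 h3 => absurd ⟨h2, h3⟩ h1⟩
  choose sF hsF using hseg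
  -- grid functionals
  set G : Finset (H579.P →ᵃ[ℝ] ℝ) := ((Finset.range (N + 1)).image fun i => fun0 0 co1 (g i)) ∪
    ((Finset.range (N + 1)).image fun i => fun0 0 co2 (g i)) with hG
  have hv : ∀ i ≤ N, fun0 0 co1 (g i) ∈ G := fun i hi =>
    Finset.mem_union_left _ (Finset.mem_image_of_mem _ (Finset.mem_range.2 (by omega)))
  have hh : ∀ i ≤ N, fun0 0 co2 (g i) ∈ G := fun i hi =>
    Finset.mem_union_right _ (Finset.mem_image_of_mem _ (Finset.mem_range.2 (by omega)))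
  have hGlin : ∀ l ∈ G, l.linear ≠ 0 := by
    intro l hl
    rcases Finset.mem_union.1 hl with hl | hl
    · obtain ⟨i, -, rfl⟩ := Finset.mem_image.1 hl
      intro h0
      have h3 : co1 = 0 := h0
      have h4 := LinearMap.congr_fun h3 (1, 0)
      rw [co1_apply] at h4
      norm_num at h4
    · obtain ⟨i, -, rfl⟩ := Finset.mem_image.1 hl
      intro h0
      have h3 : co2 = 0 := h0
      have h4 := LinearMap.congr_fun h3 (0, 1)
      rw [co2_apply] at h4
      norm_num at h4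
  set QG : Finset ((H579.P →ᵃ[ℝ] ℝ) × (ℕ × ℕ)) :=
    (G ×ˢ (Finset.range N ×ˢ Finset.range N)).filter
      fun q => ∃ p ∈ C ∩ gbox g q.2.1 q.2.2, q.1 p = 0 with hQG
  set X : Finset H579.P := QG.image fun q => (sF q).2 with hX
  refine ⟨X, ?_, ?_⟩
  · intro z hz
    obtain ⟨q, hq, rfl⟩ := Finset.mem_image.1 hz
    obtain ⟨hq1, hq2⟩ := Finset.mem_filter.1 hq
    obtain ⟨hq3, hq4⟩ := Finset.mem_product.1 hq1
    have h1 : (sF q).2 ∈ segment ℝ (sF q).1 (sF q).2 := right_mem_segment ℝ _ _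
    rw [(hsF q (hGlin _ hq3) hq2).1] at h1
    exact h1.1.1
  intro h hk m ch hch
  choose lF hlF0 hlF using fun s : H579.P × H579.P => exists_line s.1 s.2
  set L₀ : Finset (H579.P →ᵃ[ℝ] ℝ) := G ∪ ch.image lF with hL₀
  have hlin0 : ∀ l ∈ L₀, l.linear ≠ 0 := by
    intro l hl
    rcases Finset.mem_union.1 hl with hl | hl
    · exact hGlin l hl
    · obtain ⟨s, -, rfl⟩ := Finset.mem_image.1 hl
      exact hlF0 s
  obtain ⟨L, hLsub, hLne, hL⟩ := exists_lines hcpt hC hcone hk m L₀ he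
  have hGL : ∀ l ∈ G, l ∈ L := fun l hl => hLsub (Finset.mem_union_left _ hl)
  have hlin : ∀ l ∈ L, l.linear ≠ 0 := fun l hl => by
    by_cases h0 : l ∈ L₀
    · exact hlin0 l h0
    · exact hLne l hl h0
  set Q : Finset ((H579.P →ᵃ[ℝ] ℝ) × (ℕ × ℕ)) :=
    (L ×ˢ (Finset.range N ×ˢ Finset.range N)).filter
      fun q => ∃ p ∈ C ∩ gbox g q.2.1 q.2.2, q.1 p = 0 with hQ
  -- the ends of the segments
  have hcor : ∀ l ∈ L, ∀ i < N, ∀ j < N, (∃ p ∈ C ∩ gbox g i j, l p = 0) → ∀ w,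
      w = (sF (l, (i, j))).1 ∨ w = (sF (l, (i, j))).2 → Cor L C w := by
    intro l hl i hi j hj hex w hw
    exact cor_seg hC (hGL _ (hv i hi.le)) (hGL _ (hv (i + 1) hi)) (hGL _ (hh j hj.le))
      (hGL _ (hh (j + 1) hj)) hl (hsF (l, (i, j)) (hlin l hl) hex).1 hw
  refine ⟨L, ch ∪ (Q.image sF).filter (fun s => s.1 ≠ s.2), hlin, hL, Finset.subset_union_left,
    ?_, ?_, ?_, ?_⟩
  · intro s hs
    rcases Finset.mem_union.1 hs with hs | hs
    · exact (hch s hs).2.2.2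
    · obtain ⟨q, hq, rfl⟩ := Finset.mem_image.1 (Finset.mem_filter.1 hs).1
      obtain ⟨hq1, hq2⟩ := Finset.mem_filter.1 hq
      obtain ⟨hq3, hq4⟩ := Finset.mem_product.1 hq1
      rw [(hsF q (hlin _ hq3) hq2).1]
      exact fun z hz => hz.1.1
  · intro s hs
    rcases Finset.mem_union.1 hs with hs | hs
    · exact ⟨lF s, hLsub (Finset.mem_union_right _ (Finset.mem_image_of_mem _ hs)), hlF s⟩
    · obtain ⟨q, hq, rfl⟩ := Finset.mem_image.1 (Finset.mem_filter.1 hs).1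
      obtain ⟨hq1, hq2⟩ := Finset.mem_filter.1 hq
      obtain ⟨hq3, hq4⟩ := Finset.mem_product.1 hq1
      refine ⟨q.1, hq3, ?_⟩
      rw [(hsF q (hlin _ hq3) hq2).1]
      exact fun z hz => hz.2
  · intro s hs
    rcases Finset.mem_union.1 hs with hs | hs
    · obtain ⟨c1, c2, c3, c4⟩ := hch s hs
      refine ⟨fun h0 => c2 (h0 ▸ c3), ?_, ?_⟩
      · obtain ⟨q, hq, hqs⟩ := Finset.mem_image.1 c1
        obtain ⟨hq1, hq2⟩ := Finset.mem_filter.1 hq
        obtain ⟨hq3, hq4⟩ := Finset.mem_product.1 hq1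
        obtain ⟨hq5, hq6⟩ := Finset.mem_product.1 hq4
        exact hcor q.1 (hGL _ hq3) q.2.1 (Finset.mem_range.1 hq5) q.2.2 (Finset.mem_range.1 hq6)
          hq2 s.1 (Or.inr hqs.symm)
      · exact cor_chord hcpt hC (hLsub (Finset.mem_union_right _ (Finset.mem_image_of_mem _ hs)))
          (hlF0 s) (hlF s) (c4 (left_mem_segment ℝ _ _)) c2 c3
    · obtain ⟨hs1, hs2⟩ := Finset.mem_filter.1 hs
      obtain ⟨q, hq, rfl⟩ := Finset.mem_image.1 hs1
      obtain ⟨hq1, hq2⟩ := Finset.mem_filter.1 hq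
      obtain ⟨hq3, hq4⟩ := Finset.mem_product.1 hq1
      obtain ⟨hq5, hq6⟩ := Finset.mem_product.1 hq4
      exact ⟨hs2, hcor q.1 hq3 q.2.1 (Finset.mem_range.1 hq5) q.2.2 (Finset.mem_range.1 hq6) hq2 _
        (Or.inl rfl), hcor q.1 hq3 q.2.1 (Finset.mem_range.1 hq5) q.2.2 (Finset.mem_range.1 hq6)
        hq2 _ (Or.inr rfl)⟩
  · intro l hl p hp hlp
    by_cases hpf : p ∈ frontier C
    · exact Or.inl hpf
    right
    have hpn := hR p hp
    rw [Prod.norm_def, max_le_iff, Real.norm_eq_abs, Real.norm_eq_abs, abs_le, abs_le, ← hg0,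
      ← hgN] at hpn
    obtain ⟨i, hi, hi1⟩ := exists_cell_of_mono hNp hpn.1.1 hpn.1.2
    obtain ⟨j, hj, hj1⟩ := exists_cell_of_mono hNp hpn.2.1 hpn.2.2
    have hpb : p ∈ C ∩ gbox g i j := ⟨hp, hi1, hj1⟩
    have hex : ∃ p ∈ C ∩ gbox g i j, l p = 0 := ⟨p, hpb, hlp⟩
    have hij : (i, j) ∈ Finset.range N ×ˢ Finset.range N :=
      Finset.mem_product.2 ⟨Finset.mem_range.2 hi, Finset.mem_range.2 hj⟩
    have hlt : ∀ i, g i < g (i + 1) := fun i => by rw [hgs]; linarith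
    have hCi : ∀ w ∈ C, w ∉ frontier C → w ∈ interior C := by
      intro w hw hwf
      by_contra h5
      exact hwf (by rw [hcpt.isClosed.frontier_eq]; exact ⟨hw, h5⟩)
    -- the ends of a segment of the family lie in the box
    have ends : ∀ l' ∈ L, (∃ p ∈ C ∩ gbox g i j, l' p = 0) →
        (sF (l', (i, j))).1 ∈ C ∩ gbox g i j ∧ (sF (l', (i, j))).2 ∈ C ∩ gbox g i j := by
      intro l' hl' hex'
      have h1 := (hsF (l', (i, j)) (hlin l' hl') hex').1
      have h2 : (sF (l', (i, j))).1 ∈ segment ℝ (sF (l', (i, j))).1 (sF (l', (i, j))).2 :=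
        left_mem_segment ℝ _ _
      have h3 : (sF (l', (i, j))).2 ∈ segment ℝ (sF (l', (i, j))).1 (sF (l', (i, j))).2 :=
        right_mem_segment ℝ _ _
      rw [h1] at h2 h3
      exact ⟨h2.1, h3.1⟩
    -- a point of the side in the interior: the side is a nondegenerate segment
    have side : ∀ w ∈ interior C, w ∈ gbox g i j →
        (w.1 = g i ∨ w.1 = g (i + 1) ∨ w.2 = g j ∨ w.2 = g (j + 1)) →
        ∃ s' ∈ ch ∪ (Q.image sF).filter (fun s => s.1 ≠ s.2), s'.2 ∈ X ∧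
          w ∈ segment ℝ s'.1 s'.2 ∧ ‖s'.1 - s'.2‖ ≤ e := by
      intro w hwi hwb hside
      have hwC : w ∈ C := interior_subset hwi
      have key : ∀ l' ∈ G, l' w = 0 → (∃ y ∈ C ∩ gbox g i j, y ≠ w ∧ l' y = 0) →
          ∃ s' ∈ ch ∪ (Q.image sF).filter (fun s => s.1 ≠ s.2), s'.2 ∈ X ∧
            w ∈ segment ℝ s'.1 s'.2 ∧ ‖s'.1 - s'.2‖ ≤ e := by
        rintro l' hl' h0 ⟨y, hy, hyw, hy0⟩
        have hex' : ∃ p ∈ C ∩ gbox g i j, l' p = 0 := ⟨w, ⟨hwC, hwb⟩, h0⟩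
        have h1 := (hsF (l', (i, j)) (hGlin l' hl') hex').1
        have hw1 : w ∈ segment ℝ (sF (l', (i, j))).1 (sF (l', (i, j))).2 := by
          rw [h1]; exact ⟨⟨hwC, hwb⟩, h0⟩
        have hy1 : y ∈ segment ℝ (sF (l', (i, j))).1 (sF (l', (i, j))).2 := by
          rw [h1]; exact ⟨hy, hy0⟩
        have hnd : (sF (l', (i, j))).1 ≠ (sF (l', (i, j))).2 := by
          intro h5
          rw [h5, segment_same] at hw1 hy1
          exact hyw (hy1.trans hw1.symm)
        obtain ⟨f1, f2⟩ := ends l' (hGL l' hl') hex'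
        refine ⟨sF (l', (i, j)), ?_, ?_, hw1, hboxd i j _ f1.2 _ f2.2⟩
        · exact Finset.mem_union_right _ (Finset.mem_filter.2 ⟨Finset.mem_image.2
            ⟨(l', (i, j)), Finset.mem_filter.2 ⟨Finset.mem_product.2 ⟨hGL l' hl', hij⟩, hex'⟩,
              rfl⟩, hnd⟩)
        · exact Finset.mem_image.2 ⟨(l', (i, j)), Finset.mem_filter.2
            ⟨Finset.mem_product.2 ⟨hl', hij⟩, hex'⟩, rfl⟩
      -- vertical and horizontal
      have vert : ∀ c, fun0 0 co1 c ∈ G → w.1 = c →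
          ∃ s' ∈ ch ∪ (Q.image sF).filter (fun s => s.1 ≠ s.2), s'.2 ∈ X ∧
            w ∈ segment ℝ s'.1 s'.2 ∧ ‖s'.1 - s'.2‖ ≤ e := by
        intro c hc hwc
        obtain ⟨t, ht, ht2, ht3⟩ := exists_other (v := (0, 1)) hwi (hlt j) hwb.2
        have e1 : w + t • ((0, 1) : H579.P) = (w.1, w.2 + t) := by
          apply Prod.ext <;> simp
        rw [e1] at ht3
        refine key _ hc (by rw [fun0_apply, sub_zero, co1_apply, hwc, sub_self])
          ⟨(w.1, w.2 + t), ⟨ht3, hwb.1, ht2⟩, ?_, ?_⟩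
        · intro h5
          have := congrArg Prod.snd h5
          simp at this
          exact ht this
        · rw [fun0_apply, sub_zero, co1_apply, hwc, sub_self]
      have hor : ∀ c, fun0 0 co2 c ∈ G → w.2 = c →
          ∃ s' ∈ ch ∪ (Q.image sF).filter (fun s => s.1 ≠ s.2), s'.2 ∈ X ∧
            w ∈ segment ℝ s'.1 s'.2 ∧ ‖s'.1 - s'.2‖ ≤ e := by
        intro c hc hwc
        obtain ⟨t, ht, ht2, ht3⟩ := exists_other (v := (1, 0)) hwi (hlt i) hwb.1
        have e1 : w + t • ((1, 0) : H579.P) = (w.1 + t, w.2) := by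
          apply Prod.ext <;> simp
        rw [e1] at ht3
        refine key _ hc (by rw [fun0_apply, sub_zero, co2_apply, hwc, sub_self])
          ⟨(w.1 + t, w.2), ⟨ht3, ht2, hwb.2⟩, ?_, ?_⟩
        · intro h5
          have := congrArg Prod.fst h5
          simp at this
          exact ht this
        · rw [fun0_apply, sub_zero, co2_apply, hwc, sub_self]
      rcases hside with h6 | h6 | h6 | h6
      · exact vert _ (hv i hi.le) h6
      · exact vert _ (hv (i + 1) hi) h6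
      · exact hor _ (hh j hj.le) h6
      · exact hor _ (hh (j + 1) hj) h6
    obtain ⟨hs1, hs2⟩ := hsF (l, (i, j)) (hlin l hl) hex
    obtain ⟨e1, e2⟩ := ends l hl hex
    set s := sF (l, (i, j)) with hs
    have hps : p ∈ segment ℝ s.1 s.2 := by
      rw [hs1]; exact ⟨hpb, hlp⟩
    by_cases hnd : s.1 = s.2
    · -- degenerate segment: the point is on a side
      have hps2 : p = s.2 := by
        rw [hnd, segment_same] at hps; exact hps
      rcases frontier_inter_subset _ _ hs2 with h5 | h5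
      · exact absurd (hps2 ▸ h5.1) hpf
      obtain ⟨s', hs', hX', hps', hne'⟩ := side p (hCi p hp hpf) hpb.2
        (frontier_gbox (by rw [hps2]; exact h5.2))
      exact Or.inr ⟨s', hs', s', hs', s'.2, hX', hps', right_mem_segment ℝ _ _,
        right_mem_segment ℝ _ _, hne', hne'⟩
    · have hsm : s ∈ ch ∪ (Q.image sF).filter (fun s => s.1 ≠ s.2) :=
        Finset.mem_union_right _ (Finset.mem_filter.2 ⟨Finset.mem_image.2
          ⟨(l, (i, j)), Finset.mem_filter.2 ⟨Finset.mem_product.2 ⟨hl, hij⟩, hex⟩, rfl⟩, hnd⟩)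
      by_cases h2f : s.2 ∈ frontier C
      · exact Or.inl ⟨s, hsm, hps, h2f, hboxd i j _ e1.2 _ e2.2⟩
      rcases frontier_inter_subset _ _ hs2 with h5 | h5
      · exact absurd h5.1 h2f
      obtain ⟨s', hs', hX', hps', hne'⟩ := side s.2 (hCi s.2 e2.1 h2f) e2.2 (frontier_gbox h5.2)
      exact Or.inr ⟨s, hsm, s', hs', s'.2, hX', hps, hps', right_mem_segment ℝ _ _,
        hboxd i j _ e1.2 _ e2.2, hne'⟩

end P073.H926
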